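import Mathlib

/-! Power sums of finite multisets of complex numbers. -/

open Filter Topology

set_option linter.unusedSectionVars false
set_option linter.unusedVariables false

noncomputable section

namespace Vale.Agent.P247.H324

/-- power sum -/
def psm (s : Multiset ℂ) (l : ℕ) : ℂ := (s.map (fun x => x ^ l)).sum

theorem psm_cons (a : ℂ) (s : Multiset ℂ) (l : ℕ) : psm (a ::ₘ s) l = a ^ l + psm s l := by
  simp [psm]

theorem psm_zero (s : Multiset ℂ) : psm s 0 = s.card := by
  simp [psm]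

theorem sum_eval (s : Multiset ℂ) (g : Polynomial ℂ) {n : ℕ} (hn : g.natDegree < n) :
    (s.map fun x => g.eval x).sum = ∑ l ∈ Finset.range n, g.coeff l * psm s l := by
  induction s using Multiset.induction_on with
  | empty => simp [psm]
  | cons a s ih =>
      rw [Multiset.map_cons, Multiset.sum_cons, ih, Polynomial.eval_eq_sum_range' hn,
        ← Finset.sum_add_distrib]
      refine Finset.sum_congr rfl fun l _ => ?_
      rw [psm_cons]; ring

theorem psum_unique {s s' : Multiset ℂ} {k : ℕ} (h1 : s.card = k) (h2 : s'.card = k)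
    (h : ∀ l ≤ 2 * k, psm s l = psm s' l) : s = s' := by
  classical
  ext v
  set T := (s + s').toFinset with hT
  by_cases hv : v ∈ T
  · set g : Polynomial ℂ := ∏ w ∈ T.erase v, (Polynomial.X - Polynomial.C w) with hg
    have hdeg : g.natDegree = (T.erase v).card := by
      rw [hg, Polynomial.natDegree_prod_of_monic _ _ fun i _ => Polynomial.monic_X_sub_C i]
      simp
    have hcard : (T.erase v).card < 2 * k + 1 := by
      have : T.card ≤ (s + s').card := Multiset.toFinset_card_le _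
      rw [Multiset.card_add, h1, h2] at this
      have h3 := Finset.card_erase_le (s := T) (a := v)
      omega
    have hn : g.natDegree < 2 * k + 1 := by rw [hdeg]; exact hcard
    have he := sum_eval s g hn
    have he' := sum_eval s' g hn
    have heq : (s.map fun x => g.eval x).sum = (s'.map fun x => g.eval x).sum := by
      rw [he, he']
      refine Finset.sum_congr rfl fun l hl => ?_
      rw [h l (by have := Finset.mem_range.1 hl; omega)]
    have hz : ∀ w ∈ T, w ≠ v → g.eval w = 0 := by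
      intro w hw hwv
      rw [hg, Polynomial.eval_prod]
      exact Finset.prod_eq_zero (Finset.mem_erase.2 ⟨hwv, hw⟩) (by simp)
    have hv0 : g.eval v ≠ 0 := by
      rw [hg, Polynomial.eval_prod]
      refine Finset.prod_ne_zero_iff.2 fun w hw => ?_
      have := (Finset.mem_erase.1 hw).1
      simpa [sub_eq_zero] using this.symm
    have hs : ∀ r : Multiset ℂ, r ≤ s + s' → (r.map fun x => g.eval x).sum = r.count v • g.eval v := by
      intro r hr
      rw [Finset.sum_multiset_map_count]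
      rw [Finset.sum_eq_single v]
      · intro w hw hwv
        rw [hz w (Multiset.toFinset_subset.2 (Multiset.subset_of_le hr) hw) hwv, smul_zero]
      · intro hvr
        rw [Multiset.count_eq_zero_of_notMem (by simpa using hvr), zero_smul]
    rw [hs s (Multiset.le_add_right _ _), hs s' (Multiset.le_add_left _ _), nsmul_eq_mul,
      nsmul_eq_mul] at heq
    exact_mod_cast mul_right_cancel₀ hv0 heq
  · have hv' : v ∉ s + s' := by simpa [hT] using hv
    rw [Multiset.mem_add, not_or] at hv'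
    rw [Multiset.count_eq_zero_of_notMem hv'.1, Multiset.count_eq_zero_of_notMem hv'.2]

/-- the multiset of the values of a tuple -/
def tup {k : ℕ} (v : Fin k → ℂ) : Multiset ℂ := Finset.univ.val.map v

theorem tup_card {k : ℕ} (v : Fin k → ℂ) : (tup v).card = k := by simp [tup]

theorem tup_sum {k : ℕ} (v : Fin k → ℂ) (F : ℂ → ℂ) : ((tup v).map F).sum = ∑ i, F (v i) := by
  rw [tup, Multiset.map_map]; rfl

theorem tup_psm {k : ℕ} (v : Fin k → ℂ) (l : ℕ) : psm (tup v) l = ∑ i, v i ^ l :=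
  tup_sum v _

theorem mem_tup {k : ℕ} (v : Fin k → ℂ) (x : ℂ) : x ∈ tup v ↔ ∃ i, v i = x := by
  simp [tup]

theorem exists_tup {s : Multiset ℂ} {k : ℕ} (h : s.card = k) : ∃ v : Fin k → ℂ, tup v = s := by
  subst h
  refine ⟨fun i => s.toList.get (i.cast (Multiset.length_toList s).symm), ?_⟩
  have h1 : s = (s.toList : Multiset ℂ) := (Multiset.coe_toList s).symm
  conv_rhs => rw [h1]
  unfold tup
  have h2 : (Finset.univ : Finset (Fin s.card)).val = ↑(List.finRange s.card) := rfl
  rw [h2, Multiset.map_coe]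
  congr 1
  refine List.ext_get (by simp) fun n h3 h4 => ?_
  simp

/-- limits of multisets from limits of power sums -/
theorem psum_limit {T : Type*} {𝓕 : Filter T} [𝓕.NeBot] {S : T → Multiset ℂ} {k : ℕ} {B : ℝ}
    (hk : ∀ᶠ t in 𝓕, (S t).card = k) (hB : ∀ᶠ t in 𝓕, ∀ x ∈ S t, ‖x‖ ≤ B) {c : ℕ → ℂ}
    (hc : ∀ l ≤ 2 * k, Tendsto (fun t => psm (S t) l) 𝓕 (𝓝 (c l))) :
    ∃ C : Multiset ℂ, C.card = k ∧ (∀ x ∈ C, ‖x‖ ≤ B) ∧ (∀ l ≤ 2 * k, psm C l = c l) ∧
      ∀ F : ℂ → ℂ, Continuous F → Tendsto (fun t => ((S t).map F).sum) 𝓕 (𝓝 ((C.map F).sum)) := by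
  classical
  have hex : ∀ t, ∃ v : Fin k → ℂ, (S t).card = k → tup v = S t := by
    intro t
    by_cases h : (S t).card = k
    · obtain ⟨v, hv⟩ := exists_tup h
      exact ⟨v, fun _ => hv⟩
    · exact ⟨0, fun h' => absurd h' h⟩
  choose v hv using hex
  set K : Set (Fin k → ℂ) := Metric.closedBall 0 (max B 0) with hK
  have hKc : IsCompact K := isCompact_closedBall _ _
  have hvK : ∀ᶠ t in 𝓕, v t ∈ K := by
    filter_upwards [hk, hB] with t h1 h2
    rw [hK, mem_closedBall_zero_iff, pi_norm_le_iff_of_nonneg (le_max_right _ _)]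
    intro i
    have h3 : v t i ∈ S t := by
      rw [← hv t h1]; exact (mem_tup _ _).2 ⟨i, rfl⟩
    exact (h2 _ h3).trans (le_max_left _ _)
  have hveq : ∀ᶠ t in 𝓕, tup (v t) = S t := by
    filter_upwards [hk] with t h1 using hv t h1
  -- limits along ultrafilters
  have hult : ∀ 𝒢 : Ultrafilter T, (𝒢 : Filter T) ≤ 𝓕 → ∃ V ∈ K, Tendsto v 𝒢 (𝓝 V) ∧
      ∀ l ≤ 2 * k, psm (tup V) l = c l := by
    intro 𝒢 h𝒢
    have h1 : ((𝒢.map v : Ultrafilter _) : Filter _) ≤ 𝓟 K := by
      rw [le_principal_iff]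
      exact h𝒢 hvK
    obtain ⟨V, hV, hV2⟩ := hKc.ultrafilter_le_nhds (𝒢.map v) h1
    have hT : Tendsto v 𝒢 (𝓝 V) := hV2
    refine ⟨V, hV, hT, fun l hl => ?_⟩
    have h2 : Tendsto (fun t => psm (S t) l) 𝒢 (𝓝 (c l)) := (hc l hl).mono_left h𝒢
    have h3 : Tendsto (fun t => psm (tup (v t)) l) 𝒢 (𝓝 (psm (tup V) l)) := by
      simp_rw [tup_psm]
      have hcont : Continuous fun w : Fin k → ℂ => ∑ i, w i ^ l := by fun_prop
      exact (hcont.tendsto V).comp hT
    have h4 : Tendsto (fun t => psm (S t) l) 𝒢 (𝓝 (psm (tup V) l)) := by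
      refine h3.congr' ?_
      filter_upwards [h𝒢 hveq] with t ht
      have ht' : tup (v t) = S t := ht
      rw [ht']
    exact tendsto_nhds_unique h4 h2
  obtain ⟨V0, hV0K, hV0, hV0c⟩ := hult (Ultrafilter.of 𝓕) (Ultrafilter.of_le 𝓕)
  refine ⟨tup V0, tup_card _, ?_, hV0c, fun F hF => ?_⟩
  · intro x hx
    obtain ⟨i, rfl⟩ := (mem_tup _ _).1 hx
    have hcl : IsClosed {w : Fin k → ℂ | ‖w i‖ ≤ B} :=
      isClosed_le (by fun_prop) continuous_const
    refine hcl.mem_of_tendsto hV0 ?_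
    have h1 : ∀ᶠ t in 𝓕, ‖v t i‖ ≤ B := by
      filter_upwards [hk, hB] with t h1 h2
      have h3 : v t i ∈ S t := by
        rw [← hv t h1]; exact (mem_tup _ _).2 ⟨i, rfl⟩
      exact h2 _ h3
    exact Ultrafilter.of_le 𝓕 h1
  · rw [tendsto_iff_ultrafilter]
    intro 𝒢 h𝒢
    obtain ⟨V, hVK, hV, hVc⟩ := hult 𝒢 h𝒢
    have hu : tup V = tup V0 := psum_unique (tup_card V) (tup_card V0) fun l hl => by
      rw [hVc l hl, hV0c l hl]
    rw [← hu]
    have hcont : Continuous fun w : Fin k → ℂ => ∑ i, F (w i) := by fun_prop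
    have h3 : Tendsto (fun t => ∑ i, F (v t i)) 𝒢 (𝓝 (∑ i, F (V i))) :=
      (hcont.tendsto V).comp hV
    rw [tup_sum]
    refine h3.congr' ?_
    filter_upwards [h𝒢 hveq] with t ht
    have ht' : tup (v t) = S t := ht
    rw [← ht', tup_sum]

/-- roots are controlled by power sums -/
theorem psum_bound (k : ℕ) : ∃ C > 0, ∀ s : Multiset ℂ, s.card = k → ∀ δ : ℝ, 0 ≤ δ →
    (∀ l, 1 ≤ l → l ≤ 2 * k → ‖psm s l‖ ≤ δ ^ l) → ∀ x ∈ s, ‖x‖ ≤ C * δ := by
  classical
  rcases Nat.eq_zero_or_pos k with hk | hk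
  · refine ⟨1, one_pos, fun s hs δ _ _ x hx => ?_⟩
    rw [hk, Multiset.card_eq_zero] at hs
    rw [hs] at hx
    exact absurd hx (Multiset.notMem_zero x)
  set f : (Fin k → ℂ) → ℝ := fun v => ∑ l ∈ Finset.Icc 1 (2 * k), ‖∑ i, v i ^ l‖ with hf
  have hfc : Continuous f := by rw [hf]; fun_prop
  have hne : Nonempty (Fin k) := ⟨⟨0, hk⟩⟩
  set Sp : Set (Fin k → ℂ) := Metric.sphere 0 1 with hSp
  have hSpc : IsCompact Sp := isCompact_sphere _ _
  have hSpne : Sp.Nonempty := by
    refine ⟨fun _ => 1, ?_⟩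
    rw [hSp, mem_sphere_zero_iff_norm, pi_norm_const]; simp
  obtain ⟨v0, hv0, hmin⟩ := hSpc.exists_isMinOn hSpne hfc.continuousOn
  have hf0 : 0 < f v0 := by
    have h1 : 0 ≤ f v0 := Finset.sum_nonneg fun _ _ => norm_nonneg _
    refine lt_of_le_of_ne h1 fun h0 => ?_
    have h2 : ∀ l ∈ Finset.Icc 1 (2 * k), ‖∑ i, v0 i ^ l‖ = 0 :=
      (Finset.sum_eq_zero_iff_of_nonneg fun _ _ => norm_nonneg _).1 h0.symm
    have h3 : tup v0 = tup (0 : Fin k → ℂ) := by
      refine psum_unique (tup_card _) (tup_card _) fun l hl => ?_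
      rw [tup_psm, tup_psm]
      rcases Nat.eq_zero_or_pos l with hl0 | hl0
      · subst hl0; simp
      · rw [norm_eq_zero.1 (h2 l (Finset.mem_Icc.2 ⟨hl0, hl⟩))]
        simp [hl0.ne']
    have h4 : v0 = 0 := by
      funext i
      have : v0 i ∈ tup (0 : Fin k → ℂ) := by
        rw [← h3]; exact (mem_tup _ _).2 ⟨i, rfl⟩
      obtain ⟨j, hj⟩ := (mem_tup _ _).1 this
      exact hj.symm
    rw [hSp, mem_sphere_zero_iff_norm, h4, norm_zero] at hv0
    exact zero_ne_one hv0
  set M : ℝ := 2 * k with hM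
  refine ⟨max 1 (M / f v0), by positivity, fun s hs δ hδ hp x hx => ?_⟩
  obtain ⟨v, hv⟩ := exists_tup hs
  obtain ⟨i, hi⟩ := (mem_tup v x).1 (by rw [hv]; exact hx)
  have hxle : ‖x‖ ≤ ‖v‖ := by rw [← hi]; exact norm_le_pi_norm v i
  refine hxle.trans ?_
  rcases eq_or_ne v 0 with hv0' | hv0'
  · rw [hv0', norm_zero]; positivity
  have hr : 0 < ‖v‖ := norm_pos_iff.2 hv0'
  set r := ‖v‖ with hrdef
  by_cases hδr : r ≤ δ
  · calc r ≤ 1 * δ := by linarith
      _ ≤ _ := by gcongr; exact le_max_left _ _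
  push Not at hδr
  have hw : (fun i => (r:ℂ)⁻¹ * v i) ∈ Sp := by
    rw [hSp, mem_sphere_zero_iff_norm]
    have e : (fun i => (r:ℂ)⁻¹ * v i) = (r:ℂ)⁻¹ • v := rfl
    rw [e, norm_smul, norm_inv, Complex.norm_real, Real.norm_of_nonneg hr.le, ← hrdef]
    exact inv_mul_cancel₀ hr.ne'
  have h1 : f v0 ≤ f (fun i => (r:ℂ)⁻¹ * v i) := hmin hw
  have h2 : f (fun i => (r:ℂ)⁻¹ * v i) ≤ M * (δ / r) := by
    calc f (fun i => (r:ℂ)⁻¹ * v i) ≤ ∑ l ∈ Finset.Icc 1 (2 * k), δ / r := by
          refine Finset.sum_le_sum fun l hl => ?_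
          have hl1 := (Finset.mem_Icc.1 hl).1
          have e : ∑ i, ((r:ℂ)⁻¹ * v i) ^ l = (r:ℂ)⁻¹ ^ l * ∑ i, v i ^ l := by
            rw [Finset.mul_sum]
            exact Finset.sum_congr rfl fun i _ => by rw [mul_pow]
          have h3 := hp l hl1 (Finset.mem_Icc.1 hl).2
          rw [← hv, tup_psm] at h3
          rw [e, norm_mul, norm_pow, norm_inv, Complex.norm_real, Real.norm_of_nonneg hr.le]
          calc r⁻¹ ^ l * ‖∑ i, v i ^ l‖ ≤ r⁻¹ ^ l * δ ^ l := by gcongr
            _ = (δ / r) ^ l := by rw [← mul_pow, inv_mul_eq_div]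
            _ ≤ (δ / r) ^ 1 := by
              refine pow_le_pow_of_le_one (by positivity) ?_ hl1
              rw [div_le_one hr]; exact hδr.le
            _ = δ / r := pow_one _
      _ = M * (δ / r) := by
          rw [Finset.sum_const, Nat.card_Icc, nsmul_eq_mul, hM]; push_cast; simp
  have h3 : f v0 * r ≤ M * δ := by
    have := h1.trans h2
    rw [mul_div_assoc', le_div_iff₀ hr] at this
    exact this
  calc r ≤ M / f v0 * δ := by
        rw [div_mul_eq_mul_div, le_div_iff₀ hf0]; linarith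
    _ ≤ _ := by gcongr; exact le_max_right _ _

theorem pow_le_prod {x : ℂ} {η : ℝ} (hη : 0 < η) (t : Multiset ℂ) (h : ∀ c ∈ t, η ≤ ‖x - c‖) :
    η ^ t.card ≤ ‖(t.map fun c => x - c).prod‖ := by
  induction t using Multiset.induction_on with
  | empty => simp
  | cons b t ih =>
      rw [Multiset.card_cons, pow_succ, Multiset.map_cons, Multiset.prod_cons, norm_mul, mul_comm]
      exact mul_le_mul (h b (Multiset.mem_cons_self b t))
        (ih fun c hc => h c (Multiset.mem_cons_of_mem hc)) (by positivity) (norm_nonneg _)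

/-- approximate roots are close to roots -/
theorem root_dist {a x : ℂ} {n : ℕ} (hn : 1 ≤ n) {η : ℝ} (hη : 0 < η)
    (h : ‖x ^ n - a‖ < η ^ n) : ∃ c, c ^ n = a ∧ ‖x - c‖ < η := by
  by_contra hcon
  push Not at hcon
  have hp : (Polynomial.X ^ n - Polynomial.C a : Polynomial ℂ).Splits :=
    IsAlgClosed.splits _
  have hm : (Polynomial.X ^ n - Polynomial.C a : Polynomial ℂ).Monic :=
    Polynomial.monic_X_pow_sub_C a (by omega)
  have h1 := hp.eq_prod_roots_of_monic hm
  set rts := (Polynomial.X ^ n - Polynomial.C a : Polynomial ℂ).roots with hrts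
  have hcard : rts.card = n := by
    have := hp.natDegree_eq_card_roots
    rw [Polynomial.natDegree_X_pow_sub_C] at this
    exact this.symm
  have h2 : x ^ n - a = (rts.map fun c => x - c).prod := by
    have := congrArg (Polynomial.eval x) h1
    rw [Polynomial.eval_multiset_prod, Multiset.map_map] at this
    simpa using this
  have h3 : ∀ c ∈ rts, η ≤ ‖x - c‖ := by
    intro c hc
    refine hcon c ?_
    have := (Polynomial.mem_roots'.1 hc).2
    simpa [Polynomial.IsRoot, sub_eq_zero] using this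
  have h4 : η ^ n ≤ ‖x ^ n - a‖ := by
    rw [h2, ← hcard]
    exact pow_le_prod hη rts h3
  linarith

end Vale.Agent.P247.H324
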