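import Vale.Agent.P247.H324.MG.Dich
import Vale.Agent.P247.H324.MG.Ps

/-!
# The initial cluster
-/

open MeasureTheory Set Metric Filter Topology
open scoped ContDiff ENNReal

noncomputable section

namespace Vale.Agent.P247.H324

open Vale.Agent.P272.CT

section

variable {N : ℕ} {R K ε L : ℝ} {m A : ℂ × ℂ → ℂ} {g : ℂ → ℝ≥0∞} {Y : ℂ → Fin N → ℂ}
  {D : ℂ → Fin N → ℂ →L[ℝ] ℂ} {y0 : ℂ} {η : ℝ}

/-- index set of the cluster near `y0` -/
def IY (Y : ℂ → Fin N → ℂ) (y0 : ℂ) (η : ℝ) (q : ℕ) (t : ℂ) : Finset (Fin N) :=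
  Finset.univ.filter fun i => ‖Y (t ^ q) i - y0‖ < η

theorem mem_IY {q : ℕ} {t : ℂ} {i : Fin N} : i ∈ IY Y y0 η q t ↔ ‖Y (t ^ q) i - y0‖ < η := by
  simp [IY]

/-- the smooth bump at `y0`. -/
theorem exists_bump (y0 : ℂ) (hη : 0 < η) : ∃ χ : ℂ → ℝ, ContDiff ℝ ∞ χ ∧
    (∀ y, ‖y - y0‖ < η → χ =ᶠ[𝓝 y] fun _ => 1) ∧ (∀ y, 2 * η < ‖y - y0‖ → χ =ᶠ[𝓝 y] fun _ => 0) ∧
    ∀ y, |χ y| ≤ 1 := by
  let b : ContDiffBump y0 := ⟨η, 2 * η, hη, by linarith⟩
  refine ⟨b, b.contDiff, fun y hy => ?_, fun y hy => ?_, fun y => ?_⟩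
  · exact b.eventuallyEq_one_of_mem_ball (by simpa [dist_eq_norm] using hy)
  · have : ∀ᶠ x in 𝓝 y, 2 * η < ‖x - y0‖ :=
      (continuous_id.sub continuous_const).norm.continuousAt.eventually (lt_mem_nhds hy)
    filter_upwards [this] with x hx
    exact b.zero_of_le_dist (by rw [dist_eq_norm]; exact hx.le)
  · rw [abs_of_nonneg b.nonneg]
    exact b.le_one

theorem IY_sum {χ : ℂ → ℝ} (h1 : ∀ y, ‖y - y0‖ < η → χ =ᶠ[𝓝 y] fun _ => 1)
    (h0 : ∀ y, 2 * η < ‖y - y0‖ → χ =ᶠ[𝓝 y] fun _ => 0)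
    (hsep : ∀ z ∈ ball (0:ℂ) R, ∀ i, ‖Y z i - y0‖ < η ∨ 2 * η < ‖Y z i - y0‖)
    {z : ℂ} (hz : z ∈ ball (0:ℂ) R) (F : ℂ → ℂ) :
    ∑ i, (χ (Y z i) : ℂ) * F (Y z i) = ∑ i ∈ IY Y y0 η 1 z, F (Y z i) := by
  refine sum_window (fun i hi => ?_) (fun i hi => ?_)
  · have := mem_IY.1 hi
    rw [pow_one] at this
    rw [(h1 _ this).eq_of_nhds]; simp
  · have h2 : ¬ ‖Y z i - y0‖ < η := fun h => hi (mem_IY.2 (by rwa [pow_one]))
    have := (hsep z hz i).resolve_left h2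
    rw [(h0 _ this).eq_of_nhds]; simp

theorem card_IY (hB : Bas R K ε L m A g Y D) (hη : 0 < η)
    (hsep : ∀ z ∈ ball (0:ℂ) R, ∀ i, ‖Y z i - y0‖ < η ∨ 2 * η < ‖Y z i - y0‖)
    {z : ℂ} (hz : z ∈ ball (0:ℂ) R) : (IY Y y0 η 1 z).card = (IY Y y0 η 1 0).card := by
  obtain ⟨χ, hχ, h1, h0, -⟩ := exists_bump y0 hη
  have hc := hB.cont (fun y => (χ y : ℂ) * 1)
    ((Complex.continuous_ofReal.comp hχ.continuous).mul continuous_const)
  have he : ∀ z ∈ ball (0:ℂ) R, ∑ i, (χ (Y z i) : ℂ) * 1 = ((IY Y y0 η 1 z).card : ℂ) := by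
    intro z hz
    rw [IY_sum h1 h0 hsep hz (fun _ => 1)]
    simp
  have hcn : ContinuousOn (fun z => (IY Y y0 η 1 z).card) (ball (0:ℂ) R) := by
    intro z hz
    have h2 : ContinuousAt (fun z => ∑ i, (χ (Y z i) : ℂ) * 1) z :=
      hc.continuousAt (isOpen_ball.mem_nhds hz)
    have h3 := Metric.tendsto_nhds.1 h2 1 one_pos
    have h4 : ∀ᶠ x in 𝓝 z, (IY Y y0 η 1 x).card = (IY Y y0 η 1 z).card := by
      filter_upwards [h3, isOpen_ball.mem_nhds hz] with x hx hxb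
      rw [he x hxb, he z hz, dist_eq_norm] at hx
      have h6 : (((IY Y y0 η 1 x).card : ℤ) - ((IY Y y0 η 1 z).card : ℤ) : ℤ) = 0 := by
        have h8 := Complex.norm_intCast (((IY Y y0 η 1 x).card : ℤ) - ((IY Y y0 η 1 z).card : ℤ) : ℤ)
        push_cast at h8
        rw [h8] at hx
        have h7 : |(((IY Y y0 η 1 x).card : ℤ) - ((IY Y y0 η 1 z).card : ℤ) : ℤ)| < 1 := by
          exact_mod_cast hx
        exact Int.abs_lt_one_iff.1 h7
      omega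
    exact (continuousAt_const.congr (h4.mono fun x hx => hx.symm)).continuousWithinAt
  exact (convex_ball (0:ℂ) R).isPreconnected.constant hcn hz (mem_ball_self hB.Rpos)

/-- Hölder bound at the centre -/
theorem near_IY (hB : Bas R K ε L m A g Y D) (hη : 0 < η)
    (hsep : ∀ z ∈ ball (0:ℂ) R, ∀ i, ‖Y z i - y0‖ < η ∨ 2 * η < ‖Y z i - y0‖)
    (hy0 : ∀ i, ‖Y 0 i - y0‖ < η → Y 0 i = y0) :
    ∃ c γ : ℝ, 0 ≤ c ∧ 0 < γ ∧ γ ≤ 1 ∧ ∀ z ∈ pb (R/2), ∀ i, ‖Y z i - y0‖ < η →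
      ‖Y z i - y0‖ ≤ c * ‖z‖ ^ γ := by
  obtain ⟨χ, hχ, h1, h0, hχ1⟩ := exists_bump y0 hη
  set k := (IY Y y0 η 1 0).card with hk
  obtain ⟨Cp, hCp, hpb⟩ := psum_bound k
  have hR := hB.Rpos
  have hR1 := hB.Rle
  have hε1 := e1_pos hB.εpos
  have he : e1 ε ≤ 1/2 := min_le_right _ _
  obtain ⟨K', hK', hM⟩ := gq_mor hB le_rfl hR hR1 (by rw [pow_one])
  -- the functions
  have key : ∀ l : ℕ, 1 ≤ l → ∃ C, 0 ≤ C ∧ ∀ z ∈ pb (R/2),
      ‖∑ i ∈ IY Y y0 η 1 z, (Y z i - y0) ^ l‖ ≤ C * ‖z‖ ^ (e1 ε / 2) := by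
    intro l hl
    set F : ℂ → ℂ := fun y => (χ y : ℂ) * (y - y0) ^ l with hF
    have hFs : ContDiff ℝ ∞ F := (Complex.ofRealCLM.contDiff.comp hχ).mul
      ((contDiff_id.sub contDiff_const).pow l)
    have hbF : ∃ B : ℝ, 0 ≤ B ∧ ∀ y, ‖fderiv ℝ F y‖ ≤ B ∧ ‖F y‖ ≤ B := by
      have hsupp : HasCompactSupport F := by
        refine HasCompactSupport.of_support_subset_isCompact (isCompact_closedBall y0 (2 * η))
          fun y hy => ?_
        by_contra hcon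
        rw [mem_closedBall, not_le, dist_eq_norm] at hcon
        apply hy
        rw [hF]
        simp only
        rw [(h0 y hcon).eq_of_nhds]; simp
      obtain ⟨B1, hB1⟩ := hsupp.fderiv (𝕜 := ℝ) |>.exists_bound_of_continuous (hFs.continuous_fderiv (by simp))
      obtain ⟨B2, hB2⟩ := hsupp.exists_bound_of_continuous hFs.continuous
      exact ⟨max B1 B2, (norm_nonneg _).trans ((hB1 0).trans (le_max_left _ _)),
        fun y => ⟨(hB1 y).trans (le_max_left _ _), (hB2 y).trans (le_max_right _ _)⟩⟩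
    obtain ⟨B, hB0, hBF⟩ := hbF
    have hw : WG (pb R) (fun z => ∑ i, F (Y z i)) (fun z => ∑ i, (fderiv ℝ F (Y z i)).comp (D z i)) :=
      (hB.chain F hFs).mono fun z hz => hz.1
    have hc := hB.cont F hFs.continuous
    have hcp : ContinuousOn (fun z => ∑ i, F (Y z i)) (pb R) := hc.mono fun z hz => hz.1
    have hbd : ∀ z ∈ pb R, ‖∑ i, F (Y z i)‖ ≤ N * B := by
      intro z _
      refine (norm_sum_le _ _).trans ((Finset.sum_le_sum fun i _ => (hBF (Y z i)).2).trans ?_)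
      simp
    set c0 : ℝ≥0∞ := ENNReal.ofReal (N * B) with hc0
    have hder : ∀ᵐ w ∂(volume.restrict (ball (0:ℂ) R)),
        ‖∑ i, (fderiv ℝ F (Y w i)).comp (D w i)‖ₑ ≤ c0 * (1 + gq g 1 w) := by
      filter_upwards [ae_restrict_mem isOpen_ball.measurableSet] with w hw
      calc ‖∑ i, (fderiv ℝ F (Y w i)).comp (D w i)‖ₑ
          ≤ ∑ i, ‖(fderiv ℝ F (Y w i)).comp (D w i)‖ₑ := enorm_sum_le _ _
        _ ≤ ∑ _i : Fin N, ENNReal.ofReal B * g w := by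
            refine Finset.sum_le_sum fun i _ => ?_
            refine le_trans ?_ (mul_le_mul_right (hB.gD w hw i) (ENNReal.ofReal B))
            rw [← ofReal_norm, ← ofReal_norm, ← ENNReal.ofReal_mul hB0]
            refine ENNReal.ofReal_le_ofReal ((ContinuousLinearMap.opNorm_comp_le _ _).trans ?_)
            gcongr
            exact (hBF _).1
        _ = c0 * g w := by
            rw [Finset.sum_const, Finset.card_univ, Fintype.card_fin, nsmul_eq_mul, ← mul_assoc, hc0,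
              ENNReal.ofReal_mul (Nat.cast_nonneg _), ENNReal.ofReal_natCast]
        _ ≤ c0 * (1 + gq g 1 w) := by
            gcongr
            have : gq g 1 w = g w := by simp [gq, pwd]
            rw [this]
            exact le_add_self
    have hGm : AEMeasurable (fun w => c0 * (1 + gq g 1 w)) (volume.restrict (ball (0:ℂ) R)) :=
      ((gq_meas hB le_rfl hR (by rw [pow_one])).const_add 1).const_mul c0
    have hMm : ∀ x ρ, 0 < ρ → ∫⁻ w in ball x ρ ∩ ball (0:ℂ) R, c0 * (1 + gq g 1 w) ≤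
        ENNReal.ofReal ((N * B * K') * ρ ^ (1 + e1 ε)) := by
      intro x ρ hρ
      rw [lintegral_const_mul' _ _ ENNReal.ofReal_ne_top, mul_assoc (N * B),
        ENNReal.ofReal_mul (by positivity : (0:ℝ) ≤ N * B)]
      exact mul_le_mul_right (hM x ρ hρ) _
    obtain ⟨C, v0, hC0, hh, -⟩ := wg_holder (h := e1 ε / 2) (B := N * B) hR hε1
      (by positivity : (0:ℝ) ≤ N * B * K') (by positivity) (by linarith) (by linarith) hGm hMm
      hcp hbd hw hder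
    refine ⟨C, hC0, fun z hz => ?_⟩
    have hzb : z ∈ ball (0:ℂ) R := by
      have := (mem_pb.1 hz).1; rw [mem_ball, dist_zero_right]; linarith
    have hF0 : ∑ i, F (Y 0 i) = 0 := by
      have := IY_sum h1 h0 hsep (mem_ball_self hR) (fun y => (y - y0) ^ l)
      rw [show ∑ i, F (Y 0 i) = ∑ i, (χ (Y 0 i) : ℂ) * (Y 0 i - y0) ^ l from rfl, this]
      refine Finset.sum_eq_zero fun i hi => ?_
      have := mem_IY.1 hi
      rw [show ((0:ℂ) ^ 1) = 0 by simp] at this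
      rw [hy0 i this, sub_self, zero_pow (by omega)]
    rw [← IY_sum h1 h0 hsep hzb (fun y => (y - y0) ^ l)]
    have hlim : Tendsto (fun z' => ‖(∑ i, F (Y z i)) - ∑ i, F (Y z' i)‖) (𝓝[≠] 0)
        (𝓝 ‖(∑ i, F (Y z i)) - ∑ i, F (Y 0 i)‖) := by
      have h2 : ContinuousAt (fun z => ∑ i, F (Y z i)) 0 :=
        hc.continuousAt (isOpen_ball.mem_nhds (mem_ball_self hR))
      exact (tendsto_const_nhds.sub (h2.tendsto.mono_left nhdsWithin_le_nhds)).norm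
    have hlim2 : Tendsto (fun z' : ℂ => C * ‖z - z'‖ ^ (e1 ε / 2)) (𝓝[≠] 0)
        (𝓝 (C * ‖z - 0‖ ^ (e1 ε / 2))) := by
      have h3 : Continuous fun z' : ℂ => C * ‖z - z'‖ ^ (e1 ε / 2) :=
        continuous_const.mul ((continuous_const.sub continuous_id).norm.rpow_const
          fun _ => Or.inr (by positivity))
      exact (h3.tendsto 0).mono_left nhdsWithin_le_nhds
    have := le_of_tendsto_of_tendsto hlim hlim2 (by
      filter_upwards [pb_nhds (r := R/2) (by positivity)] with z' hz'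
      exact hh z hz z' hz')
    rw [hF0, sub_zero, sub_zero] at this
    exact this
  choose! C hC0 hC using key
  set Cm : ℝ := 1 + ∑ l ∈ Finset.Icc 1 (2 * k), C l with hCm
  have hCle : ∀ l, 1 ≤ l → l ≤ 2 * k → C l ≤ Cm := by
    intro l h1 h2
    have : C l ≤ ∑ l ∈ Finset.Icc 1 (2 * k), C l :=
      Finset.single_le_sum (f := C) (fun i hi => hC0 i (Finset.mem_Icc.1 hi).1)
        (Finset.mem_Icc.2 ⟨h1, h2⟩)
    linarith
  have hCm1 : 1 ≤ Cm := by
    have : 0 ≤ ∑ l ∈ Finset.Icc 1 (2 * k), C l :=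
      Finset.sum_nonneg fun i hi => hC0 i (Finset.mem_Icc.1 hi).1
    linarith
  set γ : ℝ := e1 ε / 2 / (2 * k + 1) with hγ
  have hγ0 : 0 < γ := by positivity
  have hγ1 : γ ≤ 1 := by
    rw [hγ, div_le_one (by positivity)]
    have : (0:ℝ) ≤ k := Nat.cast_nonneg _
    linarith
  refine ⟨Cp * Cm, γ, by positivity, hγ0, hγ1, fun z hz i hi => ?_⟩
  have hzn := mem_pb.1 hz
  have hz0 : 0 < ‖z‖ := norm_pos_iff.2 hzn.2
  have hz1 : ‖z‖ ≤ 1 := by linarith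
  have hzb : z ∈ ball (0:ℂ) R := by
    rw [mem_ball, dist_zero_right]; linarith
  set s : Multiset ℂ := (IY Y y0 η 1 z).val.map fun i => Y z i - y0 with hs
  have hcard : s.card = k := by
    rw [hs, Multiset.card_map]
    exact card_IY hB hη hsep hzb
  have := hpb s hcard (Cm * ‖z‖ ^ γ) (by positivity) (fun l hl1 hl2 => ?_) (Y z i - y0) (by
    rw [hs, Multiset.mem_map]
    exact ⟨i, mem_IY.2 (by rwa [pow_one]), rfl⟩)
  · rw [mul_assoc]; exact this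
  · have e1' : psm s l = ∑ i ∈ IY Y y0 η 1 z, (Y z i - y0) ^ l := by
      rw [hs, psm, Multiset.map_map]; rfl
    rw [e1']
    refine (hC l hl1 z hz).trans ?_
    rw [mul_pow, ← Real.rpow_natCast (‖z‖ ^ γ) l, ← Real.rpow_mul hz0.le]
    refine mul_le_mul ?_ ?_ (by positivity) (by positivity)
    · exact (hCle l hl1 hl2).trans (le_self_pow₀ hCm1 (by omega))
    · refine Real.rpow_le_rpow_of_exponent_ge hz0 hz1 ?_
      rw [hγ]
      have h5 : (l:ℝ) ≤ 2 * k + 1 := by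
        have : (l:ℝ) ≤ ((2 * k : ℕ) : ℝ) := by exact_mod_cast hl2
        push_cast at this; linarith
      rw [div_mul_eq_mul_div, div_le_iff₀ (by positivity)]
      gcongr

/-- the initial cluster -/
theorem base (hB : Bas R K ε L m A g Y D) (hη : 0 < η)
    (hsep : ∀ z ∈ ball (0:ℂ) R, ∀ i, ‖Y z i - y0‖ < η ∨ 2 * η < ‖Y z i - y0‖)
    (hy0 : ∀ i, ‖Y 0 i - y0‖ < η → Y 0 i = y0) (hne : ∃ i, ‖Y 0 i - y0‖ < η) :
    ∃ c γ : ℝ, Clu R Y y0 η 1 (IY Y y0 η 1 0).card (R/2) c γ (IY Y y0 η 1) := by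
  obtain ⟨c, γ, hc, hγ, hγ1, hnear⟩ := near_IY hB hη hsep hy0
  obtain ⟨χ, hχ, h1, h0, hχ1⟩ := exists_bump y0 hη
  have hR := hB.Rpos
  have hR1 := hB.Rle
  have hmem : ∀ t ∈ pb (R/2), t ∈ ball (0:ℂ) R := fun t ht => by
    have := (mem_pb.1 ht).1; rw [mem_ball, dist_zero_right]; linarith
  refine ⟨c, γ, ⟨le_rfl, ?_, by positivity, by linarith, by rw [pow_one]; linarith, hc, hγ, hγ1,
    fun t ht => card_IY hB hη hsep (hmem t ht), fun t ht i hi => ?_, fun t ht i hi => mem_IY.1 hi,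
    fun t0 ht0 => ⟨χ, hχ, ?_⟩⟩⟩
  · obtain ⟨i, hi⟩ := hne
    exact Finset.card_pos.2 ⟨i, mem_IY.2 (by simpa using hi)⟩
  · have := mem_IY.1 hi
    rw [pow_one] at this ⊢
    exact hnear t ht i this
  · filter_upwards [isOpen_ball.mem_nhds (hmem t0 ht0)] with t ht i
    rw [pow_one]
    refine ⟨fun hi => h1 _ ?_, fun hi => h0 _ ?_⟩
    · have := mem_IY.1 hi
      rwa [pow_one] at this
    · have h2 : ¬ ‖Y t i - y0‖ < η := fun h => hi (mem_IY.2 (by rwa [pow_one]))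
      exact (hsep t ht i).resolve_left h2

end

end Vale.Agent.P247.H324
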