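import Vale.Agent.P247.H324.MG.Dich

/-!
# Base change `z ↦ z + m0 z̄`
-/

open MeasureTheory Set Metric Filter Topology
open scoped ContDiff ENNReal

noncomputable section

namespace Vale.Agent.P247.H324

open Vale.Agent.P272.CT

/-- inverse of `z ↦ z + m0 * conj z` -/
def phi (m0 : ℂ) : ℂ →L[ℝ] ℂ := dPQ ((1 - ‖m0‖ ^ 2 : ℝ) : ℂ)⁻¹ (-(m0 * ((1 - ‖m0‖ ^ 2 : ℝ) : ℂ)⁻¹))

theorem phi_apply (m0 w : ℂ) : phi m0 w =
    (w - m0 * (starRingEnd ℂ) w) * ((1 - ‖m0‖ ^ 2 : ℝ) : ℂ)⁻¹ := by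
  simp only [phi, dPQ, add_apply, smul_apply, ContinuousLinearMap.id_apply,
    smul_eq_mul, ContinuousLinearEquiv.coe_coe, Complex.conjCLE_apply]
  ring

theorem one_sub_ne {m0 : ℂ} (h : ‖m0‖ < 1) : ((1 - ‖m0‖ ^ 2 : ℝ) : ℂ) ≠ 0 := by
  have : 0 < 1 - ‖m0‖ ^ 2 := by nlinarith [norm_nonneg m0]
  exact_mod_cast this.ne'

theorem conj_mul_self' (m0 : ℂ) : m0 * (starRingEnd ℂ) m0 = ((‖m0‖ ^ 2 : ℝ) : ℂ) := by
  rw [Complex.mul_conj, Complex.normSq_eq_norm_sq]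

theorem phi_left {m0 : ℂ} (h : ‖m0‖ < 1) (z : ℂ) : phi m0 (z + m0 * (starRingEnd ℂ) z) = z := by
  rw [phi_apply]
  have h1 := one_sub_ne h
  have h2 := conj_mul_self' m0
  field_simp
  simp only [map_add, map_mul, Complex.conj_conj]
  push_cast at h2 ⊢
  linear_combination (-z) * h2

theorem phi_right {m0 : ℂ} (h : ‖m0‖ < 1) (w : ℂ) :
    phi m0 w + m0 * (starRingEnd ℂ) (phi m0 w) = w := by
  rw [phi_apply]
  have h1 := one_sub_ne h
  have h2 := conj_mul_self' m0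
  simp only [map_mul, map_sub, map_inv₀, Complex.conj_conj, Complex.conj_ofReal]
  field_simp
  push_cast at h2 ⊢
  linear_combination (-w) * h2

theorem phi_inj {m0 : ℂ} (h : ‖m0‖ < 1) : Function.Injective (phi m0) := fun a b hab => by
  rw [← phi_right h a, ← phi_right h b, hab]

theorem pz_dPQ (P Q : ℂ) : pz (dPQ P Q) = P ∧ pzb (dPQ P Q) = Q := by
  refine pz_eq_of fun v => ?_
  simp only [dPQ, add_apply, smul_apply, ContinuousLinearMap.id_apply,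
    smul_eq_mul, ContinuousLinearEquiv.coe_coe, Complex.conjCLE_apply]
  ring

theorem det_phi {m0 : ℂ} (h : ‖m0‖ < 1) : (phi m0).det ≠ 0 := by
  have h1 : (phi m0 : ℂ →ₗ[ℝ] ℂ).det ≠ 0 := by
    have : Function.Bijective (phi m0 : ℂ →ₗ[ℝ] ℂ) :=
      ⟨phi_inj h, fun w => ⟨w + m0 * (starRingEnd ℂ) w, phi_left h w⟩⟩
    exact (LinearEquiv.ofBijective _ this).isUnit_det'.ne_zero
  exact h1

variable {N : ℕ} {R K ε L : ℝ} {m A : ℂ × ℂ → ℂ} {g : ℂ → ℝ≥0∞} {Y : ℂ → Fin N → ℂ}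
  {D : ℂ → Fin N → ℂ →L[ℝ] ℂ}

/-- transformed coefficient -/
def mt (m0 : ℂ) (m : ℂ × ℂ → ℂ) (p : ℂ × ℂ) : ℂ :=
  (m (phi m0 p.1, p.2) - m0) / (1 - (starRingEnd ℂ) m0 * m (phi m0 p.1, p.2))

/-- transformed inhomogeneity -/
def At (m0 : ℂ) (m A : ℂ × ℂ → ℂ) (p : ℂ × ℂ) : ℂ :=
  A (phi m0 p.1, p.2) / (1 - (starRingEnd ℂ) m0 * m (phi m0 p.1, p.2))

theorem den_ne {m0 c : ℂ} (h : ‖m0‖ < 1) (hc : ‖c‖ < 1) : 1 - (starRingEnd ℂ) m0 * c ≠ 0 := by
  intro h0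
  have h1 : (starRingEnd ℂ) m0 * c = 1 := (sub_eq_zero.1 h0).symm
  have h2 : ‖m0‖ * ‖c‖ = 1 := by
    rw [← Complex.norm_conj m0, ← norm_mul, h1, norm_one]
  nlinarith [norm_nonneg m0, norm_nonneg c]

theorem phi_quasi {m0 : ℂ} (h : ‖m0‖ < 1) :
    Measure.QuasiMeasurePreserving (phi m0) volume volume := by
  refine ⟨(phi m0).continuous.measurable, ?_⟩
  have := Measure.map_linearMap_addHaar_eq_smul_addHaar (μ := (volume : Measure ℂ))
    (f := (phi m0 : ℂ →ₗ[ℝ] ℂ)) (det_phi h)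
  have h2 : Measure.map (phi m0) (volume : Measure ℂ) =
      ENNReal.ofReal |(LinearMap.det (phi m0 : ℂ →ₗ[ℝ] ℂ))⁻¹| • volume := this
  rw [h2]
  exact Measure.smul_absolutelyContinuous

/-- base change for continuous multisections -/
theorem bas_change (hB : Bas R K ε L m A g Y D) {m0 : ℂ} (hm0 : ‖m0‖ < 1)
    (hκ : ∀ z ∈ ball (0:ℂ) R, ∀ i, ‖m (z, Y z i)‖ < 1) {R' : ℝ} (hR' : 0 < R') (hR1 : R' ≤ 1)
    (hsub : ∀ w ∈ ball (0:ℂ) R', phi m0 w ∈ ball (0:ℂ) R) :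
    ∃ (K' : ℝ) (g' : ℂ → ℝ≥0∞), Bas R' K' ε L (mt m0 m) (At m0 m A) g' (fun w => Y (phi m0 w))
      (fun w i => (D (phi m0 w) i).comp (phi m0)) := by
  have hfd : ∀ w, fderiv ℝ (phi m0) w = phi m0 := fun w => (phi m0).fderiv
  have hK := hB.Kpos
  set M : ℝ := ‖phi m0‖ + 1 with hM
  have hM0 : 0 < M := by positivity
  set d : ℝ := |(phi m0).det| with hd
  have hd0 : 0 < d := abs_pos.2 (det_phi hm0)
  refine ⟨M ^ 2 * (d⁻¹ * (K * M ^ (2 * ε))), fun w => ENNReal.ofReal M * g (phi m0 w), ?_⟩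
  refine ⟨hR', hR1, by positivity, hB.εpos, hB.Lpos, fun F hF => ?_, fun F hF => ?_, ?_, ?_, ?_,
    fun z i => hB.bdd _ i, ?_, ?_⟩
  · have h1 := (hB.chain F hF).comp_right isOpen_ball (isOpen_ball (x := (0:ℂ)) (ε := R'))
      (g := phi m0) ((phi m0).contDiff).contDiffOn
      (fun t _ => by rw [hfd]; exact det_phi hm0) hsub
    refine h1.congr isOpen_ball.measurableSet (fun _ _ => rfl) (fun t _ => ?_)
    change (∑ i, (fderiv ℝ F (Y ((phi m0) t) i)).comp (D ((phi m0) t) i)).comp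
      (fderiv ℝ (phi m0) t) = _
    rw [hfd]
    ext v
    simp [ContinuousLinearMap.comp_apply, sum_apply]
  · exact (hB.cont F hF).comp (phi m0).continuous.continuousOn hsub
  · refine AEMeasurable.const_mul ?_ _
    exact hB.gm.comp_quasiMeasurePreserving ((phi_quasi hm0).restrict hsub)
  · intro z hz i
    rw [← ofReal_norm]
    calc ENNReal.ofReal ‖(D (phi m0 z) i).comp (phi m0)‖
        ≤ ENNReal.ofReal (M * ‖D (phi m0 z) i‖) := by
          refine ENNReal.ofReal_le_ofReal ((ContinuousLinearMap.opNorm_comp_le _ _).trans ?_)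
          rw [mul_comm]
          gcongr
          rw [hM]; linarith
      _ = ENNReal.ofReal M * ‖D (phi m0 z) i‖ₑ := by
          rw [ENNReal.ofReal_mul hM0.le, ofReal_norm]
      _ ≤ _ := mul_le_mul_right (hB.gD _ (hsub z hz) i) _
  · intro x ρ hρ
    have hS : MeasurableSet (ball x ρ ∩ ball (0:ℂ) R') :=
      measurableSet_ball.inter measurableSet_ball
    have h1 := lintegral_image_eq_lintegral_abs_det_fderiv_mul volume hS
      (fun z _ => ((phi m0).hasFDerivAt (x := z)).hasFDerivWithinAt) (phi_inj hm0).injOn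
      (fun z => g z ^ 2)
    have h2 : ∫⁻ z in phi m0 '' (ball x ρ ∩ ball (0:ℂ) R'), g z ^ 2 ≤
        ENNReal.ofReal (K * (M * ρ) ^ (2 * ε)) := by
      refine le_trans (lintegral_mono_set ?_) (hB.mor (phi m0 x) (M * ρ) (by positivity))
      rintro _ ⟨z, hz, rfl⟩
      refine ⟨?_, hsub z hz.2⟩
      have hz1 := hz.1
      rw [mem_ball, dist_eq_norm] at hz1 ⊢
      rw [← map_sub]
      have hn := norm_nonneg (z - x)
      calc ‖phi m0 (z - x)‖ ≤ ‖phi m0‖ * ‖z - x‖ := (phi m0).le_opNorm _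
        _ < M * ρ := by
          rw [hM]; nlinarith [norm_nonneg (phi m0)]
    rw [h1, lintegral_const_mul' _ _ ENNReal.ofReal_ne_top] at h2
    have h3 : ∫⁻ z in ball x ρ ∩ ball (0:ℂ) R', g (phi m0 z) ^ 2 ≤
        ENNReal.ofReal (d⁻¹ * (K * (M * ρ) ^ (2 * ε))) := by
      rw [ENNReal.ofReal_mul (by positivity), ENNReal.ofReal_inv_of_pos hd0]
      have hd1 : ENNReal.ofReal d ≠ 0 := by simpa using hd0
      calc ∫⁻ z in ball x ρ ∩ ball (0:ℂ) R', g (phi m0 z) ^ 2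
          = (ENNReal.ofReal d)⁻¹ * (ENNReal.ofReal d *
              ∫⁻ z in ball x ρ ∩ ball (0:ℂ) R', g (phi m0 z) ^ 2) := by
            rw [← mul_assoc, ENNReal.inv_mul_cancel hd1 ENNReal.ofReal_ne_top, one_mul]
        _ ≤ _ := mul_le_mul_right h2 _
    calc ∫⁻ z in ball x ρ ∩ ball (0:ℂ) R', (ENNReal.ofReal M * g (phi m0 z)) ^ 2
        = ENNReal.ofReal (M ^ 2) * ∫⁻ z in ball x ρ ∩ ball (0:ℂ) R', g (phi m0 z) ^ 2 := by
          rw [← lintegral_const_mul' _ _ ENNReal.ofReal_ne_top]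
          refine lintegral_congr fun z => ?_
          rw [mul_pow, ENNReal.ofReal_pow hM0.le]
      _ ≤ ENNReal.ofReal (M ^ 2) * ENNReal.ofReal (d⁻¹ * (K * (M * ρ) ^ (2 * ε))) :=
          mul_le_mul_right h3 _
      _ = ENNReal.ofReal (M ^ 2 * (d⁻¹ * (K * M ^ (2 * ε))) * ρ ^ (2 * ε)) := by
          rw [← ENNReal.ofReal_mul (by positivity), Real.mul_rpow hM0.le hρ.le]
          ring_nf
  · intro z hz i
    obtain ⟨h1, h2⟩ := pz_comp (D (phi m0 z) i) (phi m0)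
    have hp : pz (phi m0) = ((1 - ‖m0‖ ^ 2 : ℝ) : ℂ)⁻¹ := (pz_dPQ _ _).1
    have hq : pzb (phi m0) = -(m0 * ((1 - ‖m0‖ ^ 2 : ℝ) : ℂ)⁻¹) := (pz_dPQ _ _).2
    have he := hB.eqn _ (hsub z hz) i
    have hne := den_ne hm0 (hκ _ (hsub z hz) i)
    have h0 := one_sub_ne hm0
    have hmm := conj_mul_self' m0
    simp only [mt, At]
    rw [h1, h2, hp, hq, he]
    set c := m (phi m0 z, Y (phi m0 z) i)
    set a := A (phi m0 z, Y (phi m0 z) i)
    set P := pz (D (phi m0 z) i)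
    simp only [smul_eq_mul, map_neg, map_mul, map_inv₀, Complex.conj_ofReal]
    rw [div_mul_eq_mul_div, ← add_div, eq_div_iff hne]
    field_simp
    push_cast at hmm ⊢
    linear_combination (-a) * hmm
  · intro z hz i j hij
    have := hB.same _ (hsub z hz) i j hij
    simp only [this]

/-- smooth functions are Lipschitz on compact convex sets -/
theorem lip_compact {E : Type*} [NormedAddCommGroup E] [NormedSpace ℝ E] {F : Type*}
    [NormedAddCommGroup F] [NormedSpace ℝ F] {f : E → F} {O : Set E} (hO : IsOpen O)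
    (hf : ContDiffOn ℝ 1 f O) {Q : Set E} (hQ : IsCompact Q) (hc : Convex ℝ Q) (hQO : Q ⊆ O) :
    ∃ C : ℝ, 0 ≤ C ∧ ∀ p ∈ Q, ∀ q ∈ Q, ‖f p - f q‖ ≤ C * ‖p - q‖ := by
  have hd : ContinuousOn (fderiv ℝ f) O := hf.continuousOn_fderiv_of_isOpen hO le_rfl
  obtain ⟨C, hC⟩ := hQ.exists_bound_of_continuousOn (hd.mono hQO)
  refine ⟨max C 0, le_max_right _ _, fun p hp q hq => ?_⟩
  refine hc.norm_image_sub_le_of_norm_fderiv_le (𝕜 := ℝ) (fun x hx => ?_)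
    (fun x hx => (hC x hx).trans (le_max_left _ _)) hq hp
  exact (hf.differentiableOn one_ne_zero).differentiableAt (hO.mem_nhds (hQO hx))

/-- the transformed coefficients are Lipschitz -/
theorem lip_mt {m0 : ℂ} (hm0 : ‖m0‖ < 1) (hm : ContDiffOn ℝ ∞ m (H574.PD 2))
    (hA : ContDiffOn ℝ ∞ A (H574.PD 2)) (hlt : ∀ p ∈ H574.PD 2, ‖m p‖ < 1) {R' : ℝ} {y0 : ℂ} {η : ℝ}
    (hsub : ∀ w ∈ closedBall (0:ℂ) R', phi m0 w ∈ ball (0:ℂ) 2)
    (hy : ∀ y ∈ closedBall y0 η, y ∈ ball (0:ℂ) 2) :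
    ∃ C : ℝ, 0 ≤ C ∧ ∀ z ∈ ball (0:ℂ) R', ∀ z' ∈ ball (0:ℂ) R', ∀ y ∈ ball y0 η, ∀ y' ∈ ball y0 η,
      ‖mt m0 m (z, y) - mt m0 m (z', y')‖ ≤ C * (‖z - z'‖ + ‖y - y'‖) ∧
      ‖At m0 m A (z, y) - At m0 m A (z', y')‖ ≤ C * (‖z - z'‖ + ‖y - y'‖) := by
  set O : Set (ℂ × ℂ) := (fun p : ℂ × ℂ => (phi m0 p.1, p.2)) ⁻¹' H574.PD 2 with hO
  have hPD : IsOpen (H574.PD 2) := by
    unfold H574.PD
    exact isOpen_ball.prod isOpen_ball
  have hψ : ContDiff ℝ ∞ (fun p : ℂ × ℂ => (phi m0 p.1, p.2)) :=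
    ((phi m0).contDiff.comp contDiff_fst).prodMk contDiff_snd
  have hOo : IsOpen O := hPD.preimage hψ.continuous
  have hmO : ContDiffOn ℝ ∞ (fun p : ℂ × ℂ => m (phi m0 p.1, p.2)) O :=
    hm.comp hψ.contDiffOn fun p hp => hp
  have hAO : ContDiffOn ℝ ∞ (fun p : ℂ × ℂ => A (phi m0 p.1, p.2)) O :=
    hA.comp hψ.contDiffOn fun p hp => hp
  have hden : ContDiffOn ℝ ∞ (fun p : ℂ × ℂ => 1 - (starRingEnd ℂ) m0 * m (phi m0 p.1, p.2)) O :=
    contDiffOn_const.sub (contDiffOn_const.mul hmO)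
  have hne : ∀ p ∈ O, 1 - (starRingEnd ℂ) m0 * m (phi m0 p.1, p.2) ≠ 0 := fun p hp =>
    den_ne hm0 (hlt _ hp)
  have h1 : ContDiffOn ℝ 1 (mt m0 m) O := by
    have h : ContDiffOn ℝ ∞ (mt m0 m) O := by
      unfold mt
      simp only [div_eq_mul_inv]
      exact (hmO.sub contDiffOn_const).mul (hden.inv hne)
    exact h.of_le (by exact_mod_cast le_top)
  have h2 : ContDiffOn ℝ 1 (At m0 m A) O := by
    have h : ContDiffOn ℝ ∞ (At m0 m A) O := by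
      unfold At
      simp only [div_eq_mul_inv]
      exact hAO.mul (hden.inv hne)
    exact h.of_le (by exact_mod_cast le_top)
  have hQ : IsCompact (closedBall (0:ℂ) R' ×ˢ closedBall y0 η) :=
    (isCompact_closedBall _ _).prod (isCompact_closedBall _ _)
  have hQc : Convex ℝ (closedBall (0:ℂ) R' ×ˢ closedBall y0 η) :=
    (convex_closedBall _ _).prod (convex_closedBall _ _)
  have hQO : closedBall (0:ℂ) R' ×ˢ closedBall y0 η ⊆ O := by
    rintro ⟨w, y⟩ ⟨hw, hyy⟩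
    have ha := hsub w hw
    have hb := hy y hyy
    change (phi m0 w, y) ∈ H574.PD 2
    unfold H574.PD
    exact ⟨ha, hb⟩
  obtain ⟨C1, hC1, hl1⟩ := lip_compact hOo h1 hQ hQc hQO
  obtain ⟨C2, hC2, hl2⟩ := lip_compact hOo h2 hQ hQc hQO
  have hns : ∀ z z' y y' : ℂ, ‖(z, y) - (z', y')‖ ≤ ‖z - z'‖ + ‖y - y'‖ := by
    intro z z' y y'
    rw [Prod.mk_sub_mk, Prod.norm_def]
    exact max_le (by simp) (by simp)
  refine ⟨max C1 C2, le_max_of_le_left hC1, fun z hz z' hz' y hy y' hy' => ?_⟩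
  have hp : (z, y) ∈ closedBall (0:ℂ) R' ×ˢ closedBall y0 η :=
    ⟨ball_subset_closedBall hz, ball_subset_closedBall hy⟩
  have hp' : (z', y') ∈ closedBall (0:ℂ) R' ×ˢ closedBall y0 η :=
    ⟨ball_subset_closedBall hz', ball_subset_closedBall hy'⟩
  have hn := hns z z' y y'
  exact ⟨(hl1 _ hp _ hp').trans (mul_le_mul (le_max_left _ _) hn (norm_nonneg _)
    (le_max_of_le_left hC1)), (hl2 _ hp _ hp').trans (mul_le_mul (le_max_right _ _) hn
    (norm_nonneg _) (le_max_of_le_left hC1))⟩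

end Vale.Agent.P247.H324
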