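import Vale.Agent.P247.H324.MG.Dy2

/-! The Beltrami equation with a small Hölder coefficient. -/

open MeasureTheory Set Metric Filter Topology
open scoped ContDiff ENNReal Convolution

set_option linter.unusedSectionVars false
set_option linter.unusedVariables false

noncomputable section

namespace Vale.Agent.P247.H324

open Vale.Agent.P272.CT

section parts

variable {E : Type*} [NormedAddCommGroup E] [NormedSpace ℂ E]

/-- complex linear part -/
def pz (L : ℂ →L[ℝ] E) : E := (1 / 2 : ℂ) • (L 1 - Complex.I • L Complex.I)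

/-- antilinear part -/
def pzb (L : ℂ →L[ℝ] E) : E := (1 / 2 : ℂ) • (L 1 + Complex.I • L Complex.I)

theorem pz_pzb (L : ℂ →L[ℝ] E) (v : ℂ) : L v = v • pz L + (starRingEnd ℂ v) • pzb L := by
  have h1 : L v = v.re • L 1 + v.im • L Complex.I := by
    conv_lhs => rw [← Complex.re_add_im v]
    rw [map_add]
    have e1 : ((v.re : ℂ)) = v.re • (1:ℂ) := by simp
    have e2 : (v.im : ℂ) * Complex.I = v.im • Complex.I := by simp
    rw [e1, e2, map_smul, map_smul]
  rw [h1, pz, pzb]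
  have h2 : (starRingEnd ℂ v) = (v.re : ℂ) - v.im * Complex.I := by
    apply Complex.ext <;> simp
  have h3 : v = (v.re : ℂ) + v.im * Complex.I := (Complex.re_add_im v).symm
  rw [h2]
  conv_rhs => rw [show v • (1 / 2 : ℂ) • (L 1 - Complex.I • L Complex.I) =
    ((v.re : ℂ) + v.im * Complex.I) • (1 / 2 : ℂ) • (L 1 - Complex.I • L Complex.I) by rw [← h3]]
  rw [← Complex.coe_smul, ← Complex.coe_smul]
  have e3 : ((v.re : ℂ) + v.im * Complex.I) • (1 / 2 : ℂ) • (L 1 - Complex.I • L Complex.I) +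
      ((v.re : ℂ) - v.im * Complex.I) • (1 / 2 : ℂ) • (L 1 + Complex.I • L Complex.I) =
      (((v.re : ℂ) + v.im * Complex.I) / 2 + ((v.re : ℂ) - v.im * Complex.I) / 2) • L 1 +
      (-(((v.re : ℂ) + v.im * Complex.I) / 2 * Complex.I) +
        ((v.re : ℂ) - v.im * Complex.I) / 2 * Complex.I) • L Complex.I := by module
  rw [e3]
  congr 2
  · ring
  · linear_combination (v.im : ℂ) * Complex.I_mul_I

theorem norm_pz_le (L : ℂ →L[ℝ] E) : ‖pz L‖ ≤ ‖L‖ := by
  unfold pz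
  rw [norm_smul]
  have h1 := L.le_opNorm 1
  have h2 := L.le_opNorm Complex.I
  have h3 := norm_sub_le (L 1) (Complex.I • L Complex.I)
  rw [norm_smul] at h3
  simp only [norm_one, Complex.norm_I, mul_one, one_mul] at h1 h2 h3
  have h4 : ‖(1/2:ℂ)‖ = 1/2 := by simp
  rw [h4]
  linarith

theorem norm_pzb_le (L : ℂ →L[ℝ] E) : ‖pzb L‖ ≤ ‖L‖ := by
  unfold pzb
  rw [norm_smul]
  have h1 := L.le_opNorm 1
  have h2 := L.le_opNorm Complex.I
  have h3 := norm_add_le (L 1) (Complex.I • L Complex.I)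
  rw [norm_smul] at h3
  simp only [norm_one, Complex.norm_I, mul_one, one_mul] at h1 h2 h3
  have h4 : ‖(1/2:ℂ)‖ = 1/2 := by simp
  rw [h4]
  linarith

theorem pz_add (L M : ℂ →L[ℝ] E) : pz (L + M) = pz L + pz M := by
  simp only [pz, add_apply]; module

theorem pzb_add (L M : ℂ →L[ℝ] E) : pzb (L + M) = pzb L + pzb M := by
  simp only [pzb, add_apply]; module

theorem pz_sub (L M : ℂ →L[ℝ] E) : pz (L - M) = pz L - pz M := by
  simp only [pz, sub_apply]; module

theorem pzb_sub (L M : ℂ →L[ℝ] E) : pzb (L - M) = pzb L - pzb M := by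
  simp only [pzb, sub_apply]; module

theorem pz_id : pz (ContinuousLinearMap.id ℝ ℂ) = 1 := by
  simp only [pz, ContinuousLinearMap.id_apply, smul_eq_mul, Complex.I_mul_I]; norm_num

theorem pzb_id : pzb (ContinuousLinearMap.id ℝ ℂ) = 0 := by
  simp only [pzb, ContinuousLinearMap.id_apply, smul_eq_mul, Complex.I_mul_I]; norm_num

end parts

section

variable {α ε H : ℝ} {μ h : ℂ → ℂ}

/-- `1 + S`-part -/
theorem Hol.mulS (hα : 0 < α) (hα1 : α < 1) (hμ : Hol α ε μ) (hh : Hol α H h) :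
    Hol α (ε * (C0 α + 2 * C2 α) * H) (fun x => μ x * pz (Cd h x)) := by
  have hε := hμ.nonneg
  have hH := hh.nonneg
  have h0 := C0_nonneg hα
  have h2 := C2_nonneg hα hα1
  refine ⟨fun x y => ?_, fun x hx => by rw [hμ.supp x hx, zero_mul]⟩
  have e1 : μ x * pz (Cd h x) - μ y * pz (Cd h y) =
      (μ x - μ y) * pz (Cd h x) + μ y * (pz (Cd h x) - pz (Cd h y)) := by ring
  rw [e1, ← pz_sub]
  have b1 : ‖(μ x - μ y) * pz (Cd h x)‖ ≤ ε * ‖x - y‖ ^ α * (C0 α * H) := by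
    rw [norm_mul]
    exact mul_le_mul (hμ.hold x y) ((norm_pz_le _).trans (norm_Cd_le hα hα1.le hh x))
      (norm_nonneg _) (by positivity)
  have b2 : ‖μ y * pz (Cd h x - Cd h y)‖ ≤ 2 * ε * (C2 α * H * ‖x - y‖ ^ α) := by
    rw [norm_mul]
    exact mul_le_mul (hμ.bdd hα hα1.le y) ((norm_pz_le _).trans (Cd_holder hα hα1 hh x y))
      (norm_nonneg _) (by positivity)
  refine (norm_add_le _ _).trans ((add_le_add b1 b2).trans (le_of_eq ?_))
  ring

/-- the terms of the Neumann series -/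
def dn (μ : ℂ → ℂ) : ℕ → ℂ → ℂ
  | 0 => μ
  | n + 1 => fun x => μ x * pz (Cd (dn μ n) x)

theorem Hol.dn (hα : 0 < α) (hα1 : α < 1) (hμ : Hol α ε μ) (hs : ε * (C0 α + 2 * C2 α) ≤ 1 / 2)
    (n : ℕ) : Hol α (ε * (1 / 2) ^ n) (dn μ n) := by
  induction n with
  | zero => simpa [Vale.Agent.P247.H324.dn] using hμ
  | succ n ih =>
      have h1 := hμ.mulS hα hα1 ih
      refine ⟨fun x y => (h1.hold x y).trans ?_, h1.supp⟩
      have hε := hμ.nonneg
      have : ε * (C0 α + 2 * C2 α) * (ε * (1 / 2) ^ n) ≤ ε * (1 / 2) ^ (n + 1) := by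
        calc ε * (C0 α + 2 * C2 α) * (ε * (1 / 2) ^ n) ≤ 1 / 2 * (ε * (1 / 2) ^ n) := by gcongr
          _ = _ := by rw [pow_succ]; ring
      gcongr

theorem belt_unit (hα : 0 < α) (hα1 : α < 1) (hμ : Hol α ε μ)
    (hs : ε * (C0 α + 2 * C2 α) ≤ 1 / 2) :
    ∃ h, Hol α (2 * ε) h ∧ ∀ x, h x = μ x * (1 + pz (Cd h x)) := by
  have hε := hμ.nonneg
  have hd := hμ.dn hα hα1 hs
  have hb : ∀ n x, ‖dn μ n x‖ ≤ 2 * ε * (1 / 2) ^ n := fun n x => by
    have := (hd n).bdd hα hα1.le x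
    linarith
  have hsum : ∀ x, Summable fun n => dn μ n x := fun x =>
    Summable.of_norm_bounded ((summable_geometric_of_lt_one (by norm_num)
      (by norm_num : (1/2:ℝ) < 1)).mul_left (2 * ε)) fun n => hb n x
  -- tails
  have htail : ∀ N : ℕ, Hol α (2 * ε * (1 / 2) ^ N) (fun x => ∑' n, dn μ (n + N) x) := by
    intro N
    refine ⟨fun x y => ?_, fun x hx => ?_⟩
    · have hsx := (summable_nat_add_iff N).2 (hsum x)
      have hsy := (summable_nat_add_iff N).2 (hsum y)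
      rw [← hsx.tsum_sub hsy]
      have h1 := tsum_of_norm_bounded (f := fun n => dn μ (n + N) x - dn μ (n + N) y)
        ((hasSum_geometric_of_lt_one (r := (1/2:ℝ)) (by norm_num) (by norm_num)).mul_left
          (ε * (1/2)^N * ‖x - y‖ ^ α)) (fun n => by
            refine ((hd (n + N)).hold x y).trans (le_of_eq ?_)
            rw [pow_add]; ring)
      refine h1.trans (le_of_eq ?_)
      norm_num; ring
    · have : ∀ n, dn μ (n + N) x = 0 := fun n => (hd (n + N)).supp x hx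
      simp [this]
  set h : ℂ → ℂ := fun x => ∑' n, dn μ n x with hhdef
  have hh : Hol α (2 * ε) h := by
    have := htail 0
    simpa using this
  have hpart : ∀ N : ℕ, Hol α (2 * ε) (fun x => ∑ n ∈ Finset.range N, dn μ n x) := by
    intro N
    refine ⟨fun x y => ?_, fun x hx => Finset.sum_eq_zero fun n _ => (hd n).supp x hx⟩
    rw [← Finset.sum_sub_distrib]
    calc ‖∑ n ∈ Finset.range N, (dn μ n x - dn μ n y)‖
        ≤ ∑ n ∈ Finset.range N, ε * (1/2) ^ n * ‖x - y‖ ^ α :=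
          norm_sum_le_of_le _ fun n _ => (hd n).hold x y
      _ = ε * (∑ n ∈ Finset.range N, (1/2:ℝ) ^ n) * ‖x - y‖ ^ α := by
          rw [Finset.mul_sum, Finset.sum_mul]
      _ ≤ ε * 2 * ‖x - y‖ ^ α := by
          have h1 : ∑ n ∈ Finset.range N, (1/2:ℝ) ^ n ≤ 2 := by
            have h2 := (summable_geometric_of_lt_one (r := (1/2:ℝ)) (by norm_num)
              (by norm_num)).sum_le_tsum (Finset.range N) (fun i _ => by positivity)
            rw [tsum_geometric_of_lt_one (by norm_num) (by norm_num)] at h2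
            norm_num at h2 ⊢
            exact h2
          gcongr
      _ = _ := by ring
  have hCdpart : ∀ N : ℕ, ∀ x, Cd (fun x => ∑ n ∈ Finset.range N, dn μ n x) x =
      ∑ n ∈ Finset.range N, Cd (dn μ n) x := by
    intro N x
    induction N with
    | zero =>
        simp only [Finset.range_zero, Finset.sum_empty]
        have hz : Hol α 0 (fun _ : ℂ => (0:ℂ)) := ⟨fun x y => by simp, fun _ _ => rfl⟩
        have := norm_Cd_le hα hα1.le hz x
        rw [mul_zero] at this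
        exact norm_le_zero_iff.1 this
    | succ N ih =>
        have e : (fun x => ∑ n ∈ Finset.range (N + 1), dn μ n x) =
            fun x => (∑ n ∈ Finset.range N, dn μ n x) + dn μ N x := by
          funext x; rw [Finset.sum_range_succ]
        rw [e, Cd_add hα hα1.le (hpart N) (hd N), ih, Finset.sum_range_succ]
  have hrec : ∀ N x, (∑ n ∈ Finset.range (N + 1), dn μ n x) = μ x +
      μ x * pz (Cd (fun x => ∑ n ∈ Finset.range N, dn μ n x) x) := by
    intro N x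
    rw [Finset.sum_range_succ', hCdpart]
    have e : pz (∑ n ∈ Finset.range N, Cd (dn μ n) x) = ∑ n ∈ Finset.range N, pz (Cd (dn μ n) x) := by
      induction N with
      | zero => simp [pz]
      | succ N ih => rw [Finset.sum_range_succ, Finset.sum_range_succ, pz_add, ih]
    rw [e, Finset.mul_sum, add_comm]
    rfl
  refine ⟨h, hh, fun x => ?_⟩
  have key : ∀ N : ℕ, ‖h x - μ x * (1 + pz (Cd h x))‖ ≤
      (4 * ε + 4 * ε * (C0 α * ε)) * (1 / 2) ^ N := by
    intro N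
    have h0 := C0_nonneg hα
    have e1 : h x - ∑ n ∈ Finset.range (N + 1), dn μ n x = ∑' n, dn μ (n + (N + 1)) x := by
      rw [hhdef]
      simp only
      rw [← (hsum x).sum_add_tsum_nat_add (N + 1)]; ring
    have e2 : Cd h x = Cd (fun x => ∑ n ∈ Finset.range N, dn μ n x) x +
        Cd (fun x => ∑' n, dn μ (n + N) x) x := by
      rw [← Cd_add hα hα1.le (hpart N) (htail N)]
      congr 1
      funext y
      rw [hhdef]
      simp only
      rw [← (hsum y).sum_add_tsum_nat_add N]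
    have e3 : h x - μ x * (1 + pz (Cd h x)) = (∑' n, dn μ (n + (N + 1)) x) -
        μ x * pz (Cd (fun x => ∑' n, dn μ (n + N) x) x) := by
      rw [← e1, hrec, e2, pz_add]; ring
    rw [e3]
    have b1 := (htail (N + 1)).bdd hα hα1.le x
    have b2 := (norm_pz_le _).trans (norm_Cd_le hα hα1.le (htail N) x)
    have b3 := hμ.bdd hα hα1.le x
    have b4 : ‖μ x * pz (Cd (fun x => ∑' n, dn μ (n + N) x) x)‖ ≤
        2 * ε * (C0 α * (2 * ε * (1 / 2) ^ N)) := by
      rw [norm_mul]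
      exact mul_le_mul b3 b2 (norm_nonneg _) (by positivity)
    refine (norm_sub_le _ _).trans ((add_le_add b1 b4).trans ?_)
    have b5 : (0:ℝ) < (1/2)^N := by positivity
    rw [pow_succ]
    have b6 : 0 ≤ ε * (1/2:ℝ)^N := by positivity
    nlinarith
  have hlim : Tendsto (fun N : ℕ => (4 * ε + 4 * ε * (C0 α * ε)) * (1 / 2 : ℝ) ^ N) atTop (𝓝 0) := by
    have := (tendsto_pow_atTop_nhds_zero_of_lt_one (r := (1/2:ℝ)) (by norm_num)
      (by norm_num)).const_mul (4 * ε + 4 * ε * (C0 α * ε))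
    simpa using this
  have h0 : ‖h x - μ x * (1 + pz (Cd h x))‖ ≤ 0 := ge_of_tendsto' hlim key
  exact sub_eq_zero.1 (norm_le_zero_iff.1 h0)

end

/-- cutoff: `1` on the ball of radius `1/2`, `0` off the unit ball -/
def chu : ContDiffBump (0 : ℂ) := ⟨1/2, 1, by norm_num, by norm_num⟩

theorem chu_one {w : ℂ} (h : ‖w‖ ≤ 1/2) : chu w = 1 :=
  chu.one_of_mem_closedBall (by rw [mem_closedBall_zero_iff]; exact h)

theorem chu_zero {w : ℂ} (h : 1 ≤ ‖w‖) : chu w = 0 :=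
  chu.zero_of_le_dist (by rw [dist_zero_right]; exact h)

theorem chu_holder : ∃ L : ℝ, 0 ≤ L ∧ ∀ α : ℝ, 0 < α → α ≤ 1 → ∀ x y : ℂ,
    |chu x - chu y| ≤ L * ‖x - y‖ ^ α := by
  have h1 : ContDiff ℝ ∞ (chu : ℂ → ℝ) := chu.contDiff
  obtain ⟨M, hM⟩ := (h1.continuous_fderiv (by simp)).bounded_above_of_compact_support
    (chu.hasCompactSupport.fderiv ℝ)
  have hM0 : 0 ≤ M := (norm_nonneg _).trans (hM 0)
  refine ⟨M + 1, by positivity, fun α hα hα1 x y => ?_⟩
  have h3 := convex_univ.norm_image_sub_le_of_norm_fderiv_le (𝕜 := ℝ) (f := (chu : ℂ → ℝ)) (C := M)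
    (fun x _ => (h1.differentiable (by simp)) x) (fun x _ => hM x) (mem_univ y) (mem_univ x)
  rw [Real.norm_eq_abs] at h3
  by_cases hxy : ‖x - y‖ ≤ 1
  · have h4 : ‖x - y‖ ≤ ‖x - y‖ ^ α := by
      rcases eq_or_ne ‖x - y‖ 0 with h0 | h0
      · rw [h0]; exact Real.rpow_nonneg le_rfl _
      · calc ‖x - y‖ = ‖x - y‖ ^ (1:ℝ) := (Real.rpow_one _).symm
          _ ≤ ‖x - y‖ ^ α := Real.rpow_le_rpow_of_exponent_ge
            (lt_of_le_of_ne (norm_nonneg _) (Ne.symm h0)) hxy hα1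
    calc |chu x - chu y| ≤ M * ‖x - y‖ := h3
      _ ≤ (M + 1) * ‖x - y‖ ^ α := by
        have := norm_nonneg (x - y)
        nlinarith
  · push Not at hxy
    have h4 : 1 ≤ ‖x - y‖ ^ α := Real.one_le_rpow hxy.le hα.le
    have h5 : |chu x - chu y| ≤ 1 := by
      have a1 := chu.nonneg (x := x)
      have a2 := chu.le_one (x := x)
      have a3 := chu.nonneg (x := y)
      have a4 := chu.le_one (x := y)
      rw [abs_le]; constructor <;> linarith
    nlinarith

/-- local solution of the Beltrami equation -/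
theorem belt {α H r0 : ℝ} (hα : 0 < α) (hα1 : α < 1) (hr0 : 0 < r0) {μ : ℂ → ℂ}
    (hμ : ∀ x ∈ ball (0:ℂ) r0, ∀ y ∈ ball (0:ℂ) r0, ‖μ x - μ y‖ ≤ H * ‖x - y‖ ^ α)
    (h0 : μ 0 = 0) {κ : ℝ} (hκ : 0 < κ) :
    ∃ r > 0, r ≤ r0 ∧ ∃ w : ℂ → ℂ, ContDiff ℝ 1 w ∧ w 0 = 0 ∧
      (∀ x, ‖fderiv ℝ w x - ContinuousLinearMap.id ℝ ℂ‖ ≤ κ) ∧
      (∃ C, 0 ≤ C ∧ ∀ x y, ‖fderiv ℝ w x - fderiv ℝ w y‖ ≤ C * ‖x - y‖ ^ α) ∧
      ∀ z ∈ ball (0:ℂ) r, pzb (fderiv ℝ w z) = μ z * pz (fderiv ℝ w z) := by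
  obtain ⟨L, hL0, hL⟩ := chu_holder
  have hH : 0 ≤ max H 0 := le_max_right _ _
  set H' := max H 0 with hH'
  have hμ' : ∀ x ∈ ball (0:ℂ) r0, ∀ y ∈ ball (0:ℂ) r0, ‖μ x - μ y‖ ≤ H' * ‖x - y‖ ^ α :=
    fun x hx y hy => (hμ x hx y hy).trans (by
      have : 0 ≤ ‖x - y‖ ^ α := by positivity
      exact mul_le_mul_of_nonneg_right (le_max_left _ _) this)
  have hC0 := C0_nonneg hα
  have hC2 := C2_nonneg hα hα1
  -- choice of the radius
  have hlim : Tendsto (fun r : ℝ => (L + 1) * H' * r ^ α) (𝓝[>] 0) (𝓝 0) := by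
    have h1 : Tendsto (fun r : ℝ => r ^ α) (𝓝[>] 0) (𝓝 0) := by
      have := ((Real.continuous_rpow_const hα.le).tendsto (0:ℝ)).mono_left
        (nhdsWithin_le_nhds (s := Ioi 0))
      rwa [Real.zero_rpow hα.ne'] at this
    have := h1.const_mul ((L + 1) * H')
    simpa using this
  set e0 : ℝ := min (1 / (2 * (C0 α + 2 * C2 α + 1))) (κ / (2 * (C0 α + 1))) with he0
  have he0p : 0 < e0 := by positivity
  obtain ⟨r1, hr1, hr1s, hr1r⟩ : ∃ r1 > 0, (L + 1) * H' * r1 ^ α ≤ e0 ∧ r1 ≤ r0 := by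
    have h1 := hlim.eventually (eventually_le_nhds he0p)
    have h2 : ∀ᶠ r in 𝓝[>] (0:ℝ), r ≤ r0 := by
      filter_upwards [Ioo_mem_nhdsGT hr0] with r hr using hr.2.le
    obtain ⟨r, hr, h3, h4⟩ := (h1.and (h2.and self_mem_nhdsWithin)).exists
    exact ⟨r, h4, hr, h3⟩
  set ε : ℝ := (L + 1) * H' * r1 ^ α with hε
  have hε0 : 0 ≤ ε := by positivity
  have hs : ε * (C0 α + 2 * C2 α) ≤ 1 / 2 := by
    have h1 : ε ≤ 1 / (2 * (C0 α + 2 * C2 α + 1)) := hr1s.trans (min_le_left _ _)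
    calc ε * (C0 α + 2 * C2 α) ≤ 1 / (2 * (C0 α + 2 * C2 α + 1)) * (C0 α + 2 * C2 α) := by gcongr
      _ ≤ 1 / 2 := by
        rw [div_mul_eq_mul_div, div_le_div_iff₀ (by positivity) (by norm_num)]; nlinarith
  have hs2 : C0 α * (2 * ε) ≤ κ := by
    have h1 : ε ≤ κ / (2 * (C0 α + 1)) := hr1s.trans (min_le_right _ _)
    calc C0 α * (2 * ε) ≤ C0 α * (2 * (κ / (2 * (C0 α + 1)))) := by gcongr
      _ = (C0 α * κ) / (C0 α + 1) := by field_simp
      _ ≤ κ := by
        rw [div_le_iff₀ (by positivity)]; nlinarith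
  set ν : ℂ → ℂ := fun x => (chu x : ℂ) * μ ((r1:ℂ) * x) with hν
  have hmem : ∀ x : ℂ, ‖x‖ < 1 → (r1:ℂ) * x ∈ ball (0:ℂ) r0 := by
    intro x hx
    rw [mem_ball_zero_iff, norm_mul, Complex.norm_real, Real.norm_of_nonneg hr1.le]
    calc r1 * ‖x‖ < r1 * 1 := by gcongr
      _ ≤ r0 := by linarith
  have hμb : ∀ x : ℂ, ‖x‖ < 1 → ‖μ ((r1:ℂ) * x)‖ ≤ H' * r1 ^ α := by
    intro x hx
    have h1 := hμ' _ (hmem x hx) 0 (by simpa using hr0)
    rw [h0, sub_zero, sub_zero] at h1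
    refine h1.trans ?_
    rw [norm_mul, Complex.norm_real, Real.norm_of_nonneg hr1.le]
    gcongr
    nlinarith
  have hνH : Hol α ε ν := by
    have hone : ∀ x y : ℂ, ‖x‖ < 1 → 1 ≤ ‖y‖ → ‖ν x - ν y‖ ≤ ε * ‖x - y‖ ^ α := by
      intro x y hx hy
      have e1 : ν x - ν y = ((chu x - chu y : ℝ) : ℂ) * μ ((r1:ℂ) * x) := by
        simp only [hν]; rw [chu_zero hy]; push_cast; ring
      rw [e1, norm_mul, Complex.norm_real, Real.norm_eq_abs]
      have h1 := hL α hα hα1.le x y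
      have h2 := hμb x hx
      calc |chu x - chu y| * ‖μ ((r1:ℂ) * x)‖ ≤ (L * ‖x - y‖ ^ α) * (H' * r1 ^ α) :=
            mul_le_mul h1 h2 (norm_nonneg _) (by positivity)
        _ = L * H' * r1 ^ α * ‖x - y‖ ^ α := by ring
        _ ≤ ε * ‖x - y‖ ^ α := by
          rw [hε]; gcongr; linarith
    refine ⟨fun x y => ?_, fun x hx => ?_⟩
    · by_cases hx : ‖x‖ < 1
      · by_cases hy : ‖y‖ < 1
        · have e1 : ν x - ν y = ((chu x - chu y : ℝ) : ℂ) * μ ((r1:ℂ) * x) +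
              (chu y : ℂ) * (μ ((r1:ℂ) * x) - μ ((r1:ℂ) * y)) := by
            simp only [hν]; push_cast; ring
          rw [e1]
          have h1 := hL α hα hα1.le x y
          have h2 := hμb x hx
          have h3 := hμ' _ (hmem x hx) _ (hmem y hy)
          rw [← mul_sub, norm_mul, Complex.norm_real, Real.norm_of_nonneg hr1.le,
            Real.mul_rpow hr1.le (norm_nonneg _)] at h3
          have h4 : ‖(chu y : ℂ)‖ ≤ 1 := by
            rw [Complex.norm_real, Real.norm_eq_abs, abs_of_nonneg chu.nonneg]; exact chu.le_one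
          calc ‖((chu x - chu y : ℝ) : ℂ) * μ ((r1:ℂ) * x) +
              (chu y : ℂ) * (μ ((r1:ℂ) * x) - μ ((r1:ℂ) * y))‖
              ≤ (L * ‖x - y‖ ^ α) * (H' * r1 ^ α) + 1 * (H' * (r1 ^ α * ‖x - y‖ ^ α)) := by
                refine (norm_add_le _ _).trans (add_le_add ?_ ?_)
                · rw [norm_mul, Complex.norm_real, Real.norm_eq_abs]
                  exact mul_le_mul h1 h2 (norm_nonneg _) (by positivity)
                · rw [norm_mul]
                  exact mul_le_mul h4 h3 (norm_nonneg _) zero_le_one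
            _ = ε * ‖x - y‖ ^ α := by rw [hε]; ring
        · exact hone x y hx (not_lt.1 hy)
      · by_cases hy : ‖y‖ < 1
        · have := hone y x hy (not_lt.1 hx)
          rwa [norm_sub_rev, norm_sub_rev y x] at this
        · simp only [hν]
          rw [chu_zero (not_lt.1 hx), chu_zero (not_lt.1 hy)]
          simp; positivity
    · simp only [hν]; rw [chu_zero hx]; simp
  obtain ⟨h, hh, heq⟩ := belt_unit hα hα1 hνH hs
  have hr1' : (r1:ℂ) ≠ 0 := by exact_mod_cast hr1.ne'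
  set w : ℂ → ℂ := fun z => z + (r1:ℂ) * (Ca h ((r1:ℂ)⁻¹ * z) - Ca h 0) with hw
  have hsc : ∀ z : ℂ, HasFDerivAt (fun z : ℂ => (r1:ℂ)⁻¹ * z)
      ((r1⁻¹:ℝ) • ContinuousLinearMap.id ℝ ℂ) z := by
    intro z
    have h1 : (fun z : ℂ => (r1:ℂ)⁻¹ * z) = fun z : ℂ => (r1⁻¹:ℝ) • z := by
      funext z; rw [Complex.real_smul]; push_cast; rfl
    rw [h1]
    exact (hasFDerivAt_id (𝕜 := ℝ) z).const_smul (r1⁻¹:ℝ)
  have hwd : ∀ z, HasFDerivAt w (ContinuousLinearMap.id ℝ ℂ + Cd h ((r1:ℂ)⁻¹ * z)) z := by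
    intro z
    have h1 := ((hasFDerivAt_Ca hα hα1.le hh ((r1:ℂ)⁻¹ * z)).comp z (hsc z)).sub_const (Ca h 0)
    have h2 : HasFDerivAt (fun z : ℂ => (r1:ℂ) * (Ca h ((r1:ℂ)⁻¹ * z) - Ca h 0))
        (r1 • (Cd h ((r1:ℂ)⁻¹ * z)).comp ((r1⁻¹:ℝ) • ContinuousLinearMap.id ℝ ℂ)) z := by
      have h3 := h1.const_smul r1
      refine h3.congr_of_eventuallyEq (Eventually.of_forall fun y => ?_)
      simp [Complex.real_smul]
    have h4 := (hasFDerivAt_id (𝕜 := ℝ) z).add h2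
    have e : r1 • (Cd h ((r1:ℂ)⁻¹ * z)).comp ((r1⁻¹:ℝ) • ContinuousLinearMap.id ℝ ℂ) =
        Cd h ((r1:ℂ)⁻¹ * z) := by
      ext v
      simp only [ContinuousLinearMap.comp_smul, ContinuousLinearMap.comp_id, smul_smul]
      rw [mul_inv_cancel₀ hr1.ne', one_smul]
    rw [e] at h4
    exact h4
  have hfd : ∀ z, fderiv ℝ w z = ContinuousLinearMap.id ℝ ℂ + Cd h ((r1:ℂ)⁻¹ * z) :=
    fun z => (hwd z).fderiv
  refine ⟨r1 / 2, by positivity, by linarith, w, ?_, ?_, ?_, ?_, ?_⟩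
  · rw [contDiff_one_iff_fderiv]
    refine ⟨fun z => (hwd z).differentiableAt, ?_⟩
    have : fderiv ℝ w = fun z => ContinuousLinearMap.id ℝ ℂ + Cd h ((r1:ℂ)⁻¹ * z) := funext hfd
    rw [this]
    exact continuous_const.add ((Cd_cont hα hα1 hh).comp (by fun_prop))
  · simp [hw]
  · intro z
    rw [hfd, add_sub_cancel_left]
    refine (norm_Cd_le hα hα1.le hh _).trans ?_
    exact hs2
  · refine ⟨C2 α * (2 * ε) * (r1⁻¹) ^ α, by positivity, fun x y => ?_⟩
    rw [hfd, hfd, add_sub_add_left_eq_sub]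
    refine (Cd_holder hα hα1 hh _ _).trans (le_of_eq ?_)
    rw [← mul_sub, norm_mul, norm_inv, Complex.norm_real, Real.norm_of_nonneg hr1.le,
      Real.mul_rpow (by positivity) (norm_nonneg _)]
    ring
  · intro z hz
    have hz' : ‖(r1:ℂ)⁻¹ * z‖ ≤ 1/2 := by
      rw [norm_mul, norm_inv, Complex.norm_real, Real.norm_of_nonneg hr1.le, inv_mul_eq_div,
        div_le_iff₀ hr1]
      rw [mem_ball_zero_iff] at hz
      linarith
    have h1 := heq ((r1:ℂ)⁻¹ * z)
    have h2 := dbar_Ca hα hα1 hh (x := (r1:ℂ)⁻¹ * z) (by linarith)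
    rw [hfd, pz_add, pzb_add, pz_id, pzb_id, zero_add]
    have h3 : pzb (Cd h ((r1:ℂ)⁻¹ * z)) = h ((r1:ℂ)⁻¹ * z) := h2
    have h4 : ν ((r1:ℂ)⁻¹ * z) = μ z := by
      simp only [hν]
      rw [chu_one hz', ← mul_assoc, mul_inv_cancel₀ hr1']
      simp
    rw [h3, h1, h4]

end Vale.Agent.P247.H324
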