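import Vale.Agent.P247.H324.MG.Belt

/-! Similarity principle with a Hölder Beltrami coefficient. -/

open MeasureTheory Set Metric Filter Topology
open scoped ContDiff ENNReal Convolution NNReal

set_option linter.unusedSectionVars false
set_option linter.unusedVariables false

noncomputable section

namespace Vale.Agent.P247.H324

open Vale.Agent.P272.CT

theorem det_C (L : ℂ →L[ℝ] ℂ) :
    L.det = (L 1).re * (L Complex.I).im - (L Complex.I).re * (L 1).im := by
  have h1 : L.det = LinearMap.det (L : ℂ →ₗ[ℝ] ℂ) := rfl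
  rw [h1, ← LinearMap.det_toMatrix Complex.basisOneI, Matrix.det_fin_two]
  simp [LinearMap.toMatrix_apply]

section comp

variable {E : Type*} [NormedAddCommGroup E] [NormedSpace ℂ E]

theorem pz_eq_of {L : ℂ →L[ℝ] E} {a b : E} (h : ∀ v : ℂ, L v = v • a + (starRingEnd ℂ v) • b) :
    pz L = a ∧ pzb L = b := by
  have h1 := h 1
  have hI := h Complex.I
  simp only [map_one, one_smul, Complex.conj_I] at h1 hI
  constructor
  · unfold pz
    rw [h1, hI]
    have : (1 / 2 : ℂ) • (a + b - Complex.I • (Complex.I • a + -Complex.I • b)) =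
      ((1 / 2 : ℂ) * (1 - Complex.I * Complex.I)) • a +
        ((1 / 2 : ℂ) * (1 + Complex.I * Complex.I)) • b := by module
    rw [this, Complex.I_mul_I]
    norm_num
  · unfold pzb
    rw [h1, hI]
    have : (1 / 2 : ℂ) • (a + b + Complex.I • (Complex.I • a + -Complex.I • b)) =
      ((1 / 2 : ℂ) * (1 + Complex.I * Complex.I)) • a +
        ((1 / 2 : ℂ) * (1 - Complex.I * Complex.I)) • b := by module
    rw [this, Complex.I_mul_I]
    norm_num

theorem pz_comp (L : ℂ →L[ℝ] E) (W : ℂ →L[ℝ] ℂ) :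
    pz (L.comp W) = pz W • pz L + (starRingEnd ℂ (pzb W)) • pzb L ∧
      pzb (L.comp W) = pzb W • pz L + (starRingEnd ℂ (pz W)) • pzb L := by
  refine pz_eq_of fun v => ?_
  rw [ContinuousLinearMap.comp_apply, pz_pzb L (W v), pz_pzb W v]
  simp only [smul_eq_mul, map_add, map_mul, Complex.conj_conj]
  module

end comp

/-- near the identity -/
theorem near_id {W : ℂ →L[ℝ] ℂ} (h : ‖W - ContinuousLinearMap.id ℝ ℂ‖ ≤ 1/4) :
    3/4 ≤ ‖pz W‖ ∧ ‖pzb W‖ ≤ 1/4 ∧ W.det ≠ 0 ∧ |W.det| ≤ 4 := by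
  have h1 : ‖pz W - 1‖ ≤ 1/4 := by
    have := norm_pz_le (W - ContinuousLinearMap.id ℝ ℂ)
    rw [pz_sub, pz_id] at this
    linarith
  have h2 : ‖pzb W‖ ≤ 1/4 := by
    have := norm_pzb_le (W - ContinuousLinearMap.id ℝ ℂ)
    rw [pzb_sub, pzb_id, sub_zero] at this
    linarith
  have h3 : 3/4 ≤ ‖pz W‖ := by
    have := norm_sub_norm_le (1:ℂ) (1 - pz W)
    rw [norm_one, norm_sub_rev 1 (pz W), sub_sub_cancel] at this
    linarith
  refine ⟨h3, h2, ?_, ?_⟩
  · intro h0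
    have h4 : LinearMap.det (W : ℂ →ₗ[ℝ] ℂ) = 0 := h0
    have h5 := LinearMap.bot_lt_ker_of_det_eq_zero h4
    obtain ⟨v, hv, hv0⟩ := (Submodule.ne_bot_iff _).1 h5.ne'
    have h6 : W v = 0 := hv
    have h7 : ‖v‖ ≤ 1/4 * ‖v‖ := by
      calc ‖v‖ = ‖(W - ContinuousLinearMap.id ℝ ℂ) v‖ := by
            rw [sub_apply, h6, zero_sub, norm_neg]; rfl
        _ ≤ ‖W - ContinuousLinearMap.id ℝ ℂ‖ * ‖v‖ := ContinuousLinearMap.le_opNorm _ _
        _ ≤ 1/4 * ‖v‖ := by gcongr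
    have h8 := norm_pos_iff.2 hv0
    linarith
  · have hW : ‖W‖ ≤ 5/4 := by
      have := norm_add_le (W - ContinuousLinearMap.id ℝ ℂ) (ContinuousLinearMap.id ℝ ℂ)
      rw [sub_add_cancel] at this
      have h9 : ‖ContinuousLinearMap.id ℝ ℂ‖ ≤ 1 := ContinuousLinearMap.norm_id_le
      linarith
    have e1 := W.le_opNorm 1
    have e2 := W.le_opNorm Complex.I
    simp only [norm_one, Complex.norm_I, mul_one] at e1 e2
    have a1 := (Complex.abs_re_le_norm (W 1)).trans (e1.trans hW)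
    have a2 := (Complex.abs_im_le_norm (W 1)).trans (e1.trans hW)
    have a3 := (Complex.abs_re_le_norm (W Complex.I)).trans (e2.trans hW)
    have a4 := (Complex.abs_im_le_norm (W Complex.I)).trans (e2.trans hW)
    rw [det_C]
    calc |(W 1).re * (W Complex.I).im - (W Complex.I).re * (W 1).im|
        ≤ |(W 1).re * (W Complex.I).im| + |(W Complex.I).re * (W 1).im| := abs_sub _ _
      _ = |(W 1).re| * |(W Complex.I).im| + |(W Complex.I).re| * |(W 1).im| := by
          rw [abs_mul, abs_mul]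
      _ ≤ 5/4 * (5/4) + 5/4 * (5/4) := by gcongr
      _ ≤ 4 := by norm_num

/-- a diffeomorphism of the plane near the identity -/
structure NId (w g : ℂ → ℂ) : Prop where
  wc : ContDiff ℝ 1 w
  gc : ContDiff ℝ 1 g
  near : ∀ x, ‖fderiv ℝ w x - ContinuousLinearMap.id ℝ ℂ‖ ≤ 1/4
  gw : ∀ x, g (w x) = x
  wg : ∀ x, w (g x) = x
  up : ∀ x y, ‖w x - w y‖ ≤ 5/4 * ‖x - y‖
  low : ∀ x y, ‖g x - g y‖ ≤ 4/3 * ‖x - y‖

theorem exists_NId {w : ℂ → ℂ} (hw : ContDiff ℝ 1 w)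
    (hn : ∀ x, ‖fderiv ℝ w x - ContinuousLinearMap.id ℝ ℂ‖ ≤ 1/4) : ∃ g, NId w g := by
  have hd : ∀ x, HasFDerivAt w (fderiv ℝ w x) x := fun x =>
    ((hw.differentiable (by simp)) x).hasFDerivAt
  have happ : ∀ x y, ‖w x - w y - (x - y)‖ ≤ 1/4 * ‖x - y‖ := by
    intro x y
    have h1 : ∀ z ∈ (univ : Set ℂ), HasFDerivWithinAt (fun z => w z - z)
        (fderiv ℝ w z - ContinuousLinearMap.id ℝ ℂ) univ z := fun z _ =>
      ((hd z).sub (hasFDerivAt_id z)).hasFDerivWithinAt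
    have h2 := convex_univ.norm_image_sub_le_of_norm_hasFDerivWithin_le h1
      (fun z _ => hn z) (mem_univ y) (mem_univ x)
    have e : w x - w y - (x - y) = w x - x - (w y - y) := by ring
    rw [e]; exact h2
  have hlin : ApproximatesLinearOn w ((ContinuousLinearEquiv.refl ℝ ℂ : ℂ ≃L[ℝ] ℂ) : ℂ →L[ℝ] ℂ)
      univ (1/4 : ℝ≥0) := by
    intro x _ y _
    have := happ x y
    simpa using this
  have hc : Subsingleton ℂ ∨ (1/4 : ℝ≥0) <
      ‖((ContinuousLinearEquiv.refl ℝ ℂ).symm : ℂ →L[ℝ] ℂ)‖₊⁻¹ := by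
    right
    have h1 : ‖((ContinuousLinearEquiv.refl ℝ ℂ).symm : ℂ →L[ℝ] ℂ)‖₊ = 1 := by
      have : ((ContinuousLinearEquiv.refl ℝ ℂ).symm : ℂ →L[ℝ] ℂ) = ContinuousLinearMap.id ℝ ℂ := rfl
      rw [this]
      exact ContinuousLinearMap.nnnorm_id
    rw [h1, inv_one]
    rw [← NNReal.coe_lt_coe]
    norm_num
  set Φ := hlin.toHomeomorph w hc with hΦ
  have hΦw : ∀ x, Φ x = w x := fun x => rfl
  have hsymm : ContDiff ℝ 1 Φ.symm := by
    refine Φ.contDiff_symm (f₀' := fun a =>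
      (fderiv ℝ w a).toContinuousLinearEquivOfDetNeZero (near_id (hn a)).2.2.1) ?_ hw
    intro a
    have : (((fderiv ℝ w a).toContinuousLinearEquivOfDetNeZero (near_id (hn a)).2.2.1 :
        ℂ ≃L[ℝ] ℂ) : ℂ →L[ℝ] ℂ) = fderiv ℝ w a := by ext v; rfl
    rw [this]
    exact hd a
  refine ⟨Φ.symm, hw, hsymm, hn, fun x => Φ.symm_apply_apply x, fun x => Φ.apply_symm_apply x,
    fun x y => ?_, fun x y => ?_⟩
  · have h1 := happ x y
    have h2 := norm_add_le (w x - w y - (x - y)) (x - y)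
    rw [sub_add_cancel] at h2
    linarith
  · have h1 := happ (Φ.symm x) (Φ.symm y)
    have e1 : w (Φ.symm x) = x := Φ.apply_symm_apply x
    have e2 : w (Φ.symm y) = y := Φ.apply_symm_apply y
    rw [e1, e2] at h1
    have h2 := norm_sub_norm_le (Φ.symm x - Φ.symm y) (Φ.symm x - Φ.symm y - (x - y))
    rw [sub_sub_cancel] at h2
    rw [norm_sub_rev] at h1
    linarith

namespace NId

variable {w g : ℂ → ℂ} (h : NId w g)

include h

theorem hasw (x : ℂ) : HasFDerivAt w (fderiv ℝ w x) x := ((h.wc.differentiable (by simp)) x).hasFDerivAt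
theorem hasg (x : ℂ) : HasFDerivAt g (fderiv ℝ g x) x := ((h.gc.differentiable (by simp)) x).hasFDerivAt

theorem comp1 (x : ℂ) : (fderiv ℝ g (w x)).comp (fderiv ℝ w x) = ContinuousLinearMap.id ℝ ℂ := by
  have h1 := (h.hasg (w x)).comp x (h.hasw x)
  have h2 : (g ∘ w) = id := funext h.gw
  rw [h2] at h1
  exact h1.unique (hasFDerivAt_id x)

theorem comp2 (x : ℂ) : (fderiv ℝ w (g x)).comp (fderiv ℝ g x) = ContinuousLinearMap.id ℝ ℂ := by
  have h1 := (h.hasw (g x)).comp x (h.hasg x)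
  have h2 : (w ∘ g) = id := funext h.wg
  rw [h2] at h1
  exact h1.unique (hasFDerivAt_id x)

theorem comp3 (x : ℂ) : (fderiv ℝ g x).comp (fderiv ℝ w (g x)) = ContinuousLinearMap.id ℝ ℂ := by
  have := h.comp1 (g x)
  rwa [h.wg] at this

theorem detg (x : ℂ) : (fderiv ℝ g x).det ≠ 0 := by
  intro h0
  have h1 := congrArg ContinuousLinearMap.det (h.comp2 x)
  have h2 : ((fderiv ℝ w (g x)).comp (fderiv ℝ g x)).det =
      (fderiv ℝ w (g x)).det * (fderiv ℝ g x).det := LinearMap.det_comp _ _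
  rw [h2, h0, mul_zero] at h1
  have h3 : (ContinuousLinearMap.id ℝ ℂ).det = 1 := LinearMap.det_id
  rw [h3] at h1
  exact zero_ne_one h1

theorem lint_le {A : Set ℂ} (hA : MeasurableSet A) (φ : ℂ → ℝ≥0∞) :
    ∫⁻ x in A, φ (g x) ≤ 4 * ∫⁻ z in w ⁻¹' A, φ z := by
  have hS : MeasurableSet (w ⁻¹' A) := h.wc.continuous.measurable hA
  have himg : w '' (w ⁻¹' A) = A := image_preimage_eq A fun y => ⟨g y, h.wg y⟩
  have hinj : InjOn w (w ⁻¹' A) := fun x _ y _ hxy => by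
    have := congrArg g hxy
    rwa [h.gw, h.gw] at this
  have h1 := lintegral_image_eq_lintegral_abs_det_fderiv_mul volume hS
    (fun x _ => (h.hasw x).hasFDerivWithinAt) hinj (fun x => φ (g x))
  rw [himg] at h1
  rw [h1]
  have h2 : (4:ℝ≥0∞) * ∫⁻ z in w ⁻¹' A, φ z = ∫⁻ z in w ⁻¹' A, 4 * φ z :=
    (lintegral_const_mul' _ _ (by norm_num)).symm
  rw [h2]
  refine lintegral_mono fun z => ?_
  simp only
  rw [h.gw]
  gcongr
  have h3 := (near_id (h.near z)).2.2.2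
  calc ENNReal.ofReal |(fderiv ℝ w z).det| ≤ ENNReal.ofReal 4 := ENNReal.ofReal_le_ofReal h3
    _ = 4 := by norm_num

theorem quasi : Measure.QuasiMeasurePreserving g volume volume := by
  refine ⟨h.gc.continuous.measurable, ?_⟩
  refine Measure.AbsolutelyContinuous.mk fun s hs h0 => ?_
  rw [Measure.map_apply h.gc.continuous.measurable hs]
  have h1 := h.lint_le MeasurableSet.univ (s.indicator 1)
  simp only [Measure.restrict_univ, preimage_univ] at h1
  rw [lintegral_indicator_one hs, h0, mul_zero] at h1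
  have h2 : (fun x => s.indicator (1 : ℂ → ℝ≥0∞) (g x)) = (g ⁻¹' s).indicator 1 := by
    ext x; by_cases hx : g x ∈ s <;> simp [hx]
  rw [h2, lintegral_indicator_one (h.gc.continuous.measurable hs)] at h1
  exact le_antisymm h1 (zero_le)

end NId

/-- **similarity principle with Beltrami coefficient** -/
theorem spm_belt {E : Type*} [NormedAddCommGroup E] [NormedSpace ℂ E] [CompleteSpace E]
    {u : ℂ → E} {u' : ℂ → ℂ →L[ℝ] E} {μ : ℂ → ℂ} {G : ℂ → ℝ≥0∞} {R K ε A α H : ℝ} (hR : 0 < R)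
    (hε : 0 < ε) (hK : 0 ≤ K) (hα : 0 < α) (hα1 : α < 1)
    (hμ : ∀ x ∈ ball (0:ℂ) R, ∀ y ∈ ball (0:ℂ) R, ‖μ x - μ y‖ ≤ H * ‖x - y‖ ^ α)
    (hμ0 : μ 0 = 0) (hG : AEMeasurable G (volume.restrict (ball 0 R)))
    (hM : ∀ x ρ, 0 < ρ → ∫⁻ w in ball x ρ ∩ ball 0 R, G w ≤ ENNReal.ofReal (K * ρ ^ (1 + ε)))
    (hu : ContinuousOn u (ball 0 R \ {0})) (hb : ∀ z ∈ ball 0 R \ {0}, ‖u z‖ ≤ A)
    (hw : WG (ball 0 R \ {0}) u u')
    (hq : ∀ᵐ z ∂(volume.restrict (ball 0 R)),
      ‖pzb (u' z) - μ z • pz (u' z)‖ₑ ≤ G z * ‖u z‖ₑ) :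
    (∃ r > 0, ∀ z ∈ ball (0:ℂ) r \ {0}, u z = 0) ∨
      ∃ (m : ℕ) (a : E), a ≠ 0 ∧ Tendsto (fun z => (z ^ m)⁻¹ • u z) (𝓝[≠] 0) (𝓝 a) := by
  obtain ⟨r, hr, hrR, w, hwc, hw0, hwn, -, hweq⟩ := belt hα hα1 hR hμ hμ0 (κ := 1/4) (by norm_num)
  obtain ⟨g, hN⟩ := exists_NId hwc hwn
  have hg0 : g 0 = 0 := by have := hN.gw 0; rwa [hw0] at this
  have hgle : ∀ x, ‖g x‖ ≤ 4/3 * ‖x‖ := fun x => by
    have := hN.low x 0
    rwa [hg0, sub_zero, sub_zero] at this
  have hwle : ∀ x, ‖w x‖ ≤ 5/4 * ‖x‖ := fun x => by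
    have := hN.up x 0
    rwa [hw0, sub_zero, sub_zero] at this
  have hgne : ∀ x, x ≠ 0 → g x ≠ 0 := fun x hx h0 => hx (by rw [← hN.wg x, h0, hw0])
  have hwne : ∀ x, x ≠ 0 → w x ≠ 0 := fun x hx h0 => hx (by rw [← hN.gw x, h0, hg0])
  set r' : ℝ := 3/4 * r with hr'
  have hr'0 : 0 < r' := by positivity
  have hmap : ∀ x ∈ ball (0:ℂ) r', g x ∈ ball (0:ℂ) r := fun x hx => by
    rw [mem_ball_zero_iff] at hx ⊢
    have := hgle x
    linarith
  have hmap2 : ∀ x ∈ ball (0:ℂ) r' \ {0}, g x ∈ ball (0:ℂ) R \ {0} := fun x hx =>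
    ⟨ball_subset_ball hrR (hmap x hx.1), hgne x hx.2⟩
  -- the new function
  have hV : IsOpen (ball (0:ℂ) r' \ {0}) := isOpen_ball.sdiff isClosed_singleton
  have hU : IsOpen (ball (0:ℂ) R \ {0}) := isOpen_ball.sdiff isClosed_singleton
  have hv := hw.comp_right hU hV (g := g) hN.gc.contDiffOn (fun x _ => hN.detg x) hmap2
  have hvd := hv.toWDb
  have hae : ∀ᵐ x ∂(volume : Measure ℂ), g x ∈ ball (0:ℂ) R →
      ‖pzb (u' (g x)) - μ (g x) • pz (u' (g x))‖ₑ ≤ G (g x) * ‖u (g x)‖ₑ :=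
    hN.quasi.ae ((ae_restrict_iff' measurableSet_ball).1 hq)
  have hGg : AEMeasurable (fun x => 2 * G (g x)) (volume.restrict (ball 0 r')) := by
    obtain ⟨G0, hG0, he⟩ := hG
    have he' : ∀ᵐ x ∂(volume : Measure ℂ), g x ∈ ball (0:ℂ) R → G (g x) = G0 (g x) :=
      hN.quasi.ae ((ae_restrict_iff' measurableSet_ball).1 he)
    refine ⟨fun x => 2 * G0 (g x), (hG0.comp hN.gc.continuous.measurable).const_mul _, ?_⟩
    filter_upwards [ae_restrict_of_ae he', ae_restrict_mem measurableSet_ball] with x hx hx2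
    rw [hx (ball_subset_ball hrR (hmap x hx2))]
  have hMg : ∀ x ρ, 0 < ρ → ∫⁻ y in ball x ρ ∩ ball 0 r', 2 * G (g y) ≤
      ENNReal.ofReal ((8 * K * 2 ^ (1 + ε)) * ρ ^ (1 + ε)) := by
    intro x ρ hρ
    have hm : MeasurableSet (ball x ρ ∩ ball (0:ℂ) r') := measurableSet_ball.inter measurableSet_ball
    have hsub : w ⁻¹' (ball x ρ ∩ ball 0 r') ⊆ ball (g x) (2 * ρ) ∩ ball 0 R := by
      intro z hz
      obtain ⟨hz1, hz2⟩ := hz
      refine ⟨?_, ?_⟩
      · rw [mem_ball, dist_eq_norm] at hz1 ⊢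
        have := hN.low (w z) x
        rw [hN.gw] at this
        linarith
      · have := hmap _ hz2
        rw [hN.gw] at this
        exact ball_subset_ball hrR this
    calc ∫⁻ y in ball x ρ ∩ ball 0 r', 2 * G (g y)
        = 2 * ∫⁻ y in ball x ρ ∩ ball 0 r', G (g y) := lintegral_const_mul' _ _ (by norm_num)
      _ ≤ 2 * (4 * ∫⁻ z in w ⁻¹' (ball x ρ ∩ ball 0 r'), G z) := by
          gcongr
          exact hN.lint_le hm G
      _ ≤ 2 * (4 * ∫⁻ z in ball (g x) (2 * ρ) ∩ ball 0 R, G z) := by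
          gcongr
      _ ≤ 2 * (4 * ENNReal.ofReal (K * (2 * ρ) ^ (1 + ε))) := by
          gcongr
          exact hM _ _ (by positivity)
      _ = ENNReal.ofReal ((8 * K * 2 ^ (1 + ε)) * ρ ^ (1 + ε)) := by
          have h8 : (2:ℝ≥0∞) * (4 * ENNReal.ofReal (K * (2 * ρ) ^ (1 + ε))) =
            ENNReal.ofReal 8 * ENNReal.ofReal (K * (2 * ρ) ^ (1 + ε)) := by
            rw [← mul_assoc]; congr 1; norm_num
          rw [h8, ← ENNReal.ofReal_mul (by norm_num), Real.mul_rpow (by norm_num) hρ.le]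
          congr 1; ring
  have hcont : ContinuousOn (fun x => u (g x)) (ball 0 r' \ {0}) :=
    hu.comp hN.gc.continuous.continuousOn hmap2
  have hqm : AEStronglyMeasurable (fun z => (1 / 2 : ℂ) • (((u' (g z)).comp (fderiv ℝ g z)) 1 +
      Complex.I • ((u' (g z)).comp (fderiv ℝ g z)) Complex.I)) (volume.restrict (ball 0 r')) := by
    have h1 : volume.restrict (ball (0 : ℂ) r') = volume.restrict (ball (0 : ℂ) r' \ {0}) := by
      refine Measure.restrict_congr_set ?_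
      refine (sdiff_null_ae_eq_self ?_).symm
      simp
    rw [h1]
    have h2 : LocallyIntegrableOn (fun z => (u' (g z)).comp (fderiv ℝ g z))
        (ball (0 : ℂ) r' \ {0}) := by
      rw [locallyIntegrableOn_iff hV.isLocallyClosed]
      exact fun k hk hk2 => hv.int k hk2 hk
    have h3 := h2.aestronglyMeasurable
    have h4 : ∀ v : ℂ, AEStronglyMeasurable (fun z => ((u' (g z)).comp (fderiv ℝ g z)) v)
        (volume.restrict (ball (0 : ℂ) r' \ {0})) := fun v =>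
      (ContinuousLinearMap.apply ℝ E v).continuous.comp_aestronglyMeasurable h3
    exact ((h4 1).add ((h4 Complex.I).const_smul Complex.I)).const_smul _
  have hqq : ∀ᵐ x ∂(volume.restrict (ball (0:ℂ) r')),
      ‖(1 / 2 : ℂ) • (((u' (g x)).comp (fderiv ℝ g x)) 1 +
      Complex.I • ((u' (g x)).comp (fderiv ℝ g x)) Complex.I)‖ₑ ≤ (2 * G (g x)) * ‖u (g x)‖ₑ := by
    filter_upwards [ae_restrict_of_ae hae, ae_restrict_mem measurableSet_ball] with x hx hx2
    have hxr := hmap x hx2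
    have hx' := hx (ball_subset_ball hrR hxr)
    set W := fderiv ℝ w (g x) with hW
    set L' := (u' (g x)).comp (fderiv ℝ g x) with hL'
    have hcomp : L'.comp W = u' (g x) := by
      rw [hL', ContinuousLinearMap.comp_assoc, hN.comp3, ContinuousLinearMap.comp_id]
    obtain ⟨p1, p2⟩ := pz_comp L' W
    rw [hcomp] at p1 p2
    obtain ⟨n1, n2, -, -⟩ := near_id (hN.near (g x))
    have hb' := hweq (g x) hxr
    rw [← hW] at n1 n2 hb'
    have hμle : ‖μ (g x)‖ ≤ 1/3 := by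
      have h1 : ‖pzb W‖ = ‖μ (g x)‖ * ‖pz W‖ := by rw [hb', norm_mul]
      rw [h1] at n2
      nlinarith [norm_nonneg (μ (g x))]
    have key : pzb (u' (g x)) - μ (g x) • pz (u' (g x)) =
        ((starRingEnd ℂ (pz W)) - μ (g x) * (starRingEnd ℂ (pzb W))) • pzb L' := by
      rw [p1, p2, smul_add, smul_smul, smul_smul, hb']
      module
    have hlow : 1/2 ≤ ‖(starRingEnd ℂ (pz W)) - μ (g x) * (starRingEnd ℂ (pzb W))‖ := by
      have h1 := norm_sub_norm_le (starRingEnd ℂ (pz W)) (μ (g x) * (starRingEnd ℂ (pzb W)))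
      rw [norm_mul, RCLike.norm_conj, RCLike.norm_conj] at h1
      have h2 : ‖μ (g x)‖ * ‖pzb W‖ ≤ 1/3 * (1/4) := by gcongr
      linarith
    have hle : ‖pzb L'‖ ≤ 2 * ‖pzb (u' (g x)) - μ (g x) • pz (u' (g x))‖ := by
      rw [key, norm_smul]
      nlinarith [norm_nonneg (pzb L')]
    have hle' : ‖pzb L'‖ₑ ≤ 2 * ‖pzb (u' (g x)) - μ (g x) • pz (u' (g x))‖ₑ := by
      rw [← ofReal_norm, ← ofReal_norm]
      have h2 : (2:ℝ≥0∞) = ENNReal.ofReal 2 := by norm_num
      rw [h2, ← ENNReal.ofReal_mul (by norm_num)]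
      exact ENNReal.ofReal_le_ofReal hle
    calc ‖pzb L'‖ₑ ≤ 2 * ‖pzb (u' (g x)) - μ (g x) • pz (u' (g x))‖ₑ := hle'
      _ ≤ 2 * (G (g x) * ‖u (g x)‖ₑ) := by gcongr
      _ = _ := by ring
  rcases spm_local hr'0 hε (K := 8 * K * 2 ^ (1 + ε)) (A := A) (by positivity) hGg hMg hcont
    (fun z hz => hb _ (hmap2 z hz)) hqm hqq hvd with hz | ⟨m, a, ha, K', s, r2, hK', hs, hr2, hlim⟩
  · left
    obtain ⟨r2, hr2, hz⟩ := hz
    refine ⟨4/5 * r2, by positivity, fun z hz2 => ?_⟩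
    have h1 := hz (w z) ⟨?_, hwne z hz2.2⟩
    · rwa [hN.gw] at h1
    · have h2 := hz2.1
      rw [mem_ball_zero_iff] at h2 ⊢
      have := hwle z
      linarith
  · right
    -- the linear part at the origin
    set c : ℂ := pz (fderiv ℝ w 0) with hc
    have hc0 : c ≠ 0 := by
      have := (near_id (hN.near 0)).1
      intro h0
      rw [← hc, h0, norm_zero] at this
      norm_num at this
    have hlin : ∀ v : ℂ, fderiv ℝ w 0 v = c * v := by
      intro v
      have h1 := hweq 0 (by simpa using hr)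
      rw [hμ0, zero_mul] at h1
      rw [pz_pzb (fderiv ℝ w 0) v, h1, smul_zero, add_zero, smul_eq_mul, mul_comm]
    have hrat : Tendsto (fun z => w z / z) (𝓝[≠] 0) (𝓝 c) := by
      have h1 := (hN.hasw 0).isLittleO
      rw [tendsto_iff_norm_sub_tendsto_zero]
      have h2 : Tendsto (fun z => ‖w z - w 0 - fderiv ℝ w 0 (z - 0)‖ / ‖z - 0‖) (𝓝 0) (𝓝 0) := by
        exact h1.norm_norm.tendsto_div_nhds_zero
      refine (h2.mono_left nhdsWithin_le_nhds).congr' ?_
      filter_upwards [self_mem_nhdsWithin] with z hz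
      have hz' : z ≠ 0 := hz
      rw [hw0, sub_zero, sub_zero, hlin, ← norm_div]
      congr 1
      field_simp
    have hw00 : Tendsto w (𝓝[≠] 0) (𝓝[≠] 0) := by
      refine tendsto_nhdsWithin_iff.2 ⟨?_, ?_⟩
      · have := hwc.continuous.tendsto 0
        rw [hw0] at this
        exact this.mono_left nhdsWithin_le_nhds
      · filter_upwards [self_mem_nhdsWithin] with z hz
        exact hwne z hz
    have hv0 : Tendsto (fun x => (x ^ m)⁻¹ • u (g x)) (𝓝[≠] 0) (𝓝 a) := by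
      rw [tendsto_iff_norm_sub_tendsto_zero]
      have h1 : Tendsto (fun x : ℂ => K' * ‖x‖ ^ s) (𝓝[≠] 0) (𝓝 0) := by
        have h2 : Tendsto (fun x : ℂ => ‖x‖) (𝓝 0) (𝓝 0) := by
          have := continuous_norm.tendsto (0:ℂ)
          rwa [norm_zero] at this
        have h3 := (h2.rpow_const (p := s) (Or.inr hs.le)).const_mul K'
        rw [Real.zero_rpow hs.ne', mul_zero] at h3
        exact h3.mono_left nhdsWithin_le_nhds
      refine squeeze_zero' (Eventually.of_forall fun _ => norm_nonneg _) ?_ h1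
      filter_upwards [self_mem_nhdsWithin, mem_nhdsWithin_of_mem_nhds (ball_mem_nhds (0:ℂ) hr2)]
        with x hx hx2
      have := hlim x ⟨hx2, hx⟩
      rwa [sub_zero] at this
    refine ⟨m, c ^ m • a, smul_ne_zero (pow_ne_zero _ hc0) ha, ?_⟩
    have h1 := (hrat.pow m).smul (hv0.comp hw00)
    refine h1.congr' ?_
    filter_upwards [self_mem_nhdsWithin] with z hz
    have hz' : z ≠ 0 := hz
    have hwz := hwne z hz'
    simp only [Function.comp]
    rw [hN.gw, smul_smul, div_pow]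
    congr 1
    field_simp

end Vale.Agent.P247.H324
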