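import Vale.Agent.P247.H324.MG.Hl

/-! Clusters of sheets over the punctured disc, after the pull back `t ↦ t ^ q`. -/

open MeasureTheory Set Metric Filter Topology
open scoped ContDiff ENNReal NNReal

set_option linter.unusedSectionVars false
set_option linter.unusedVariables false

noncomputable section

namespace Vale.Agent.P247.H324

open Vale.Agent.P272.CT

/-- pulled back derivative -/
def Dq {N : ℕ} (D : ℂ → Fin N → ℂ →L[ℝ] ℂ) (q : ℕ) (t : ℂ) (i : Fin N) : ℂ →L[ℝ] ℂ :=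
  (D (t ^ q) i).comp (mulL (pwd q t))

/-- a cluster of `k` sheets -/
structure Clu {N : ℕ} (R : ℝ) (Y : ℂ → Fin N → ℂ) (y0 : ℂ) (η : ℝ) (q k : ℕ) (r c γ : ℝ)
    (I : ℂ → Finset (Fin N)) : Prop where
  qpos : 1 ≤ q
  kpos : 1 ≤ k
  rpos : 0 < r
  rle : r ≤ 1
  rq : r ^ q ≤ R
  cpos : 0 ≤ c
  γpos : 0 < γ
  γle : γ ≤ 1
  card : ∀ t ∈ pb r, (I t).card = k
  near : ∀ t ∈ pb r, ∀ i ∈ I t, ‖Y (t ^ q) i - y0‖ ≤ c * ‖t‖ ^ γ
  inη : ∀ t ∈ pb r, ∀ i ∈ I t, ‖Y (t ^ q) i - y0‖ < η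
  sep : ∀ t0 ∈ pb r, ∃ χ : ℂ → ℝ, ContDiff ℝ ∞ χ ∧ ∀ᶠ t in 𝓝 t0, ∀ i,
    (i ∈ I t → χ =ᶠ[𝓝 (Y (t ^ q) i)] fun _ => 1) ∧ (i ∉ I t → χ =ᶠ[𝓝 (Y (t ^ q) i)] fun _ => 0)

theorem WG.post {E F : Type*} [NormedAddCommGroup E] [NormedSpace ℝ E] [NormedAddCommGroup F]
    [NormedSpace ℝ F] [CompleteSpace E] {U : Set ℂ} {f : ℂ → E} {f' : ℂ → ℂ →L[ℝ] E}
    (hU : IsOpen U) (h : WG U f f') (hf : ContinuousOn f U) {Φ : E → F} (hΦ : ContDiff ℝ 1 Φ) :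
    WG U (fun z => Φ (f z)) (fun z => (fderiv ℝ Φ (f z)).comp (f' z)) := by
  have h1 := h.chain hU hf (Φ := fun p : ℂ × E => Φ p.2) (W := univ) isOpen_univ
    (hΦ.comp contDiff_snd).contDiffOn (fun _ _ => trivial)
  refine h1.congr hU.measurableSet (fun _ _ => rfl) fun z _ => ?_
  have h2 : HasFDerivAt (fun p : ℂ × E => Φ p.2)
      ((fderiv ℝ Φ (f z)).comp (ContinuousLinearMap.snd ℝ ℂ E)) (z, f z) :=
    HasFDerivAt.comp (z, f z) ((hΦ.differentiable (by simp)) (f z)).hasFDerivAt hasFDerivAt_snd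
  simp only
  rw [h2.fderiv]
  ext v
  simp

section

variable {N : ℕ} {R K ε L : ℝ} {m A : ℂ × ℂ → ℂ} {g : ℂ → ℝ≥0∞} {Y : ℂ → Fin N → ℂ}
  {D : ℂ → Fin N → ℂ →L[ℝ] ℂ} {y0 : ℂ} {η : ℝ} {q k : ℕ} {r c γ : ℝ} {I : ℂ → Finset (Fin N)}

theorem pw_mem (hC : Clu R Y y0 η q k r c γ I) {t : ℂ} (ht : ‖t‖ < r) : t ^ q ∈ ball (0:ℂ) R := by
  rw [mem_ball_zero_iff, norm_pow]
  have hq := hC.qpos
  exact (pow_lt_pow_left₀ ht (norm_nonneg _) (by omega)).trans_le hC.rq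

theorem sum_window {G : Type*} [AddCommMonoid G] {J : Finset (Fin N)} {f g : Fin N → G}
    (h1 : ∀ i ∈ J, f i = g i) (h2 : ∀ i, i ∉ J → f i = 0) : ∑ i, f i = ∑ i ∈ J, g i := by
  rw [← Finset.sum_subset (Finset.subset_univ J) (fun i _ hi => h2 i hi)]
  exact Finset.sum_congr rfl h1

theorem enorm_Dq_le (hB : Bas R K ε L m A g Y D) (hC : Clu R Y y0 η q k r c γ I) {t : ℂ}
    (ht : ‖t‖ < r) (i : Fin N) : ‖Dq D q t i‖ₑ ≤ gq g q t := by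
  unfold Dq gq
  have h1 := hB.gD (t ^ q) (pw_mem hC ht) i
  calc ‖(D (t ^ q) i).comp (mulL (pwd q t))‖ₑ ≤ ‖D (t ^ q) i‖ₑ * ‖pwd q t‖ₑ := by
        rw [← ofReal_norm, ← ofReal_norm, ← ofReal_norm, ← ENNReal.ofReal_mul (norm_nonneg _)]
        refine ENNReal.ofReal_le_ofReal ((ContinuousLinearMap.opNorm_comp_le _ _).trans ?_)
        gcongr
        exact norm_mulL_le _
    _ ≤ _ := by gcongr

/-- continuity of cluster sums -/
theorem Clu.cont (hB : Bas R K ε L m A g Y D) (hC : Clu R Y y0 η q k r c γ I) {F : ℂ → ℂ}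
    (hF : Continuous F) : ContinuousOn (fun t => ∑ i ∈ I t, F (Y (t ^ q) i)) (pb r) := by
  intro t0 ht0
  obtain ⟨χ, hχ, hev⟩ := hC.sep t0 ht0
  have h1 := hB.cont (fun y => (χ y : ℂ) * F y)
    ((Complex.continuous_ofReal.comp hχ.continuous).mul hF)
  have h2 : ContinuousAt (fun t : ℂ => ∑ i, (χ (Y (t ^ q) i) : ℂ) * F (Y (t ^ q) i)) t0 := by
    have h3 := (h1.continuousAt (isOpen_ball.mem_nhds (pw_mem hC (mem_pb.1 ht0).1)))
    exact ContinuousAt.comp (f := fun t : ℂ => t ^ q) (x := t0) h3 (continuous_pow q).continuousAt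
  refine (h2.congr ?_).continuousWithinAt
  filter_upwards [hev] with t ht
  refine sum_window (fun i hi => ?_) (fun i hi => ?_)
  · rw [((ht i).1 hi).eq_of_nhds]; simp
  · rw [((ht i).2 hi).eq_of_nhds]; simp

/-- weak derivative of cluster sums -/
theorem Clu.wg (hB : Bas R K ε L m A g Y D) (hC : Clu R Y y0 η q k r c γ I) {F : ℂ → ℂ}
    (hF : ContDiff ℝ ∞ F) : WG (pb r) (fun t => ∑ i ∈ I t, F (Y (t ^ q) i))
      (fun t => ∑ i ∈ I t, (fderiv ℝ F (Y (t ^ q) i)).comp (Dq D q t i)) := by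
  refine WG.of_local (isOpen_pb r) fun t0 ht0 => ?_
  obtain ⟨χ, hχ, hev⟩ := hC.sep t0 ht0
  obtain ⟨V, hV, hVo, ht0V⟩ := _root_.eventually_nhds_iff.1 (hev.and ((isOpen_pb r).mem_nhds ht0))
  have hF1 : ContDiff ℝ ∞ (fun y => (χ y : ℂ) * F y) :=
    (Complex.ofRealCLM.contDiff.comp hχ).mul hF
  have h1 := (hB.chain _ hF1).comp_right isOpen_ball hVo (g := pw q)
    ((pw_contDiff q).of_le (by simp)).contDiffOn
    (fun t ht => pw_det hC.qpos (mem_pb.1 (hV t ht).2).2)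
    (fun t ht => pw_mem hC (mem_pb.1 (hV t ht).2).1)
  refine ⟨V, hVo, ht0V, h1.congr hVo.measurableSet (fun t ht => ?_) (fun t ht => ?_)⟩
  · have h2 := (hV t ht).1
    simp only [pw]
    refine sum_window (fun i hi => ?_) (fun i hi => ?_)
    · rw [((h2 i).1 hi).eq_of_nhds]; simp
    · rw [((h2 i).2 hi).eq_of_nhds]; simp
  · have h2 := (hV t ht).1
    simp only [pw]
    have e1 : ∀ i ∈ I t, fderiv ℝ (fun y => (χ y : ℂ) * F y) (Y (t ^ q) i) =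
        fderiv ℝ F (Y (t ^ q) i) := by
      intro i hi
      refine Filter.EventuallyEq.fderiv_eq ?_
      filter_upwards [(h2 i).1 hi] with y hy
      rw [hy]; simp
    have e2 : ∀ i, i ∉ I t → fderiv ℝ (fun y => (χ y : ℂ) * F y) (Y (t ^ q) i) = 0 := by
      intro i hi
      have : (fun y => (χ y : ℂ) * F y) =ᶠ[𝓝 (Y (t ^ q) i)] fun _ => 0 := by
        filter_upwards [(h2 i).2 hi] with y hy
        rw [hy]; simp
      rw [this.fderiv_eq]; simp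
    rw [sum_window (J := I t) (g := fun i => (fderiv ℝ F (Y (t ^ q) i)).comp (D (t ^ q) i))
      (fun i hi => by rw [e1 i hi]) (fun i hi => by rw [e2 i hi]; ext v; simp)]
    have e4 : fderiv ℝ (pw q) t = mulL (pwd q t) := fderiv_pw q t
    ext v
    simp only [ContinuousLinearMap.comp_apply, sum_apply, Dq]
    rw [e4]

/-- mean of the cluster -/
def am (Y : ℂ → Fin N → ℂ) (q k : ℕ) (I : ℂ → Finset (Fin N)) (t : ℂ) : ℂ :=
  (k:ℂ)⁻¹ * ∑ i ∈ I t, Y (t ^ q) i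

theorem norm_sum_le_card {J : Finset (Fin N)} {f : Fin N → ℂ} {b : ℝ} (h : ∀ i ∈ J, ‖f i‖ ≤ b) :
    ‖∑ i ∈ J, f i‖ ≤ J.card * b := by
  have := norm_sum_le_of_le J h
  rwa [Finset.sum_const, nsmul_eq_mul] at this

theorem mean_sub {J : Finset (Fin N)} (hJ : J.card = k) (hk : 1 ≤ k) (f : Fin N → ℂ) (b : ℂ) :
    (k:ℂ)⁻¹ * ∑ i ∈ J, f i - b = (k:ℂ)⁻¹ * ∑ i ∈ J, (f i - b) := by
  have hk0 : (k:ℂ) ≠ 0 := by exact_mod_cast (by omega : k ≠ 0)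
  rw [Finset.sum_sub_distrib, Finset.sum_const, hJ, nsmul_eq_mul, mul_sub, inv_mul_cancel_left₀ hk0]

theorem norm_mean_le {J : Finset (Fin N)} (hJ : J.card = k) (hk : 1 ≤ k) {f : Fin N → ℂ} {b : ℝ}
    (h : ∀ i ∈ J, ‖f i‖ ≤ b) : ‖(k:ℂ)⁻¹ * ∑ i ∈ J, f i‖ ≤ b := by
  have hk0 : (0:ℝ) < k := by exact_mod_cast (by omega : 0 < k)
  rw [norm_mul, norm_inv, Complex.norm_natCast, inv_mul_le_iff₀ hk0]
  have := norm_sum_le_card h
  rwa [hJ] at this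

theorem am_near (hC : Clu R Y y0 η q k r c γ I) {t : ℂ} (ht : t ∈ pb r) :
    ‖am Y q k I t - y0‖ ≤ c * ‖t‖ ^ γ := by
  unfold am
  rw [mean_sub (hC.card t ht) hC.kpos]
  exact norm_mean_le (hC.card t ht) hC.kpos fun i hi => hC.near t ht i hi

theorem am_inη (hC : Clu R Y y0 η q k r c γ I) {t : ℂ} (ht : t ∈ pb r) :
    ‖am Y q k I t - y0‖ < η := by
  unfold am
  rw [mean_sub (hC.card t ht) hC.kpos]
  have hne : (I t).Nonempty := by
    rw [← Finset.card_pos, hC.card t ht]; exact hC.kpos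
  obtain ⟨i0, hi0, hmax⟩ := Finset.exists_max_image (I t) (fun i => ‖Y (t ^ q) i - y0‖) hne
  exact (norm_mean_le (hC.card t ht) hC.kpos fun i hi => hmax i hi).trans_lt (hC.inη t ht i0 hi0)

theorem Clu.bdd (hC : Clu R Y y0 η q k r c γ I) {t : ℂ} (ht : t ∈ pb r) {i : Fin N} (hi : i ∈ I t) :
    ‖Y (t ^ q) i‖ ≤ ‖y0‖ + c := by
  have h1 := hC.near t ht i hi
  have h2 : c * ‖t‖ ^ γ ≤ c := by
    have h3 := (mem_pb.1 ht).1.le.trans hC.rle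
    have := Real.rpow_le_one (norm_nonneg t) h3 hC.γpos.le
    exact mul_le_of_le_one_right hC.cpos this
  have h4 := norm_add_le (Y (t ^ q) i - y0) y0
  rw [sub_add_cancel] at h4
  linarith

/-- Hölder continuity of the mean -/
theorem am_holder (hB : Bas R K ε L m A g Y D) (hC : Clu R Y y0 η q k r c γ I) :
    ∃ C, 0 ≤ C ∧ ∀ z ∈ pb (r / 2), ∀ z' ∈ pb (r / 2),
      ‖am Y q k I z - am Y q k I z'‖ ≤ C * ‖z - z'‖ ^ (e1 ε / 2) := by
  have hε1 := e1_pos hB.εpos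
  have he : e1 ε ≤ 1/2 := min_le_right _ _
  obtain ⟨K', hK', hM⟩ := gq_mor hB hC.qpos hC.rpos hC.rle hC.rq
  have hw := hC.wg hB (F := fun y => y) contDiff_id
  have hc := hC.cont hB (F := fun y => y) continuous_id
  have hw2 := hw.clm (mulL ((k:ℂ)⁻¹))
  have hk0 : (0:ℝ) < k := by exact_mod_cast hC.kpos
  have hbb : ∀ z ∈ pb r, ‖mulL ((k:ℂ)⁻¹) (∑ i ∈ I z, Y (z ^ q) i)‖ ≤ ‖y0‖ + c := fun t ht =>
    norm_mean_le (hC.card t ht) hC.kpos fun i hi => hC.bdd ht hi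
  suffices hdd : ∀ᵐ t ∂(volume.restrict (ball (0:ℂ) r)), ‖(mulL ((k:ℂ)⁻¹)).comp (∑ i ∈ I t,
      (fderiv ℝ (fun y : ℂ => y) (Y (t ^ q) i)).comp (Dq D q t i))‖ₑ ≤ 1 + gq g q t by
    obtain ⟨C, v0, hC0, h1, -⟩ := wg_holder (h := e1 ε / 2) (B := ‖y0‖ + c) hC.rpos hε1 hK'
      (by positivity) (by linarith) (by linarith)
      ((gq_meas hB hC.qpos hC.rpos hC.rq).const_add 1) hM
      ((mulL ((k:ℂ)⁻¹)).continuous.comp_continuousOn hc) hbb hw2 hdd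
    exact ⟨C, hC0, h1⟩
  · rw [← restrict_pb]
    filter_upwards [ae_restrict_mem (isOpen_pb r).measurableSet] with t ht
    have h2 : ∀ i ∈ I t, ‖(fderiv ℝ (fun y : ℂ => y) (Y (t ^ q) i)).comp (Dq D q t i)‖ₑ ≤ gq g q t := by
      intro i hi
      have : fderiv ℝ (fun y : ℂ => y) (Y (t ^ q) i) = ContinuousLinearMap.id ℝ ℂ := fderiv_fun_id
      rw [this, ContinuousLinearMap.id_comp]
      exact enorm_Dq_le hB hC (mem_pb.1 ht).1 i
    calc ‖(mulL ((k:ℂ)⁻¹)).comp (∑ i ∈ I t,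
          (fderiv ℝ (fun y : ℂ => y) (Y (t ^ q) i)).comp (Dq D q t i))‖ₑ
        ≤ ‖(k:ℂ)⁻¹‖ₑ * ‖∑ i ∈ I t, (fderiv ℝ (fun y : ℂ => y) (Y (t ^ q) i)).comp (Dq D q t i)‖ₑ := by
          rw [← ofReal_norm, ← ofReal_norm, ← ofReal_norm, ← ENNReal.ofReal_mul (norm_nonneg _)]
          refine ENNReal.ofReal_le_ofReal ((ContinuousLinearMap.opNorm_comp_le _ _).trans ?_)
          gcongr
          exact norm_mulL_le _
      _ ≤ ‖(k:ℂ)⁻¹‖ₑ * ∑ i ∈ I t, ‖(fderiv ℝ (fun y : ℂ => y) (Y (t ^ q) i)).comp (Dq D q t i)‖ₑ := by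
          gcongr
          exact enorm_sum_le _ _
      _ ≤ ‖(k:ℂ)⁻¹‖ₑ * ∑ i ∈ I t, gq g q t := by
          gcongr with i hi
          exact h2 i hi
      _ = gq g q t := by
          rw [Finset.sum_const, hC.card t ht, nsmul_eq_mul, ← mul_assoc]
          have : ‖(k:ℂ)⁻¹‖ₑ * (k:ℝ≥0∞) = 1 := by
            rw [← ofReal_norm, norm_inv, Complex.norm_natCast, ← ENNReal.ofReal_natCast,
              ← ENNReal.ofReal_mul (by positivity), inv_mul_cancel₀ hk0.ne', ENNReal.ofReal_one]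
          rw [this, one_mul]
      _ ≤ 1 + gq g q t := le_add_self

end

end Vale.Agent.P247.H324
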