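import Vale.Agent.P247.H324.MG.Belt2
import Vale.Agent.P247.H574.Sta2

/-!
# Package PUI: from multigraphs to the Puiseux structure — interface of the sub-packages

`Bas` : continuous representative of a multigraph over a disc, with Morrey bound.
`PA_statement` : MG + energy decay ⇒ `Bas`.
`PUIS_statement` : the sheets near a point over `z = 0`, pulled back by `t ↦ t ^ q`, are globally
defined continuous functions, pairwise equal or disjoint (helper324).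
`ORB_statement` : from these functions to branches `(s ^ k, W s)` (topology only).
`GRD_statement` : interior gradient estimate for one sheet.
-/

open MeasureTheory Set Metric Filter Topology
open scoped ContDiff ENNReal

noncomputable section

namespace Vale.Agent.P247.H324

open Vale.Agent.P272.CT

/-- punctured ball -/
def pb (r : ℝ) : Set ℂ := ball 0 r \ {0}

/-- the derivative `P dz + Q dz̄` -/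
def dPQ (P Q : ℂ) : ℂ →L[ℝ] ℂ :=
  P • (ContinuousLinearMap.id ℝ ℂ) + Q • (Complex.conjCLE : ℂ →L[ℝ] ℂ)

/-- continuous multisection over `ball 0 R` with `L²`-Morrey bound for the derivative -/
structure Bas {N : ℕ} (R K ε L : ℝ) (m A : ℂ × ℂ → ℂ) (g : ℂ → ℝ≥0∞) (Y : ℂ → Fin N → ℂ)
    (D : ℂ → Fin N → ℂ →L[ℝ] ℂ) : Prop where
  Rpos : 0 < R
  Rle : R ≤ 1
  Kpos : 0 ≤ K
  εpos : 0 < ε
  Lpos : 0 ≤ L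
  chain : ∀ F : ℂ → ℂ, ContDiff ℝ ∞ F → WG (ball 0 R) (fun z => ∑ i, F (Y z i))
    (fun z => ∑ i, (fderiv ℝ F (Y z i)).comp (D z i))
  cont : ∀ F : ℂ → ℂ, Continuous F → ContinuousOn (fun z => ∑ i, F (Y z i)) (ball 0 R)
  gm : AEMeasurable g (volume.restrict (ball 0 R))
  gD : ∀ z ∈ ball (0:ℂ) R, ∀ i, ‖D z i‖ₑ ≤ g z
  mor : ∀ x ρ, 0 < ρ → ∫⁻ z in ball x ρ ∩ ball 0 R, g z ^ 2 ≤ ENNReal.ofReal (K * ρ ^ (2 * ε))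
  bdd : ∀ z i, ‖Y z i‖ ≤ L
  eqn : ∀ z ∈ ball (0:ℂ) R, ∀ i, pzb (D z i) = m (z, Y z i) * pz (D z i) + A (z, Y z i)
  same : ∀ z ∈ ball (0:ℂ) R, ∀ i j, Y z i = Y z j → D z i = D z j

/-- energy decay (helper832) -/
def EDEC_statement : Prop := ∀ (N : ℕ) (m A : ℂ × ℂ → ℂ) (ρ : ℝ) (Y P : ℂ → Fin N → ℂ)
  (R : Measure (ℂ × ℂ)),
  ContDiffOn ℝ ∞ m (H574.PD 2) → ContDiffOn ℝ ∞ A (H574.PD 2) → (∀ p ∈ H574.PD 2, ‖m p‖ < 1) →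
  ρ < 1 → H574.MG2 N m A ρ Y P R →
  ∃ C γ r : ℝ, 0 < γ ∧ 0 < r ∧ r ≤ 1 ∧ ∀ x t, 0 < t →
    ∫⁻ z in ball x t ∩ ball 0 r, ∑ i, ‖P z i‖ₑ ^ 2 ≤ ENNReal.ofReal (C * t ^ (2 * γ))

/-- from the multigraph to a continuous representative -/
def PA_statement : Prop := ∀ (N : ℕ) (m A : ℂ × ℂ → ℂ) (ρ : ℝ) (Y P : ℂ → Fin N → ℂ),
  ContDiffOn ℝ ∞ m (H574.PD 2) → ContDiffOn ℝ ∞ A (H574.PD 2) → (∀ p ∈ H574.PD 2, ‖m p‖ < 1) →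
  ρ < 1 → H574.MG N m A ρ Y P →
  (∃ C γ r : ℝ, 0 < γ ∧ 0 < r ∧ r ≤ 1 ∧ ∀ x t, 0 < t →
    ∫⁻ z in ball x t ∩ ball 0 r, ∑ i, ‖P z i‖ₑ ^ 2 ≤ ENNReal.ofReal (C * t ^ (2 * γ))) →
  ∃ (R K ε L : ℝ) (g : ℂ → ℝ≥0∞) (Y' : ℂ → Fin N → ℂ) (D : ℂ → Fin N → ℂ →L[ℝ] ℂ),
    R ≤ 1 ∧ L < 1 ∧ Bas R K ε L m A g Y' D ∧ ∀ᵐ z ∂volume.restrict (ball (0:ℂ) R), Y' z = Y z

/-- pulled back sheets -/
def PUIS_statement : Prop := ∀ (N : ℕ) (R K ε L : ℝ) (m A : ℂ × ℂ → ℂ) (g : ℂ → ℝ≥0∞)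
  (Y : ℂ → Fin N → ℂ) (D : ℂ → Fin N → ℂ →L[ℝ] ℂ) (y0 : ℂ) (η : ℝ),
  Bas R K ε L m A g Y D → 0 < η →
  (∀ z ∈ ball (0:ℂ) R, ∀ z' ∈ ball (0:ℂ) R, ∀ y ∈ ball y0 η, ∀ y' ∈ ball y0 η,
    ‖m (z, y) - m (z', y')‖ ≤ L * (‖z - z'‖ + ‖y - y'‖) ∧
    ‖A (z, y) - A (z', y')‖ ≤ L * (‖z - z'‖ + ‖y - y'‖)) →
  m (0, y0) = 0 →
  (∀ z ∈ ball (0:ℂ) R, ∀ i, ‖Y z i - y0‖ < η ∨ 2 * η < ‖Y z i - y0‖) →
  (∀ i, ‖Y 0 i - y0‖ < η → Y 0 i = y0) →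
  ∃ (q : ℕ) (r : ℝ) (S : Multiset (ℂ → ℂ)), 1 ≤ q ∧ 0 < r ∧ r ^ q ≤ R ∧
    (∀ f ∈ S, ContinuousOn f (pb r)) ∧
    (∀ f ∈ S, ∀ h ∈ S, (∀ t ∈ pb r, f t = h t) ∨ ∀ t ∈ pb r, f t ≠ h t) ∧
    ∀ t ∈ pb r, S.map (fun f => f t) =
      ((Finset.univ.filter fun i => ‖Y (t ^ q) i - y0‖ < η).val.map fun i => Y (t ^ q) i)

/-- from the pulled back sheets to the branches (topology of the punctured disc) -/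
def ORB_statement : Prop := ∀ (m0 : ℂ), ‖m0‖ < 1 → ∀ (V : ℂ → Multiset ℂ) (q : ℕ) (r : ℝ)
  (S : Multiset (ℂ → ℂ)), 1 ≤ q → 0 < r → (∀ f ∈ S, ContinuousOn f (pb r)) →
  (∀ f ∈ S, ∀ h ∈ S, (∀ t ∈ pb r, f t = h t) ∨ ∀ t ∈ pb r, f t ≠ h t) →
  (∀ t ∈ pb r, ∀ z, z + m0 * (starRingEnd ℂ) z = t ^ q → S.map (fun f => f t) = V z) →
  ∃ δ > 0, ∃ (n : ℕ) (k μ : Fin n → ℕ) (W : Fin n → ℂ → ℂ),
    (∀ l, 1 ≤ k l ∧ 1 ≤ μ l) ∧ S.card = ∑ l, k l * μ l ∧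
    (∀ l, ContinuousOn (W l) {s | s ≠ 0 ∧ ‖s‖ ^ k l < δ}) ∧
    (∀ l l' s s', s ≠ 0 → ‖s‖ ^ k l < δ → s ^ k l = s' ^ k l' → W l s = W l' s' →
      l = l' ∧ s = s') ∧
    ∀ z, z ≠ 0 → ‖z‖ < δ → ∀ s : Fin n → ℂ, (∀ l, s l ^ k l = z) →
      V z = ∑ l, μ l • ∑ j ∈ Finset.range (k l),
        {W l (Complex.exp (2 * Real.pi * Complex.I * j / k l) * s l)}

/-- interior gradient estimate for one sheet, constants depend only on `κ L C α`. -/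
def GRD_statement : Prop := ∀ (κ L C α : ℝ), 0 ≤ κ → κ < 1 → 0 ≤ L → 0 ≤ C → 0 < α → α < 1 →
  ∃ C' > 0, ∀ (m A : ℂ × ℂ → ℂ) (z0 : ℂ) (ρ : ℝ) (w : ℂ → ℂ), 0 < ρ → ρ ≤ 1 →
    (∀ z ∈ ball z0 ρ, ‖m (z, w z)‖ ≤ κ ∧ ‖A (z, w z)‖ ≤ L) →
    (∀ z ∈ ball z0 ρ, ∀ z' ∈ ball z0 ρ, ‖m (z, w z) - m (z', w z')‖ ≤ L * (‖z - z'‖ + ‖w z - w z'‖) ∧
      ‖A (z, w z) - A (z', w z')‖ ≤ L * (‖z - z'‖ + ‖w z - w z'‖)) →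
    ContDiffOn ℝ 1 w (ball z0 ρ) →
    (∀ z ∈ ball z0 ρ, ∀ z' ∈ ball z0 ρ, ‖w z - w z'‖ ≤ C * ‖z - z'‖ ^ α) →
    (∀ z ∈ ball z0 ρ, pzb (fderiv ℝ w z) = m (z, w z) * pz (fderiv ℝ w z) + A (z, w z)) →
    ‖fderiv ℝ w z0‖ ≤ C' * ρ ^ (α - 1)

end Vale.Agent.P247.H324
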