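import Vale.Agent.P247.H324.MG.Vec

/-! Dichotomy for a cluster: total coincidence near `0`, or finite order separation. -/

open MeasureTheory Set Metric Filter Topology
open scoped ContDiff ENNReal NNReal Nat

set_option linter.unusedSectionVars false
set_option linter.unusedVariables false

noncomputable section

namespace Vale.Agent.P247.H324

open Vale.Agent.P272.CT

/-- Lipschitz coefficients -/
def LipH (R η L : ℝ) (m A : ℂ × ℂ → ℂ) (y0 : ℂ) : Prop :=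
  ∀ z ∈ ball (0:ℂ) R, ∀ z' ∈ ball (0:ℂ) R, ∀ y ∈ ball y0 η, ∀ y' ∈ ball y0 η,
    ‖m (z, y) - m (z', y')‖ ≤ L * (‖z - z'‖ + ‖y - y'‖) ∧
    ‖A (z, y) - A (z', y')‖ ≤ L * (‖z - z'‖ + ‖y - y'‖)

/-- unimodular factor -/
def un (q : ℕ) (t : ℂ) : ℂ := (starRingEnd ℂ) (pwd q t) / pwd q t

theorem un_eq {q : ℕ} (hq : 1 ≤ q) (t : ℂ) : un q t = ((starRingEnd ℂ) t / t) ^ (q - 1) := by
  unfold un pwd
  have h : (q:ℂ) ≠ 0 := by exact_mod_cast (by omega : q ≠ 0)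
  rw [map_mul, map_pow, Complex.conj_natCast, mul_div_mul_left _ _ h, div_pow]

theorem norm_un_le {q : ℕ} (hq : 1 ≤ q) {t : ℂ} (ht : t ≠ 0) : ‖un q t‖ = 1 := by
  rw [un_eq hq, norm_pow, norm_div, RCLike.norm_conj, div_self (norm_ne_zero_iff.2 ht), one_pow]

theorem un_sub {q : ℕ} (hq : 1 ≤ q) {x y : ℂ} (hx : x ≠ 0) (hy : y ≠ 0) {α : ℝ} (hα : 0 < α)
    (hα1 : α ≤ 1) : ‖un q x - un q y‖ ≤ 2 * q * (‖x - y‖ / ‖y‖) ^ α := by
  have hx' := norm_pos_iff.2 hx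
  have hy' := norm_pos_iff.2 hy
  have hq' : (1:ℝ) ≤ q := by exact_mod_cast hq
  set ρ := ‖x - y‖ / ‖y‖ with hρ
  have hρ0 : 0 ≤ ρ := by positivity
  by_cases h1 : ρ ≤ 1
  · have h2 : ρ ≤ ρ ^ α := by
      rcases eq_or_ne ρ 0 with h0 | h0
      · rw [h0]; exact Real.rpow_nonneg le_rfl _
      · calc ρ = ρ ^ (1:ℝ) := (Real.rpow_one _).symm
          _ ≤ ρ ^ α := Real.rpow_le_rpow_of_exponent_ge (lt_of_le_of_ne hρ0 (Ne.symm h0)) h1 hα1
    have h3 : ‖(starRingEnd ℂ) x / x - (starRingEnd ℂ) y / y‖ ≤ 2 * ρ := by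
      have e : (starRingEnd ℂ) x / x - (starRingEnd ℂ) y / y =
          ((starRingEnd ℂ) x * (y - x) + x * (starRingEnd ℂ) (x - y)) / (x * y) := by
        rw [map_sub]; field_simp; ring
      rw [e, norm_div, norm_mul, div_le_iff₀ (by positivity)]
      refine (norm_add_le _ _).trans ?_
      rw [norm_mul, norm_mul, RCLike.norm_conj, RCLike.norm_conj, norm_sub_rev y x]
      have e2 : 2 * ρ * (‖x‖ * ‖y‖) = 2 * ‖x‖ * ‖x - y‖ := by rw [hρ]; field_simp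
      rw [e2]; linarith
    have h4 : ‖un q x - un q y‖ ≤ (q - 1 : ℕ) * ‖(starRingEnd ℂ) x / x - (starRingEnd ℂ) y / y‖ := by
      rw [un_eq hq, un_eq hq]
      refine pow_sub_le ?_ ?_
      · rw [norm_div, RCLike.norm_conj, div_self hx'.ne']
      · rw [norm_div, RCLike.norm_conj, div_self hy'.ne']
    have h5 : ((q - 1 : ℕ):ℝ) ≤ q := by exact_mod_cast Nat.sub_le q 1
    calc ‖un q x - un q y‖ ≤ (q - 1 : ℕ) * (2 * ρ) := h4.trans (by gcongr)
      _ ≤ q * (2 * ρ ^ α) := by gcongr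
      _ = _ := by ring
  · push Not at h1
    have h2 : 1 ≤ ρ ^ α := Real.one_le_rpow h1.le hα.le
    calc ‖un q x - un q y‖ ≤ ‖un q x‖ + ‖un q y‖ := norm_sub_le _ _
      _ = 2 * 1 * 1 := by rw [norm_un_le hq hx, norm_un_le hq hy]; norm_num
      _ ≤ 2 * q * ρ ^ α := by gcongr

section

variable {N : ℕ} {R K ε L : ℝ} {m A : ℂ × ℂ → ℂ} {g : ℂ → ℝ≥0∞} {Y : ℂ → Fin N → ℂ}
  {D : ℂ → Fin N → ℂ →L[ℝ] ℂ} {y0 : ℂ} {η : ℝ} {q k : ℕ} {r c γ : ℝ} {I : ℂ → Finset (Fin N)}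

/-- the Beltrami coefficient -/
def mu (m : ℂ × ℂ → ℂ) (Y : ℂ → Fin N → ℂ) (q k : ℕ) (I : ℂ → Finset (Fin N)) (t : ℂ) : ℂ :=
  if t = 0 then 0 else un q t * m (t ^ q, am Y q k I t)

theorem m_am_le (hB : Bas R K ε L m A g Y D) (hC : Clu R Y y0 η q k r c γ I)
    (hL : LipH R η L m A y0) (hη : 0 < η) (hm : m (0, y0) = 0) {t : ℂ} (ht : t ∈ pb r) {α : ℝ}
    (hα : 0 < α) (hαγ : α ≤ γ) : ‖m (t ^ q, am Y q k I t)‖ ≤ L * (1 + c) * ‖t‖ ^ α := by
  have ht' := mem_pb.1 ht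
  have htp : 0 < ‖t‖ := norm_pos_iff.2 ht'.2
  have ht1 : ‖t‖ ≤ 1 := ht'.1.le.trans hC.rle
  have h1 := (hL (t ^ q) (pw_mem hC ht'.1) 0 (by simpa using hB.Rpos) (am Y q k I t)
    (by rw [mem_ball, dist_eq_norm]; exact am_inη hC ht) y0 (by simpa using hη)).1
  rw [hm, sub_zero, sub_zero] at h1
  refine h1.trans ?_
  have h2 : ‖t ^ q‖ ≤ ‖t‖ ^ α := by
    rw [norm_pow]
    calc ‖t‖ ^ q ≤ ‖t‖ ^ 1 := pow_le_pow_of_le_one (norm_nonneg _) ht1 hC.qpos
      _ = ‖t‖ ^ (1:ℝ) := by rw [pow_one, Real.rpow_one]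
      _ ≤ ‖t‖ ^ α := Real.rpow_le_rpow_of_exponent_ge htp ht1 (hαγ.trans hC.γle)
  have h3 : ‖am Y q k I t - y0‖ ≤ c * ‖t‖ ^ α := (am_near hC ht).trans (by
    have := hC.cpos
    gcongr ?_ * ?_
    exact Real.rpow_le_rpow_of_exponent_ge htp ht1 hαγ)
  have hL0 := hB.Lpos
  calc L * (‖t ^ q‖ + ‖am Y q k I t - y0‖) ≤ L * (‖t‖ ^ α + c * ‖t‖ ^ α) := by gcongr
    _ = _ := by ring

theorem mu_holder (hB : Bas R K ε L m A g Y D) (hC : Clu R Y y0 η q k r c γ I)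
    (hL : LipH R η L m A y0) (hη : 0 < η) (hm : m (0, y0) = 0) :
    ∃ H α : ℝ, 0 < α ∧ α < 1 ∧ ∀ x ∈ ball (0:ℂ) (r/2), ∀ y ∈ ball (0:ℂ) (r/2),
      ‖mu m Y q k I x - mu m Y q k I y‖ ≤ H * ‖x - y‖ ^ α := by
  obtain ⟨C, hC0, hhol⟩ := am_holder hB hC
  have hε1 := e1_pos hB.εpos
  have he : e1 ε ≤ 1/2 := min_le_right _ _
  have hγ := hC.γpos
  have hL0 := hB.Lpos
  have hc0 := hC.cpos
  have hr := hC.rpos
  have hr1 := hC.rle
  set α : ℝ := min γ (e1 ε / 2) with hαdef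
  have hα : 0 < α := by positivity
  have hαγ : α ≤ γ := min_le_left _ _
  have hαh : α ≤ e1 ε / 2 := min_le_right _ _
  have hα1 : α < 1 := by linarith
  have hsub : pb (r / 2) ⊆ pb r := pb_mono (by linarith)
  refine ⟨L * (q + C) + 2 * q * (L * (1 + c)) + L * (1 + c), α, hα, hα1, fun x hx y hy => ?_⟩
  have hx1 : ‖x‖ < r / 2 := by simpa using hx
  have hy1 : ‖y‖ < r / 2 := by simpa using hy
  have hz : ∀ x : ℂ, ‖x‖ < r / 2 → ‖mu m Y q k I x‖ ≤ L * (1 + c) * ‖x‖ ^ α := by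
    intro x hx1
    by_cases hx0 : x = 0
    · rw [hx0, mu, if_pos rfl, norm_zero]; positivity
    · rw [mu, if_neg hx0, norm_mul, norm_un_le hC.qpos hx0, one_mul]
      exact m_am_le hB hC hL hη hm (hsub (mem_pb.2 ⟨hx1, hx0⟩)) hα hαγ
  have hpos : 0 ≤ L * (q + C) + 2 * q * (L * (1 + c)) := by positivity
  by_cases hx0 : x = 0
  · have : mu m Y q k I x = 0 := by rw [hx0, mu, if_pos rfl]
    rw [this, zero_sub, norm_neg, hx0, zero_sub, norm_neg]
    refine (hz y hy1).trans ?_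
    gcongr
    linarith
  by_cases hy0 : y = 0
  · have : mu m Y q k I y = 0 := by rw [hy0, mu, if_pos rfl]
    rw [this, sub_zero, hy0, sub_zero]
    refine (hz x hx1).trans ?_
    gcongr
    linarith
  have hxp : x ∈ pb (r/2) := mem_pb.2 ⟨hx1, hx0⟩
  have hyp : y ∈ pb (r/2) := mem_pb.2 ⟨hy1, hy0⟩
  have hd1 : ‖x - y‖ ≤ 1 := (norm_sub_le _ _).trans (by linarith)
  have hpw : ∀ β : ℝ, α ≤ β → 0 < β → ‖x - y‖ ^ β ≤ ‖x - y‖ ^ α := by
    intro β hβ hβ0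
    rcases eq_or_ne ‖x - y‖ 0 with h0 | h0
    · rw [h0, Real.zero_rpow hβ0.ne', Real.zero_rpow hα.ne']
    · exact Real.rpow_le_rpow_of_exponent_ge (lt_of_le_of_ne (norm_nonneg _) (Ne.symm h0)) hd1 hβ
  have hM : ‖m (x ^ q, am Y q k I x) - m (y ^ q, am Y q k I y)‖ ≤ L * (q + C) * ‖x - y‖ ^ α := by
    have h1 := (hL (x ^ q) (pw_mem hC (by linarith)) (y ^ q) (pw_mem hC (by linarith))
      (am Y q k I x) (by rw [mem_ball, dist_eq_norm]; exact am_inη hC (hsub hxp))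
      (am Y q k I y) (by rw [mem_ball, dist_eq_norm]; exact am_inη hC (hsub hyp))).1
    refine h1.trans ?_
    have h2 : ‖x ^ q - y ^ q‖ ≤ q * ‖x - y‖ ^ α := by
      refine (pow_sub_le (by linarith) (by linarith)).trans ?_
      have := hpw 1 hα1.le one_pos
      rw [Real.rpow_one] at this
      gcongr
    have h3 : ‖am Y q k I x - am Y q k I y‖ ≤ C * ‖x - y‖ ^ α := by
      refine (hhol x hxp y hyp).trans ?_
      gcongr ?_ * ?_
      exact hpw _ hαh (by positivity)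
    calc L * (‖x ^ q - y ^ q‖ + ‖am Y q k I x - am Y q k I y‖)
        ≤ L * (q * ‖x - y‖ ^ α + C * ‖x - y‖ ^ α) := by gcongr
      _ = _ := by ring
  have hMy := m_am_le hB hC hL hη hm (hsub hyp) hα hαγ
  have hU := un_sub hC.qpos hx0 hy0 hα hα1.le
  rw [mu, mu, if_neg hx0, if_neg hy0]
  have e1 : un q x * m (x ^ q, am Y q k I x) - un q y * m (y ^ q, am Y q k I y) =
      un q x * (m (x ^ q, am Y q k I x) - m (y ^ q, am Y q k I y)) +
      (un q x - un q y) * m (y ^ q, am Y q k I y) := by ring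
  rw [e1]
  have hyn : 0 < ‖y‖ := norm_pos_iff.2 hy0
  calc ‖un q x * (m (x ^ q, am Y q k I x) - m (y ^ q, am Y q k I y)) +
      (un q x - un q y) * m (y ^ q, am Y q k I y)‖
      ≤ 1 * (L * (q + C) * ‖x - y‖ ^ α) +
        (2 * q * (‖x - y‖ / ‖y‖) ^ α) * (L * (1 + c) * ‖y‖ ^ α) := by
        refine (norm_add_le _ _).trans (add_le_add ?_ ?_)
        · rw [norm_mul, norm_un_le hC.qpos hx0]; gcongr
        · rw [norm_mul]; gcongr
    _ = (L * (q + C) + 2 * q * (L * (1 + c))) * ‖x - y‖ ^ α := by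
        rw [Real.div_rpow (norm_nonneg _) (norm_nonneg _)]
        have : ‖y‖ ^ α ≠ 0 := (Real.rpow_pos_of_pos hyn α).ne'
        field_simp
    _ ≤ _ := by
        have h1 : 0 ≤ L * (1 + c) := by positivity
        exact mul_le_mul_of_nonneg_right (by linarith) (by positivity)

/-- the power sum vector of the cluster -/
def sv (Y : ℂ → Fin N → ℂ) (q k : ℕ) (I : ℂ → Finset (Fin N)) (t : ℂ) : V1 k :=
  sg k (I t) (Y (t ^ q))

/-- its derivative -/
def svd (Y : ℂ → Fin N → ℂ) (D : ℂ → Fin N → ℂ →L[ℝ] ℂ) (q k : ℕ) (I : ℂ → Finset (Fin N))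
    (t : ℂ) : ℂ →L[ℝ] V1 k :=
  ContinuousLinearMap.pi fun j : Fin (2 * k + 1) =>
    ∑ i ∈ I t, (fderiv ℝ (fun y : ℂ => y ^ (j:ℕ)) (Y (t ^ q) i)).comp (Dq D q t i)

theorem sv_cont (hB : Bas R K ε L m A g Y D) (hC : Clu R Y y0 η q k r c γ I) :
    ContinuousOn (sv Y q k I) (pb r) :=
  continuousOn_pi.2 fun j => hC.cont hB (F := fun y => y ^ (j:ℕ)) (continuous_pow _)

theorem sv_wg (hB : Bas R K ε L m A g Y D) (hC : Clu R Y y0 η q k r c γ I) :
    WG (pb r) (sv Y q k I) (svd Y D q k I) := by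
  classical
  have h1 : ∀ j : Fin (2 * k + 1), WG (pb r)
      (fun t => (ContinuousLinearMap.single ℝ (fun _ : Fin (2 * k + 1) => ℂ) j)
        (∑ i ∈ I t, Y (t ^ q) i ^ (j:ℕ)))
      (fun t => (ContinuousLinearMap.single ℝ (fun _ : Fin (2 * k + 1) => ℂ) j).comp
        (∑ i ∈ I t, (fderiv ℝ (fun y : ℂ => y ^ (j:ℕ)) (Y (t ^ q) i)).comp (Dq D q t i))) :=
    fun j => (hC.wg hB (F := fun y => y ^ (j:ℕ)) (contDiff_id.pow _)).clm _
  have h2 := WG.sum (isOpen_pb r) Finset.univ fun j _ => h1 j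
  refine h2.congr (isOpen_pb r).measurableSet (fun t _ => ?_) (fun t _ => ?_)
  · funext j
    simp [sv, sg, Finset.sum_apply, Pi.single_apply]
  · ext v j
    simp [svd, Finset.sum_apply, Pi.single_apply]

theorem pz_comp_mulL {L' : ℂ →L[ℝ] ℂ} {a : ℂ} :
    pz (L'.comp (mulL a)) = a * pz L' ∧ pzb (L'.comp (mulL a)) = (starRingEnd ℂ) a * pzb L' := by
  obtain ⟨h1, h2⟩ := pz_comp L' (mulL a)
  rw [pz_mulL, pzb_mulL, map_zero, zero_smul, add_zero] at h1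
  rw [pz_mulL, pzb_mulL, zero_smul, zero_add] at h2
  exact ⟨h1, h2⟩

theorem norm_pwd_le {q : ℕ} {t : ℂ} (ht : ‖t‖ ≤ 1) : ‖pwd q t‖ ≤ q := by
  unfold pwd
  rw [norm_mul, Complex.norm_natCast, norm_pow]
  exact mul_le_of_le_one_right (Nat.cast_nonneg _) (pow_le_one₀ (norm_nonneg _) ht)

/-- the pointwise inequality -/
theorem vec_ineq (hB : Bas R K ε L m A g Y D) (hC : Clu R Y y0 η q k r c γ I)
    (hL : LipH R η L m A y0) : ∃ C : ℝ, 0 ≤ C ∧ ∀ t ∈ pb r,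
      ‖pzb ((fderiv ℝ (Phi k) (sv Y q k I t)).comp (svd Y D q k I t)) -
        mu m Y q k I t • pz ((fderiv ℝ (Phi k) (sv Y q k I t)).comp (svd Y D q k I t))‖ ≤
      C * (∑ i ∈ I t, ‖Dq D q t i‖ + q) * ‖Phi k (sv Y q k I t)‖ := by
  obtain ⟨Cb, hCb, hge⟩ := Phi_ge k hC.kpos
  have hL0 := hB.Lpos
  refine ⟨((2 * k)! * (k:ℝ) ^ (2 * k)!) * (2 * L) * Cb, by positivity, fun t ht => ?_⟩
  have ht' := mem_pb.1 ht
  have ht1 : ‖t‖ ≤ 1 := ht'.1.le.trans hC.rle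
  set J := I t with hJdef
  have hJ : J.card = k := hC.card t ht
  set y := Y (t ^ q) with hy
  set Lt := (fderiv ℝ (Phi k) (sv Y q k I t)).comp (svd Y D q k I t) with hLt
  have happ : ∀ v l, Lt v l = dPsi k J y (fun i => Dq D q t i v) l := by
    intro v l
    refine key_deriv hC.kpos J y (fun i => Dq D q t i v) (svd Y D q k I t v) (fun j => ?_) l
    simp only [svd, ContinuousLinearMap.pi_apply, sum_apply, ContinuousLinearMap.comp_apply]
    refine Finset.sum_congr rfl fun i _ => ?_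
    have h1 : fderiv ℝ (fun y : ℂ => y ^ (j:ℕ)) (Y (t ^ q) i) = mulL (pwd j (Y (t ^ q) i)) :=
      fderiv_pw j _
    rw [h1, mulL_apply, pwd]
  set e : Fin N → ℂ := fun i => pzb (Dq D q t i) - mu m Y q k I t * pz (Dq D q t i) with he
  have hcomp : ∀ l, (pzb Lt - mu m Y q k I t • pz Lt) l = dPsi k J y e l := by
    intro l
    have a1 : pzb Lt l = dPsi k J y (fun i => pzb (Dq D q t i)) l := by
      have : (fun i => pzb (Dq D q t i)) = fun i => (1/2:ℂ) * Dq D q t i 1 +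
          (Complex.I / 2) * Dq D q t i Complex.I := by
        funext i; simp only [pzb, smul_eq_mul]; ring
      rw [this, dPsi_lin, ← happ, ← happ]
      simp only [pzb, Pi.smul_apply, Pi.add_apply, smul_eq_mul]; ring
    have a2 : pz Lt l = dPsi k J y (fun i => pz (Dq D q t i)) l := by
      have : (fun i => pz (Dq D q t i)) = fun i => (1/2:ℂ) * Dq D q t i 1 +
          (-Complex.I / 2) * Dq D q t i Complex.I := by
        funext i; simp only [pz, smul_eq_mul]; ring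
      rw [this, dPsi_lin, ← happ, ← happ]
      simp only [pz, Pi.smul_apply, Pi.sub_apply, smul_eq_mul]; ring
    have a3 : e = fun i => 1 * pzb (Dq D q t i) + (-mu m Y q k I t) * pz (Dq D q t i) := by
      funext i; rw [he]; ring
    rw [a3, dPsi_lin, ← a1, ← a2]
    simp only [Pi.sub_apply, Pi.smul_apply, smul_eq_mul]; ring
  -- the spread
  have hne : J.Nonempty := by rw [← Finset.card_pos, hJ]; exact hC.kpos
  obtain ⟨i0, hi0, hmax⟩ := Finset.exists_max_image J (fun i => ‖y i - mn k J y‖) hne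
  set δ := ‖y i0 - mn k J y‖ with hδ
  have hδ0 : 0 ≤ δ := norm_nonneg _
  have hmn : mn k J y = am Y q k I t := rfl
  have hηy : ∀ i ∈ J, y i ∈ ball y0 η := fun i hi => by
    rw [mem_ball, dist_eq_norm]; exact hC.inη t ht i hi
  have hηa : am Y q k I t ∈ ball y0 η := by
    rw [mem_ball, dist_eq_norm]; exact am_inη hC ht
  have hzR := pw_mem hC ht'.1
  set Sd := ∑ i ∈ J, ‖Dq D q t i‖ with hSd
  have hSd0 : 0 ≤ Sd := Finset.sum_nonneg fun _ _ => norm_nonneg _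
  set cc := pwd q t with hcc
  have hcc0 : cc ≠ 0 := pwd_ne hC.qpos ht'.2
  have heq : ∀ i, e i = (starRingEnd ℂ) cc * ((m (t ^ q, y i) - m (t ^ q, am Y q k I t)) *
      pz (D (t ^ q) i) + A (t ^ q, y i)) := by
    intro i
    have h1 : pz (Dq D q t i) = cc * pz (D (t ^ q) i) := pz_comp_mulL.1
    have h2 : pzb (Dq D q t i) = (starRingEnd ℂ) cc * pzb (D (t ^ q) i) := pz_comp_mulL.2
    have h3 := hB.eqn (t ^ q) hzR i
    simp only [he]
    rw [h1, h2, h3, mu, if_neg ht'.2, un, ← hcc, ← hy]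
    field_simp
    ring
  have hle1 : ∀ i ∈ J, ‖(starRingEnd ℂ) cc * ((m (t ^ q, y i) - m (t ^ q, am Y q k I t)) *
      pz (D (t ^ q) i))‖ ≤ L * δ * Sd := by
    intro i hi
    have h1 : pz (Dq D q t i) = cc * pz (D (t ^ q) i) := pz_comp_mulL.1
    have h2 : ‖cc‖ * ‖pz (D (t ^ q) i)‖ ≤ Sd := by
      rw [← norm_mul, ← h1]
      exact (norm_pz_le _).trans (Finset.single_le_sum (f := fun i => ‖Dq D q t i‖)
        (fun _ _ => norm_nonneg _) hi)
    have h3 := (hL (t ^ q) hzR (t ^ q) hzR (y i) (hηy i hi) (am Y q k I t) hηa).1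
    rw [sub_self, norm_zero, zero_add] at h3
    have h4 : ‖y i - am Y q k I t‖ ≤ δ := hmax i hi
    rw [norm_mul, norm_mul, RCLike.norm_conj]
    calc ‖cc‖ * (‖m (t ^ q, y i) - m (t ^ q, am Y q k I t)‖ * ‖pz (D (t ^ q) i)‖)
        = ‖m (t ^ q, y i) - m (t ^ q, am Y q k I t)‖ * (‖cc‖ * ‖pz (D (t ^ q) i)‖) := by ring
      _ ≤ (L * δ) * Sd := by
        refine mul_le_mul (h3.trans (by gcongr)) h2 (by positivity) (by positivity)
  have hle2 : ∀ i ∈ J, ‖(starRingEnd ℂ) cc * (A (t ^ q, y i) - A (t ^ q, am Y q k I t))‖ ≤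
      L * δ * q := by
    intro i hi
    have h3 := (hL (t ^ q) hzR (t ^ q) hzR (y i) (hηy i hi) (am Y q k I t) hηa).2
    rw [sub_self, norm_zero, zero_add] at h3
    have h4 : ‖y i - am Y q k I t‖ ≤ δ := hmax i hi
    have h5 : ‖cc‖ ≤ q := norm_pwd_le ht1
    rw [norm_mul, RCLike.norm_conj]
    calc ‖cc‖ * ‖A (t ^ q, y i) - A (t ^ q, am Y q k I t)‖ ≤ q * (L * δ) := by
          refine mul_le_mul h5 (h3.trans (by gcongr)) (norm_nonneg _) (Nat.cast_nonneg _)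
      _ = _ := by ring
  have he2 : ∀ i ∈ J, ‖e i - mn k J e‖ ≤ δ * (2 * L * (Sd + q)) := by
    set e' : Fin N → ℂ := fun i => (starRingEnd ℂ) cc * ((m (t ^ q, y i) - m (t ^ q, am Y q k I t)) *
      pz (D (t ^ q) i)) + (starRingEnd ℂ) cc * (A (t ^ q, y i) - A (t ^ q, am Y q k I t)) with he'
    have h1 : ∀ i, e i = e' i + (starRingEnd ℂ) cc * A (t ^ q, am Y q k I t) := by
      intro i; rw [heq, he']; ring
    have h2 : ∀ i ∈ J, ‖e' i‖ ≤ δ * (L * (Sd + q)) := by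
      intro i hi
      refine (norm_add_le _ _).trans ((add_le_add (hle1 i hi) (hle2 i hi)).trans (le_of_eq ?_))
      ring
    have h3 : mn k J e = mn k J e' + (starRingEnd ℂ) cc * A (t ^ q, am Y q k I t) := by
      have hk0 : (k:ℂ) ≠ 0 := by have := hC.kpos; exact_mod_cast (by omega : k ≠ 0)
      unfold mn
      simp_rw [h1]
      rw [Finset.sum_add_distrib, Finset.sum_const, hJ, nsmul_eq_mul, mul_add,
        inv_mul_cancel_left₀ hk0]
    intro i hi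
    rw [h1 i, h3, add_sub_add_right_eq_sub]
    have h4 : ‖mn k J e'‖ ≤ δ * (L * (Sd + q)) := norm_mean_le hJ hC.kpos h2
    refine (norm_sub_le _ _).trans ((add_le_add (h2 i hi) h4).trans (le_of_eq ?_))
    ring
  have hfin := fun l => dPsi_le hC.kpos hJ (y := y) (e := e) (δ := δ) (b := 2 * L * (Sd + q)) hδ0
    (by positivity) hmax he2 l
  have hδE : δ ^ (2 * k)! ≤ Cb * ‖Phi k (sv Y q k I t)‖ := hge J y hJ i0 hi0
  rw [pi_norm_le_iff_of_nonneg (by positivity)]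
  intro l
  rw [hcomp]
  calc ‖dPsi k J y e l‖ ≤ ((2 * k)! * (k:ℝ) ^ (2 * k)!) * (2 * L * (Sd + q)) * δ ^ (2 * k)! := hfin l
    _ ≤ ((2 * k)! * (k:ℝ) ^ (2 * k)!) * (2 * L * (Sd + q)) * (Cb * ‖Phi k (sv Y q k I t)‖) := by
        gcongr
    _ = _ := by ring

end

end Vale.Agent.P247.H324
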