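import Vale.Agent.P247.H324.MG.WG5

/-! Hölder estimates for the derivative of the Cauchy transform, by dyadic decomposition. -/

open MeasureTheory Set Metric Filter Topology
open scoped ContDiff ENNReal Convolution

set_option linter.unusedSectionVars false
set_option linter.unusedVariables false

noncomputable section

namespace Vale.Agent.P247.H324

open Vale.Agent.P272.CT

/-- cutoff: `1` on the ball of radius `2`, `0` off the ball of radius `4` -/
def cbu : ContDiffBump (0 : ℂ) := ⟨2, 4, by norm_num, by norm_num⟩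

theorem cbu_one {w : ℂ} (h : ‖w‖ ≤ 2) : cbu w = 1 :=
  cbu.one_of_mem_closedBall (by rw [mem_closedBall_zero_iff]; exact h)

theorem cbu_zero {w : ℂ} (h : 4 ≤ ‖w‖) : cbu w = 0 :=
  cbu.zero_of_le_dist (by rw [dist_zero_right]; exact h)

/-- the basic piece of the Cauchy kernel -/
def k0 (w : ℂ) : ℂ := ((cbu w - cbu ((2:ℝ) • w) : ℝ) : ℂ) * ((Real.pi : ℝ) * w)⁻¹

theorem k0_contDiff : ContDiff ℝ ∞ k0 := by
  rw [contDiff_iff_contDiffAt]
  intro w
  by_cases hw : w = 0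
  · subst hw
    have h1 : k0 =ᶠ[𝓝 0] fun _ => 0 := by
      filter_upwards [ball_mem_nhds (0:ℂ) one_pos] with z hz
      have hz' : ‖z‖ < 1 := by simpa using hz
      unfold k0
      rw [cbu_one (by linarith), cbu_one]
      · simp
      · rw [norm_smul, Real.norm_of_nonneg (by norm_num)]; linarith
    exact contDiffAt_const.congr_of_eventuallyEq h1
  · have h1 : ContDiff ℝ ∞ fun w : ℂ => ((cbu w - cbu ((2:ℝ) • w) : ℝ) : ℂ) := by
      refine Complex.ofRealCLM.contDiff.comp ?_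
      exact cbu.contDiff.sub (cbu.contDiff.comp (contDiff_const_smul (2:ℝ)))
    have h2 : ContDiffAt ℝ ∞ (fun w : ℂ => (((Real.pi : ℝ) : ℂ) * w)⁻¹) w := by
      refine ContDiffAt.inv ?_ ?_
      · exact contDiffAt_const.mul contDiffAt_id
      · exact mul_ne_zero (by exact_mod_cast Real.pi_ne_zero) hw
    exact h1.contDiffAt.mul h2

theorem k0_zero {w : ℂ} (h : 4 ≤ ‖w‖) : k0 w = 0 := by
  unfold k0
  rw [cbu_zero h, cbu_zero]
  · simp
  · rw [norm_smul, Real.norm_of_nonneg (by norm_num)]; linarith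

theorem k0_compact : HasCompactSupport k0 :=
  HasCompactSupport.intro (isCompact_closedBall (0:ℂ) 4) fun w hw => k0_zero (by
    rw [mem_closedBall_zero_iff, not_le] at hw; exact hw.le)

theorem k0_fderiv_zero {w : ℂ} (h : 4 < ‖w‖) : fderiv ℝ k0 w = 0 := by
  have h1 : k0 =ᶠ[𝓝 w] fun _ => 0 := by
    filter_upwards [(isOpen_lt continuous_const continuous_norm).mem_nhds h] with z hz
    exact k0_zero (le_of_lt hz)
  rw [h1.fderiv_eq]; simp

theorem k0_bounds : ∃ M : ℝ, 0 ≤ M ∧ (∀ w, ‖k0 w‖ ≤ M) ∧ (∀ w, ‖fderiv ℝ k0 w‖ ≤ M) ∧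
    ∀ w w', ‖fderiv ℝ k0 w - fderiv ℝ k0 w'‖ ≤ M * ‖w - w'‖ := by
  have h1 : ContDiff ℝ ∞ (fderiv ℝ k0) := k0_contDiff.fderiv_right (by simp)
  have h2 : HasCompactSupport (fderiv ℝ k0) := k0_compact.fderiv ℝ
  obtain ⟨M0, hM0⟩ := k0_contDiff.continuous.bounded_above_of_compact_support k0_compact
  obtain ⟨M1, hM1⟩ := h1.continuous.bounded_above_of_compact_support h2
  obtain ⟨M2, hM2⟩ := (h1.continuous_fderiv (by simp)).bounded_above_of_compact_support
    (h2.fderiv ℝ)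
  have a0 : 0 ≤ M0 := (norm_nonneg _).trans (hM0 0)
  have a1 : 0 ≤ M1 := (norm_nonneg _).trans (hM1 0)
  have a2 : 0 ≤ M2 := (norm_nonneg _).trans (hM2 0)
  refine ⟨M0 + M1 + M2, by positivity, fun w => (hM0 w).trans (by linarith),
    fun w => (hM1 w).trans (by linarith), fun w w' => ?_⟩
  have h3 := convex_univ.norm_image_sub_le_of_norm_fderiv_le (𝕜 := ℝ) (f := fderiv ℝ k0) (C := M2)
    (fun x _ => (h1.differentiable (by simp)) x) (fun x _ => hM2 x) (mem_univ w') (mem_univ w)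
  refine h3.trans ?_
  gcongr
  linarith

/-- the constant of the basic piece -/
def KM : ℝ := k0_bounds.choose
theorem KM_nonneg : 0 ≤ KM := k0_bounds.choose_spec.1
theorem KM_0 (w : ℂ) : ‖k0 w‖ ≤ KM := k0_bounds.choose_spec.2.1 w
theorem KM_1 (w : ℂ) : ‖fderiv ℝ k0 w‖ ≤ KM := k0_bounds.choose_spec.2.2.1 w
theorem KM_2 (w w' : ℂ) : ‖fderiv ℝ k0 w - fderiv ℝ k0 w'‖ ≤ KM * ‖w - w'‖ :=
  k0_bounds.choose_spec.2.2.2 w w'

/-- the piece at scale `s` -/
def ks (s : ℝ) (w : ℂ) : ℂ := s⁻¹ • k0 (s⁻¹ • w)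

section ks

variable {s : ℝ} (hs : 0 < s)

theorem ks_contDiff (s : ℝ) : ContDiff ℝ ∞ (ks s) :=
  (k0_contDiff.comp (contDiff_const_smul s⁻¹)).const_smul s⁻¹

include hs

theorem ks_zero {w : ℂ} (h : 4 * s ≤ ‖w‖) : ks s w = 0 := by
  unfold ks
  rw [k0_zero, smul_zero]
  rw [norm_smul, norm_inv, Real.norm_of_nonneg hs.le]
  rw [inv_mul_eq_div, le_div_iff₀ hs]; exact h

theorem ks_compact : HasCompactSupport (ks s) :=
  HasCompactSupport.intro (isCompact_closedBall (0:ℂ) (4 * s)) fun w hw => ks_zero hs (by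
    rw [mem_closedBall_zero_iff, not_le] at hw; exact hw.le)

theorem ks_fderiv (w : ℂ) : fderiv ℝ (ks s) w = (s⁻¹ * s⁻¹) • fderiv ℝ k0 (s⁻¹ • w) := by
  have h1 : HasFDerivAt k0 (fderiv ℝ k0 (s⁻¹ • w)) (s⁻¹ • w) :=
    ((k0_contDiff.differentiable (by simp)) _).hasFDerivAt
  have h2 : HasFDerivAt (fun w : ℂ => s⁻¹ • w) (s⁻¹ • ContinuousLinearMap.id ℝ ℂ) w :=
    (hasFDerivAt_id (𝕜 := ℝ) w).const_smul s⁻¹
  have h3 : HasFDerivAt (ks s) (s⁻¹ • (fderiv ℝ k0 (s⁻¹ • w)).comp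
      (s⁻¹ • ContinuousLinearMap.id ℝ ℂ)) w := (h1.comp w h2).const_smul s⁻¹
  rw [h3.fderiv]
  ext v
  simp [mul_assoc]

theorem ks_fderiv_zero {w : ℂ} (h : 4 * s < ‖w‖) : fderiv ℝ (ks s) w = 0 := by
  rw [ks_fderiv hs, k0_fderiv_zero, smul_zero]
  rw [norm_smul, norm_inv, Real.norm_of_nonneg hs.le]
  rw [inv_mul_eq_div, lt_div_iff₀ hs]; exact h

theorem norm_ks (w : ℂ) : ‖ks s w‖ ≤ KM / s := by
  unfold ks
  rw [norm_smul, norm_inv, Real.norm_of_nonneg hs.le, inv_mul_eq_div]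
  have := KM_0 (s⁻¹ • w)
  gcongr

theorem norm_ks_fderiv (w : ℂ) : ‖fderiv ℝ (ks s) w‖ ≤ KM / s ^ 2 := by
  rw [ks_fderiv hs, norm_smul]
  have h1 : ‖s⁻¹ * s⁻¹‖ = (s ^ 2)⁻¹ := by
    rw [Real.norm_of_nonneg (by positivity)]; field_simp
  rw [h1, inv_mul_eq_div]
  have := KM_1 (s⁻¹ • w)
  gcongr

theorem norm_ks_fderiv_sub (w w' : ℂ) :
    ‖fderiv ℝ (ks s) w - fderiv ℝ (ks s) w'‖ ≤ KM / s ^ 3 * ‖w - w'‖ := by
  rw [ks_fderiv hs, ks_fderiv hs, ← smul_sub, norm_smul]
  have h1 : ‖s⁻¹ * s⁻¹‖ = (s ^ 2)⁻¹ := by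
    rw [Real.norm_of_nonneg (by positivity)]; field_simp
  have h2 := KM_2 (s⁻¹ • w) (s⁻¹ • w')
  rw [← smul_sub, norm_smul, norm_inv, Real.norm_of_nonneg hs.le] at h2
  rw [h1]
  calc (s ^ 2)⁻¹ * ‖fderiv ℝ k0 (s⁻¹ • w) - fderiv ℝ k0 (s⁻¹ • w')‖
      ≤ (s ^ 2)⁻¹ * (KM * (s⁻¹ * ‖w - w'‖)) := by gcongr
    _ = _ := by field_simp

end ks

/-- Hölder functions supported in the unit disc -/
structure Hol (α H : ℝ) (h : ℂ → ℂ) : Prop where
  hold : ∀ x y, ‖h x - h y‖ ≤ H * ‖x - y‖ ^ α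
  supp : ∀ x, 1 ≤ ‖x‖ → h x = 0

/-- convolution with the piece at scale `s` -/
def Tk (s : ℝ) (h : ℂ → ℂ) (x : ℂ) : ℂ := ∫ w, ks s (x - w) * h w

section

variable {α H : ℝ} {h : ℂ → ℂ}

theorem Hol.cont (hα : 0 < α) (hh : Hol α H h) : Continuous h := by
  rw [continuous_iff_continuousAt]
  intro x
  rw [ContinuousAt, tendsto_iff_norm_sub_tendsto_zero]
  have h1 : Tendsto (fun y => H * ‖y - x‖ ^ α) (𝓝 x) (𝓝 0) := by
    have h2 : Tendsto (fun y : ℂ => ‖y - x‖) (𝓝 x) (𝓝 0) := by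
      have : Tendsto (fun y : ℂ => ‖y - x‖) (𝓝 x) (𝓝 ‖x - x‖) :=
        (continuous_id.sub continuous_const).norm.tendsto x
      simpa using this
    have h3 := (h2.rpow_const (p := α) (Or.inr hα.le)).const_mul H
    rwa [Real.zero_rpow hα.ne', mul_zero] at h3
  exact squeeze_zero (fun y => norm_nonneg _) (fun y => hh.hold y x) h1

theorem Hol.compact (hh : Hol α H h) : HasCompactSupport h :=
  HasCompactSupport.intro (isCompact_closedBall (0:ℂ) 1) fun w hw => hh.supp w (by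
    rw [mem_closedBall_zero_iff, not_le] at hw; exact hw.le)

theorem Hol.integrable (hα : 0 < α) (hh : Hol α H h) : Integrable h :=
  (hh.cont hα).integrable_of_hasCompactSupport hh.compact

theorem Hol.nonneg (hh : Hol α H h) : 0 ≤ H := by
  have := hh.hold 0 1
  simp at this
  exact (norm_nonneg _).trans this

theorem Hol.bdd (hα : 0 < α) (hα1 : α ≤ 1) (hh : Hol α H h) (x : ℂ) : ‖h x‖ ≤ 2 * H := by
  have hH := hh.nonneg
  have h1 := hh.hold x (x + 2)
  by_cases hx : 1 ≤ ‖x‖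
  · rw [hh.supp x hx]; simpa using hH
  · have h2 : h (x + 2) = 0 := by
      refine hh.supp _ ?_
      have := norm_sub_norm_le (2:ℂ) (-x)
      rw [norm_neg, sub_neg_eq_add, add_comm] at this
      have h3 : ‖(2:ℂ)‖ = 2 := by simp
      rw [h3] at this
      push Not at hx
      linarith
    rw [h2, sub_zero] at h1
    have h3 : ‖x - (x + 2)‖ = 2 := by simp
    rw [h3] at h1
    have h4 : (2:ℝ) ^ α ≤ 2 := by
      calc (2:ℝ) ^ α ≤ 2 ^ (1:ℝ) := Real.rpow_le_rpow_of_exponent_le (by norm_num) hα1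
        _ = 2 := by simp
    nlinarith

theorem Hol.add {H' : ℝ} {h' : ℂ → ℂ} (hh : Hol α H h) (hh' : Hol α H' h') :
    Hol α (H + H') (fun x => h x + h' x) := by
  refine ⟨fun x y => ?_, fun x hx => by rw [hh.supp x hx, hh'.supp x hx, add_zero]⟩
  calc ‖h x + h' x - (h y + h' y)‖ = ‖(h x - h y) + (h' x - h' y)‖ := by ring_nf
    _ ≤ ‖h x - h y‖ + ‖h' x - h' y‖ := norm_add_le _ _
    _ ≤ H * ‖x - y‖ ^ α + H' * ‖x - y‖ ^ α := add_le_add (hh.hold x y) (hh'.hold x y)
    _ = _ := by ring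

theorem Hol.sub {H' : ℝ} {h' : ℂ → ℂ} (hh : Hol α H h) (hh' : Hol α H' h') :
    Hol α (H + H') (fun x => h x - h' x) := by
  refine ⟨fun x y => ?_, fun x hx => by rw [hh.supp x hx, hh'.supp x hx, sub_zero]⟩
  calc ‖h x - h' x - (h y - h' y)‖ = ‖(h x - h y) - (h' x - h' y)‖ := by ring_nf
    _ ≤ ‖h x - h y‖ + ‖h' x - h' y‖ := norm_sub_le _ _
    _ ≤ H * ‖x - y‖ ^ α + H' * ‖x - y‖ ^ α := add_le_add (hh.hold x y) (hh'.hold x y)
    _ = _ := by ring

theorem Tk_eq_conv (s : ℝ) (h : ℂ → ℂ) :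
    Tk s h = (ks s) ⋆[ContinuousLinearMap.mul ℝ ℂ, volume] h := by
  ext x
  rw [convolution_eq_swap]
  rfl

theorem hasFDerivAt_Tk {s : ℝ} (hs : 0 < s) (hh : LocallyIntegrable h) (x : ℂ) :
    HasFDerivAt (Tk s h) (fderiv ℝ (Tk s h) x) x := by
  have h1 := (ks_compact hs).hasFDerivAt_convolution_left (ContinuousLinearMap.mul ℝ ℂ)
    ((ks_contDiff s).of_le (by simp)) hh x
  rw [← Tk_eq_conv] at h1
  exact h1.differentiableAt.hasFDerivAt

theorem Tk_fderiv {s : ℝ} (hs : 0 < s) (hh : LocallyIntegrable h) (x v : ℂ) :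
    fderiv ℝ (Tk s h) x v = ∫ w, fderiv ℝ (ks s) (x - w) v * h w := by
  have h1 := (ks_compact hs).hasFDerivAt_convolution_left (ContinuousLinearMap.mul ℝ ℂ)
    ((ks_contDiff s).of_le (by simp)) hh x
  rw [← Tk_eq_conv] at h1
  rw [h1.fderiv, convolution_eq_swap]
  have h5 : Integrable (fun t => ((ContinuousLinearMap.mul ℝ ℂ).precompL ℂ)
      (fderiv ℝ (ks s) (x - t)) (h t)) := by
    have h6 := (((ks_compact hs).fderiv ℝ).convolutionExists_left
      ((ContinuousLinearMap.mul ℝ ℂ).precompL ℂ)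
      ((ks_contDiff s).continuous_fderiv (by simp)) hh x)
    exact h6.integrable_swap
  rw [ContinuousLinearMap.integral_apply h5]
  rfl

/-- the derivative of the kernel has mean zero -/
theorem ks_mean {s : ℝ} (hs : 0 < s) (x v : ℂ) : ∫ w, fderiv ℝ (ks s) (x - w) v = 0 := by
  rw [integral_sub_left_eq_self (fun w => fderiv ℝ (ks s) w v) volume x]
  have h1 : Integrable fun w => fderiv ℝ (ks s) w v :=
    (((ks_contDiff s).continuous_fderiv (by simp)).clm_apply continuous_const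
      ).integrable_of_hasCompactSupport
      (HasCompactSupport.intro (isCompact_closedBall (0:ℂ) (4 * s)) fun w hw => by
        rw [ks_fderiv_zero hs (by rw [mem_closedBall_zero_iff, not_le] at hw; exact hw)]; rfl)
  have h2 := integral_smul_fderiv_eq_neg_fderiv_smul_of_integrable (μ := (volume : Measure ℂ))
    (𝕜 := ℝ) (f := fun _ : ℂ => (1:ℝ)) (g := ks s) (v := v) ?_ ?_ ?_ ?_ ?_
  · simpa using h2
  · simp
  · simpa using h1
  · simpa using (ks_contDiff s).continuous.integrable_of_hasCompactSupport (ks_compact hs)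
  · intro z _; exact differentiableAt_const _
  · intro z _; exact ((ks_contDiff s).differentiable (by simp)) z

theorem vol_cb (x : ℂ) {r : ℝ} (hr : 0 ≤ r) : (volume (closedBall x r)).toReal = Real.pi * r ^ 2 := by
  rw [Complex.volume_closedBall, ENNReal.toReal_mul, ENNReal.toReal_pow, ENNReal.toReal_ofReal hr,
    mul_comm]
  rfl

/-- the basic cancellation estimate -/
theorem cancel_le {x : ℂ} {a ρ : ℝ} (hα : 0 < α) (ha : 0 ≤ a) (hρ : 0 < ρ) (hh : Hol α H h)
    {A : ℂ → ℂ} (hA : Continuous A) (hA0 : ∀ w, ρ < ‖x - w‖ → A w = 0) (hAa : ∀ w, ‖A w‖ ≤ a)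
    (hmean : ∫ w, A w = 0) : ‖∫ w, A w * h w‖ ≤ a * (H * ρ ^ α) * (Real.pi * ρ ^ 2) := by
  have hH := hh.nonneg
  have hAc : HasCompactSupport A := HasCompactSupport.intro (isCompact_closedBall x ρ)
    fun w hw => hA0 w (by rw [mem_closedBall, not_le, dist_comm, dist_eq_norm] at hw; exact hw)
  have i1 : Integrable fun w => A w * h w :=
    (hA.mul (hh.cont hα)).integrable_of_hasCompactSupport hAc.mul_right
  have i2 : Integrable fun w => A w * h x :=
    (hA.mul continuous_const).integrable_of_hasCompactSupport hAc.mul_right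
  have e1 : ∫ w, A w * h w = ∫ w in closedBall x ρ, A w * (h w - h x) := by
    have e2 : ∫ w, A w * h w = ∫ w, A w * (h w - h x) := by
      simp_rw [mul_sub]
      rw [integral_sub i1 i2, integral_mul_const, hmean, zero_mul, sub_zero]
    rw [e2, setIntegral_eq_integral_of_forall_compl_eq_zero]
    intro w hw
    rw [hA0 w (by rw [mem_closedBall, not_le, dist_comm, dist_eq_norm] at hw; exact hw), zero_mul]
  rw [e1]
  have hv := vol_cb x hρ.le
  have := norm_setIntegral_le_of_norm_le_const (μ := volume) (s := closedBall x ρ)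
    (f := fun w => A w * (h w - h x)) (C := a * (H * ρ ^ α))
    (isCompact_closedBall x ρ).measure_lt_top ?_
  · refine this.trans (le_of_eq ?_)
    rw [Measure.real, hv]
  · intro w hw
    rw [norm_mul]
    have h1 : ‖w - x‖ ≤ ρ := by rw [← dist_eq_norm]; exact hw
    have h2 : ‖h w - h x‖ ≤ H * ρ ^ α := (hh.hold w x).trans (by gcongr)
    exact mul_le_mul (hAa w) h2 (norm_nonneg _) ha

/-- first estimate -/
theorem norm_fderiv_Tk {s : ℝ} (hs : 0 < s) (hα : 0 < α) (hα1 : α ≤ 1) (hh : Hol α H h) (x : ℂ) :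
    ‖fderiv ℝ (Tk s h) x‖ ≤ 64 * Real.pi * KM * H * s ^ α := by
  have hH := hh.nonneg
  have hK := KM_nonneg
  have hpi := Real.pi_pos
  have hLI := (hh.integrable hα).locallyIntegrable
  refine ContinuousLinearMap.opNorm_le_bound _ (by positivity) fun v => ?_
  rw [Tk_fderiv hs hLI]
  have h1 := cancel_le (x := x) (a := KM / s ^ 2 * ‖v‖) (ρ := 4 * s) hα (by positivity)
    (by positivity) hh (A := fun w => fderiv ℝ (ks s) (x - w) v) ?_ ?_ ?_ (ks_mean hs x v)
  · refine h1.trans ?_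
    have h4 : (4 * s) ^ α = 4 ^ α * s ^ α := Real.mul_rpow (by norm_num) hs.le
    have h5 : (4:ℝ) ^ α ≤ 4 := by
      calc (4:ℝ) ^ α ≤ 4 ^ (1:ℝ) := Real.rpow_le_rpow_of_exponent_le (by norm_num) hα1
        _ = 4 := by simp
    rw [h4]
    calc KM / s ^ 2 * ‖v‖ * (H * (4 ^ α * s ^ α)) * (Real.pi * (4 * s) ^ 2)
        ≤ KM / s ^ 2 * ‖v‖ * (H * (4 * s ^ α)) * (Real.pi * (4 * s) ^ 2) := by gcongr
      _ = 64 * Real.pi * KM * H * s ^ α * ‖v‖ := by field_simp; ring
  · exact (((ks_contDiff s).continuous_fderiv (by simp)).comp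
      (continuous_const.sub continuous_id)).clm_apply continuous_const
  · intro w hw
    rw [ks_fderiv_zero hs hw]; rfl
  · intro w
    exact (ContinuousLinearMap.le_opNorm _ _).trans (by
      gcongr; exact norm_ks_fderiv hs _)

/-- second estimate -/
theorem norm_fderiv_Tk_sub {s : ℝ} (hs : 0 < s) (hα : 0 < α) (hα1 : α ≤ 1) (hh : Hol α H h)
    {x y : ℂ} (hxy : ‖x - y‖ ≤ s) :
    ‖fderiv ℝ (Tk s h) x - fderiv ℝ (Tk s h) y‖ ≤
      125 * Real.pi * KM * H * (s ^ α / s) * ‖x - y‖ := by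
  have hH := hh.nonneg
  have hK := KM_nonneg
  have hpi := Real.pi_pos
  have hLI := (hh.integrable hα).locallyIntegrable
  refine ContinuousLinearMap.opNorm_le_bound _ (by positivity) fun v => ?_
  have hcont : ∀ x : ℂ, Continuous fun w => fderiv ℝ (ks s) (x - w) v := fun x =>
    (((ks_contDiff s).continuous_fderiv (by simp)).comp
      (continuous_const.sub continuous_id)).clm_apply continuous_const
  have hsupp : ∀ x : ℂ, HasCompactSupport fun w => fderiv ℝ (ks s) (x - w) v := fun x =>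
    HasCompactSupport.intro (isCompact_closedBall x (4 * s)) fun w hw => by
      rw [ks_fderiv_zero hs (by rw [mem_closedBall, not_le, dist_comm, dist_eq_norm] at hw
                                exact hw)]; rfl
  have hint : ∀ x : ℂ, Integrable fun w => fderiv ℝ (ks s) (x - w) v * h w := fun x =>
    ((hcont x).mul (hh.cont hα)).integrable_of_hasCompactSupport (hsupp x).mul_right
  have hint1 : ∀ x : ℂ, Integrable fun w => fderiv ℝ (ks s) (x - w) v := fun x =>
    (hcont x).integrable_of_hasCompactSupport (hsupp x)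
  rw [sub_apply, Tk_fderiv hs hLI, Tk_fderiv hs hLI, ← integral_sub (hint x) (hint y)]
  simp_rw [← sub_mul]
  have h1 := cancel_le (x := x) (a := KM / s ^ 3 * ‖x - y‖ * ‖v‖) (ρ := 5 * s) hα (by positivity)
    (by positivity) hh (A := fun w => fderiv ℝ (ks s) (x - w) v - fderiv ℝ (ks s) (y - w) v)
    ((hcont x).sub (hcont y)) ?_ ?_ ?_
  · refine h1.trans ?_
    have h4 : (5 * s) ^ α = 5 ^ α * s ^ α := Real.mul_rpow (by norm_num) hs.le
    have h5 : (5:ℝ) ^ α ≤ 5 := by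
      calc (5:ℝ) ^ α ≤ 5 ^ (1:ℝ) := Real.rpow_le_rpow_of_exponent_le (by norm_num) hα1
        _ = 5 := by simp
    rw [h4]
    calc KM / s ^ 3 * ‖x - y‖ * ‖v‖ * (H * (5 ^ α * s ^ α)) * (Real.pi * (5 * s) ^ 2)
        ≤ KM / s ^ 3 * ‖x - y‖ * ‖v‖ * (H * (5 * s ^ α)) * (Real.pi * (5 * s) ^ 2) := by gcongr
      _ = 125 * Real.pi * KM * H * (s ^ α / s) * ‖x - y‖ * ‖v‖ := by field_simp; ring
  · intro w hw
    have hw2 : 4 * s < ‖x - w‖ := by linarith
    have hw3 : 4 * s < ‖y - w‖ := by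
      have := norm_sub_norm_le (x - w) (x - y)
      have e : x - w - (x - y) = y - w := by ring
      rw [e] at this
      linarith
    rw [ks_fderiv_zero hs hw2, ks_fderiv_zero hs hw3]; simp
  · intro w
    rw [← sub_apply]
    refine (ContinuousLinearMap.le_opNorm _ _).trans ?_
    have h2 := norm_ks_fderiv_sub hs (x - w) (y - w)
    have e : x - w - (y - w) = x - y := by ring
    rw [e] at h2
    gcongr
  · rw [integral_sub (hint1 x) (hint1 y), ks_mean hs, ks_mean hs, sub_zero]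

theorem norm_Tk_le {s : ℝ} (hs : 0 < s) (hα : 0 < α) (hα1 : α ≤ 1) (hh : Hol α H h) (x : ℂ) :
    ‖Tk s h x‖ ≤ 32 * Real.pi * KM * H * s := by
  have hH := hh.nonneg
  have hK := KM_nonneg
  have hpi := Real.pi_pos
  have e1 : Tk s h x = ∫ w in closedBall x (4 * s), ks s (x - w) * h w := by
    unfold Tk
    rw [setIntegral_eq_integral_of_forall_compl_eq_zero]
    intro w hw
    rw [ks_zero hs (by rw [mem_closedBall, not_le, dist_comm, dist_eq_norm] at hw; exact hw.le),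
      zero_mul]
  rw [e1]
  have hv := vol_cb x (show 0 ≤ 4 * s by positivity)
  have := norm_setIntegral_le_of_norm_le_const (μ := volume) (s := closedBall x (4 * s))
    (f := fun w => ks s (x - w) * h w) (C := KM / s * (2 * H))
    (isCompact_closedBall x (4 * s)).measure_lt_top ?_
  · refine this.trans (le_of_eq ?_)
    rw [Measure.real, hv]
    field_simp
    ring
  · intro w hw
    rw [norm_mul]
    exact mul_le_mul (norm_ks hs _) (hh.bdd hα hα1 w) (norm_nonneg _) (by positivity)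

end

end Vale.Agent.P247.H324
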