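import Vale.Agent.P247.H324.MG.Dy

/-! The Cauchy transform of a Hölder function supported in the unit disc is `C^{1,α}`. -/

open MeasureTheory Set Metric Filter Topology
open scoped ContDiff ENNReal Convolution

set_option linter.unusedSectionVars false
set_option linter.unusedVariables false

noncomputable section

namespace Vale.Agent.P247.H324

open Vale.Agent.P272.CT

/-- the scales -/
def sj (j : ℕ) : ℝ := (1 / 2) ^ j

theorem sj_pos (j : ℕ) : 0 < sj j := by unfold sj; positivity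

theorem sj_rpow (j : ℕ) (α : ℝ) : sj j ^ α = ((1 / 2 : ℝ) ^ α) ^ j := by
  unfold sj
  rw [← Real.rpow_natCast, ← Real.rpow_natCast, ← Real.rpow_mul (by norm_num),
    ← Real.rpow_mul (by norm_num), mul_comm]

/-- the Cauchy transform -/
def Ca (h : ℂ → ℂ) (x : ℂ) : ℂ := ∑' j, Tk (sj j) h x

/-- its derivative -/
def Cd (h : ℂ → ℂ) (x : ℂ) : ℂ →L[ℝ] ℂ := ∑' j, fderiv ℝ (Tk (sj j) h) x

section

variable {α H : ℝ} {h : ℂ → ℂ}

theorem q_lt (hα : 0 < α) : (1 / 2 : ℝ) ^ α < 1 :=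
  Real.rpow_lt_one (by norm_num) (by norm_num) hα

theorem q_pos (α : ℝ) : 0 < (1 / 2 : ℝ) ^ α := Real.rpow_pos_of_pos (by norm_num) _

/-- first constant -/
def C0 (α : ℝ) : ℝ := 64 * Real.pi * KM * (1 - (1 / 2 : ℝ) ^ α)⁻¹

theorem C0_nonneg (hα : 0 < α) : 0 ≤ C0 α := by
  have := q_lt hα
  have h1 : 0 < (1 - (1 / 2 : ℝ) ^ α)⁻¹ := inv_pos.2 (by linarith)
  have := KM_nonneg
  have := Real.pi_pos
  unfold C0
  positivity

theorem summ_q (hα : 0 < α) : Summable fun j : ℕ => ((1 / 2 : ℝ) ^ α) ^ j :=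
  summable_geometric_of_lt_one (q_pos α).le (q_lt hα)

theorem bound_j (hα : 0 < α) (hα1 : α ≤ 1) (hh : Hol α H h) (j : ℕ) (x : ℂ) :
    ‖fderiv ℝ (Tk (sj j) h) x‖ ≤ 64 * Real.pi * KM * H * ((1 / 2 : ℝ) ^ α) ^ j := by
  have := norm_fderiv_Tk (sj_pos j) hα hα1 hh x
  rwa [sj_rpow] at this

theorem summ_Cd (hα : 0 < α) (hα1 : α ≤ 1) (hh : Hol α H h) (x : ℂ) :
    Summable fun j => fderiv ℝ (Tk (sj j) h) x :=
  Summable.of_norm_bounded ((summ_q hα).mul_left _) fun j => bound_j hα hα1 hh j x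

theorem norm_Cd_le (hα : 0 < α) (hα1 : α ≤ 1) (hh : Hol α H h) (x : ℂ) :
    ‖Cd h x‖ ≤ C0 α * H := by
  have h1 := tsum_of_norm_bounded (f := fun j => fderiv ℝ (Tk (sj j) h) x)
    ((hasSum_geometric_of_lt_one (q_pos α).le (q_lt hα)).mul_left (64 * Real.pi * KM * H))
    (fun j => bound_j hα hα1 hh j x)
  refine h1.trans (le_of_eq ?_)
  unfold C0; ring

theorem summ_Ca (hα : 0 < α) (hα1 : α ≤ 1) (hh : Hol α H h) (x : ℂ) :
    Summable fun j => Tk (sj j) h x := by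
  refine Summable.of_norm_bounded (g := fun j => 32 * Real.pi * KM * H * ((1/2:ℝ)) ^ j) ?_ ?_
  · exact (summable_geometric_of_lt_one (by norm_num) (by norm_num)).mul_left _
  · intro j
    have := norm_Tk_le (sj_pos j) hα hα1 hh x
    exact this

theorem norm_Ca_le (hα : 0 < α) (hα1 : α ≤ 1) (hh : Hol α H h) (x : ℂ) :
    ‖Ca h x‖ ≤ 64 * Real.pi * KM * H := by
  have h1 := tsum_of_norm_bounded (f := fun j => Tk (sj j) h x)
    ((hasSum_geometric_of_lt_one (r := (1/2:ℝ)) (by norm_num) (by norm_num)).mul_left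
      (32 * Real.pi * KM * H))
    (fun j => by
      have := norm_Tk_le (sj_pos j) hα hα1 hh x
      exact this)
  refine h1.trans (le_of_eq ?_)
  norm_num
  ring

theorem hasFDerivAt_Ca (hα : 0 < α) (hα1 : α ≤ 1) (hh : Hol α H h) (x : ℂ) :
    HasFDerivAt (Ca h) (Cd h x) x :=
  hasFDerivAt_tsum (u := fun j => 64 * Real.pi * KM * H * ((1 / 2 : ℝ) ^ α) ^ j)
    ((summ_q hα).mul_left _)
    (fun j y => hasFDerivAt_Tk (sj_pos j) (hh.integrable hα).locallyIntegrable y)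
    (fun j y => bound_j hα hα1 hh j y) (summ_Ca hα hα1 hh 0) x

/-- second constant -/
def C1 (α : ℝ) : ℝ :=
  125 * Real.pi * KM * ((1/2:ℝ) ^ (α - 1) / ((1/2:ℝ) ^ (α - 1) - 1)) * 2 +
    64 * Real.pi * KM * 2 * ((1 - (1 / 2 : ℝ) ^ α)⁻¹) * 2

theorem p_gt (hα1 : α < 1) : 1 < (1/2:ℝ) ^ (α - 1) :=
  Real.one_lt_rpow_of_pos_of_lt_one_of_neg (by norm_num) (by norm_num) (by linarith)

theorem C1_nonneg (hα : 0 < α) (hα1 : α < 1) : 0 ≤ C1 α := by
  have h0 := q_lt hα
  have h1 : 0 < (1 - (1 / 2 : ℝ) ^ α)⁻¹ := inv_pos.2 (by linarith)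
  have h2 := KM_nonneg
  have h3 := Real.pi_pos
  have h4 := p_gt hα1
  have h5 : 0 ≤ (1/2:ℝ) ^ (α - 1) / ((1/2:ℝ) ^ (α - 1) - 1) :=
    div_nonneg (by linarith) (by linarith)
  unfold C1
  positivity

theorem Cd_sub_le (hα : 0 < α) (hα1 : α < 1) (hh : Hol α H h) {x y : ℂ} (hxy : ‖x - y‖ ≤ 1) :
    ‖Cd h x - Cd h y‖ ≤ C1 α * H * ‖x - y‖ ^ α := by
  have hH := hh.nonneg
  have hK := KM_nonneg
  have hpi := Real.pi_pos
  rcases eq_or_ne x y with hxy0 | hne
  · subst hxy0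
    simp [Real.zero_rpow hα.ne']
  have hd : 0 < ‖x - y‖ := norm_pos_iff.2 (sub_ne_zero.2 hne)
  set d := ‖x - y‖ with hdd
  obtain ⟨J, hJ1, hJ2⟩ := exists_nat_pow_near_of_lt_one hd hxy (by norm_num : (0:ℝ) < 1/2)
    (by norm_num : (1/2:ℝ) < 1)
  set q : ℝ := (1/2:ℝ) ^ α with hq
  set p : ℝ := (1/2:ℝ) ^ (α - 1) with hp
  have hq0 : 0 < q := q_pos α
  have hq1 : q < 1 := q_lt hα
  have hp1 : 1 < p := p_gt hα1
  have hpq : p * (1/2) = q := by
    rw [hp, hq, Real.rpow_sub (by norm_num), Real.rpow_one]; field_simp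
  have hqJ : q ^ J ≤ 2 * d ^ α := by
    rw [hq, ← sj_rpow]
    have h1 : sj J ≤ 2 * d := by
      unfold sj
      rw [pow_succ] at hJ1
      linarith
    calc sj J ^ α ≤ (2 * d) ^ α := Real.rpow_le_rpow (sj_pos J).le h1 hα.le
      _ = 2 ^ α * d ^ α := Real.mul_rpow (by norm_num) hd.le
      _ ≤ 2 * d ^ α := by
        gcongr
        calc (2:ℝ) ^ α ≤ 2 ^ (1:ℝ) := Real.rpow_le_rpow_of_exponent_le (by norm_num) hα1.le
          _ = 2 := by simp
  set a : ℕ → ℂ →L[ℝ] ℂ := fun j => fderiv ℝ (Tk (sj j) h) x - fderiv ℝ (Tk (sj j) h) y with ha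
  have hsx := summ_Cd hα hα1.le hh x
  have hsy := summ_Cd hα hα1.le hh y
  have hsa : Summable a := hsx.sub hsy
  have e1 : Cd h x - Cd h y = ∑' j, a j := (hsx.tsum_sub hsy).symm
  rw [e1, ← hsa.sum_add_tsum_nat_add (J + 1)]
  have b1 : ∀ j ∈ Finset.range (J + 1), ‖a j‖ ≤ 125 * Real.pi * KM * H * d * p ^ j := by
    intro j hj
    have hj' : j ≤ J := Nat.lt_succ_iff.1 (Finset.mem_range.1 hj)
    have hds : d ≤ sj j := by
      refine hJ2.trans ?_
      unfold sj
      exact pow_le_pow_of_le_one (by norm_num) (by norm_num) hj'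
    have h1 := norm_fderiv_Tk_sub (sj_pos j) hα hα1.le hh (x := x) (y := y) hds
    refine h1.trans (le_of_eq ?_)
    have h2 : sj j ^ α / sj j = p ^ j := by
      rw [hp, ← sj_rpow, Real.rpow_sub (sj_pos j), Real.rpow_one]
    rw [h2]; ring
  have b2 : ∀ j, ‖a (j + (J + 1))‖ ≤ 64 * Real.pi * KM * H * 2 * q ^ (J + 1) * q ^ j := by
    intro j
    have h1 := bound_j hα hα1.le hh (j + (J + 1)) x
    have h2 := bound_j hα hα1.le hh (j + (J + 1)) y
    refine (norm_sub_le _ _).trans ((add_le_add h1 h2).trans (le_of_eq ?_))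
    rw [← hq, pow_add]; ring
  have c1 : ‖∑ j ∈ Finset.range (J + 1), a j‖ ≤ 125 * Real.pi * KM * H * (p / (p - 1)) * (2 * d ^ α) := by
    calc ‖∑ j ∈ Finset.range (J + 1), a j‖ ≤ ∑ j ∈ Finset.range (J + 1), ‖a j‖ := norm_sum_le _ _
      _ ≤ ∑ j ∈ Finset.range (J + 1), 125 * Real.pi * KM * H * d * p ^ j := Finset.sum_le_sum b1
      _ = 125 * Real.pi * KM * H * d * ((p ^ (J + 1) - 1) / (p - 1)) := by
          rw [← Finset.mul_sum, geom_sum_eq hp1.ne']
      _ ≤ 125 * Real.pi * KM * H * (1/2) ^ J * (p ^ (J + 1) / (p - 1)) := by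
          have : 0 < p - 1 := by linarith
          gcongr
          · exact div_nonneg (by
              have := one_le_pow₀ (n := J + 1) hp1.le
              linarith) this.le
          · linarith
      _ = 125 * Real.pi * KM * H * (p / (p - 1)) * q ^ J := by
          rw [← hpq, mul_pow, pow_succ]; ring
      _ ≤ 125 * Real.pi * KM * H * (p / (p - 1)) * (2 * d ^ α) := by
          have : 0 < p - 1 := by linarith
          gcongr
  have c2 : ‖∑' j, a (j + (J + 1))‖ ≤ 64 * Real.pi * KM * H * 2 * (1 - q)⁻¹ * (2 * d ^ α) := by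
    have h1 := tsum_of_norm_bounded (f := fun j => a (j + (J + 1)))
      ((hasSum_geometric_of_lt_one hq0.le hq1).mul_left (64 * Real.pi * KM * H * 2 * q ^ (J + 1))) b2
    refine h1.trans ?_
    have h2 : q ^ (J + 1) ≤ 2 * d ^ α := by
      refine le_trans ?_ hqJ
      exact pow_le_pow_of_le_one hq0.le hq1.le (Nat.le_succ J)
    have h3 : 0 < (1 - q)⁻¹ := inv_pos.2 (by linarith)
    calc 64 * Real.pi * KM * H * 2 * q ^ (J + 1) * (1 - q)⁻¹
        ≤ 64 * Real.pi * KM * H * 2 * (2 * d ^ α) * (1 - q)⁻¹ := by gcongr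
      _ = _ := by ring
  refine (norm_add_le _ _).trans ((add_le_add c1 c2).trans (le_of_eq ?_))
  unfold C1; rw [← hq, ← hp]; ring

/-- third constant -/
def C2 (α : ℝ) : ℝ := C1 α + 2 * C0 α

theorem C2_nonneg (hα : 0 < α) (hα1 : α < 1) : 0 ≤ C2 α := by
  have := C0_nonneg hα
  have := C1_nonneg hα hα1
  unfold C2; positivity

theorem Cd_holder (hα : 0 < α) (hα1 : α < 1) (hh : Hol α H h) (x y : ℂ) :
    ‖Cd h x - Cd h y‖ ≤ C2 α * H * ‖x - y‖ ^ α := by
  have hH := hh.nonneg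
  have h0 := C0_nonneg hα
  have h1 := C1_nonneg hα hα1
  by_cases hxy : ‖x - y‖ ≤ 1
  · refine (Cd_sub_le hα hα1 hh hxy).trans ?_
    gcongr
    unfold C2; linarith
  · push Not at hxy
    have h2 : 1 ≤ ‖x - y‖ ^ α := Real.one_le_rpow hxy.le hα.le
    calc ‖Cd h x - Cd h y‖ ≤ C0 α * H + C0 α * H :=
          (norm_sub_le _ _).trans (add_le_add (norm_Cd_le hα hα1.le hh x) (norm_Cd_le hα hα1.le hh y))
      _ = 2 * C0 α * H * 1 := by ring
      _ ≤ C2 α * H * ‖x - y‖ ^ α := by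
          have h3 : 2 * C0 α ≤ C2 α := by unfold C2; linarith
          exact mul_le_mul (mul_le_mul_of_nonneg_right h3 hH) h2 (by norm_num)
            (mul_nonneg (C2_nonneg hα hα1) hH)

theorem Cd_cont (hα : 0 < α) (hα1 : α < 1) (hh : Hol α H h) : Continuous (Cd h) := by
  rw [continuous_iff_continuousAt]
  intro x
  rw [ContinuousAt, tendsto_iff_norm_sub_tendsto_zero]
  have h1 : Tendsto (fun y => C2 α * H * ‖y - x‖ ^ α) (𝓝 x) (𝓝 0) := by
    have h2 : Tendsto (fun y : ℂ => ‖y - x‖) (𝓝 x) (𝓝 0) := by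
      have : Tendsto (fun y : ℂ => ‖y - x‖) (𝓝 x) (𝓝 ‖x - x‖) :=
        (continuous_id.sub continuous_const).norm.tendsto x
      simpa using this
    have h3 := (h2.rpow_const (p := α) (Or.inr hα.le)).const_mul (C2 α * H)
    rwa [Real.zero_rpow hα.ne', mul_zero] at h3
  exact squeeze_zero (fun y => norm_nonneg _) (fun y => Cd_holder hα hα1 hh y x) h1

theorem fderiv_Ca (hα : 0 < α) (hα1 : α < 1) (hh : Hol α H h) : fderiv ℝ (Ca h) = Cd h :=
  funext fun x => (hasFDerivAt_Ca hα hα1.le hh x).fderiv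

theorem Ca_contDiff (hα : 0 < α) (hα1 : α < 1) (hh : Hol α H h) : ContDiff ℝ 1 (Ca h) := by
  rw [contDiff_one_iff_fderiv]
  refine ⟨fun x => (hasFDerivAt_Ca hα hα1.le hh x).differentiableAt, ?_⟩
  rw [fderiv_Ca hα hα1 hh]
  exact Cd_cont hα hα1 hh

theorem Tk_add {s : ℝ} (hs : 0 < s) (hα : 0 < α) {H' : ℝ} {h' : ℂ → ℂ} (hh : Hol α H h)
    (hh' : Hol α H' h') (x : ℂ) : Tk s (fun x => h x + h' x) x = Tk s h x + Tk s h' x := by
  have hc : Continuous fun w => ks s (x - w) :=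
    (ks_contDiff s).continuous.comp (continuous_const.sub continuous_id)
  unfold Tk
  rw [← integral_add]
  · simp only [mul_add]
  · exact (hc.mul (hh.cont hα)).integrable_of_hasCompactSupport hh.compact.mul_left
  · exact (hc.mul (hh'.cont hα)).integrable_of_hasCompactSupport hh'.compact.mul_left

theorem Cd_add (hα : 0 < α) (hα1 : α ≤ 1) {H' : ℝ} {h' : ℂ → ℂ} (hh : Hol α H h)
    (hh' : Hol α H' h') (x : ℂ) : Cd (fun x => h x + h' x) x = Cd h x + Cd h' x := by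
  unfold Cd
  rw [← (summ_Cd hα hα1 hh x).tsum_add (summ_Cd hα hα1 hh' x)]
  congr 1
  ext1 j
  have e : Tk (sj j) (fun x => h x + h' x) = fun x => Tk (sj j) h x + Tk (sj j) h' x :=
    funext fun x => Tk_add (sj_pos j) hα hh hh' x
  rw [e]
  exact ((hasFDerivAt_Tk (sj_pos j) (hh.integrable hα).locallyIntegrable x).add
    (hasFDerivAt_Tk (sj_pos j) (hh'.integrable hα).locallyIntegrable x)).fderiv

/-- the sum over the scales is the Cauchy transform -/
theorem sum_ks (n : ℕ) (w : ℂ) : ∑ j ∈ Finset.range n, ks (sj j) w =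
    ((cbu w - cbu (((2:ℝ) ^ n) • w) : ℝ) : ℂ) * ((Real.pi : ℝ) * w)⁻¹ := by
  induction n with
  | zero => simp
  | succ n ih =>
      rw [Finset.sum_range_succ, ih]
      have e : ks (sj n) w = ((cbu (((2:ℝ) ^ n) • w) - cbu (((2:ℝ) ^ (n + 1)) • w) : ℝ) : ℂ) *
          ((Real.pi : ℝ) * w)⁻¹ := by
        have hs : (sj n)⁻¹ = 2 ^ n := by unfold sj; simp
        unfold ks k0
        rw [hs, smul_smul, ← pow_succ']
        rcases eq_or_ne w 0 with hw | hw
        · subst hw; simp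
        · have h2 : (2:ℂ) ^ n ≠ 0 := pow_ne_zero _ (by norm_num)
          have hpi : ((Real.pi:ℝ):ℂ) ≠ 0 := by exact_mod_cast Real.pi_ne_zero
          rw [Complex.real_smul, Complex.real_smul]
          push_cast
          field_simp
      rw [e, ← add_mul]
      congr 1
      push_cast
      ring

theorem Ca_eq_cauT (hα : 0 < α) (hα1 : α ≤ 1) (hh : Hol α H h) {x : ℂ} (hx : ‖x‖ < 1) :
    Ca h x = cauT h x := by
  have hpi : ((Real.pi:ℝ):ℂ) ≠ 0 := by exact_mod_cast Real.pi_ne_zero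
  have hWB : WB 0 (2 * H) h := by
    refine WB.of_bdd le_rfl (hh.cont hα).aestronglyMeasurable fun w _ => hh.bdd hα hα1 w
  have hI := hWB.integrableOn_ker le_rfl one_pos x
  have h1 : Tendsto (fun n => ∑ j ∈ Finset.range n, Tk (sj j) h x) atTop (𝓝 (Ca h x)) :=
    (summ_Ca hα hα1 hh x).hasSum.tendsto_sum_nat
  have e1 : ∀ n, ∑ j ∈ Finset.range n, Tk (sj j) h x =
      ∫ w in ball (0:ℂ) 1, ((1 - cbu (((2:ℝ) ^ n) • (x - w)) : ℝ) : ℂ) * ((Real.pi:ℂ)⁻¹ *
        ((x - w)⁻¹ • h w)) := by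
    intro n
    have i1 : ∀ j ∈ Finset.range n, Integrable fun w => ks (sj j) (x - w) * h w := fun j _ =>
      (((ks_contDiff _).continuous.comp (continuous_const.sub continuous_id)).mul
        (hh.cont hα)).integrable_of_hasCompactSupport hh.compact.mul_left
    calc ∑ j ∈ Finset.range n, Tk (sj j) h x
        = ∫ w, ∑ j ∈ Finset.range n, ks (sj j) (x - w) * h w := (integral_finsetSum _ i1).symm
      _ = ∫ w in ball (0:ℂ) 1, ∑ j ∈ Finset.range n, ks (sj j) (x - w) * h w := by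
          rw [setIntegral_eq_integral_of_forall_compl_eq_zero]
          intro w hw
          rw [mem_ball_zero_iff, not_lt] at hw
          refine Finset.sum_eq_zero fun j _ => ?_
          rw [hh.supp w hw, mul_zero]
      _ = _ := by
          refine setIntegral_congr_fun measurableSet_ball fun w hw => ?_
          have hw' : ‖w‖ < 1 := by simpa using hw
          have h2 : cbu (x - w) = 1 := cbu_one (by
            have := norm_sub_le x w
            linarith)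
          rw [← Finset.sum_mul, sum_ks, h2, mul_inv, smul_eq_mul]
          ring
  have h2 : Tendsto (fun n : ℕ => ∫ w in ball (0:ℂ) 1,
      ((1 - cbu (((2:ℝ) ^ n) • (x - w)) : ℝ) : ℂ) * ((Real.pi:ℂ)⁻¹ * ((x - w)⁻¹ • h w)))
      atTop (𝓝 (∫ w in ball (0:ℂ) 1, (Real.pi:ℂ)⁻¹ * ((x - w)⁻¹ • h w))) := by
    refine tendsto_integral_of_dominated_convergence
      (fun w => ‖(Real.pi:ℂ)⁻¹ * ((x - w)⁻¹ • h w)‖) ?_ (hI.const_mul _).norm ?_ ?_
    · intro n
      refine AEStronglyMeasurable.mul ?_ (hI.const_mul _).aestronglyMeasurable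
      refine Continuous.aestronglyMeasurable ?_
      refine Complex.continuous_ofReal.comp (continuous_const.sub (cbu.continuous.comp ?_))
      fun_prop
    · intro n
      refine Eventually.of_forall fun w => ?_
      rw [norm_mul]
      have h3 : ‖((1 - cbu (((2:ℝ) ^ n) • (x - w)) : ℝ) : ℂ)‖ ≤ 1 := by
        rw [Complex.norm_real, Real.norm_eq_abs, abs_le]
        have a1 := cbu.nonneg (x := ((2:ℝ) ^ n) • (x - w))
        have a2 := cbu.le_one (x := ((2:ℝ) ^ n) • (x - w))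
        constructor <;> linarith
      exact mul_le_of_le_one_left (norm_nonneg _) h3
    · have hne : ∀ᵐ w : ℂ ∂(volume.restrict (ball (0 : ℂ) 1)), w ≠ x := by
        refine ae_restrict_of_ae ?_
        rw [ae_iff]; simp
      filter_upwards [hne] with w hw
      have hxw : 0 < ‖x - w‖ := norm_pos_iff.2 (sub_ne_zero.2 (Ne.symm hw))
      have h3 : ∀ᶠ n : ℕ in atTop, 4 ≤ (2:ℝ) ^ n * ‖x - w‖ :=
        ((tendsto_pow_atTop_atTop_of_one_lt (by norm_num : (1:ℝ) < 2)).atTop_mul_const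
          hxw).eventually_ge_atTop 4
      refine Tendsto.congr' (f₁ := fun _ => (Real.pi:ℂ)⁻¹ * ((x - w)⁻¹ • h w)) ?_ tendsto_const_nhds
      filter_upwards [h3] with n hn
      rw [cbu_zero]
      · simp
      · rw [norm_smul, norm_pow, Real.norm_of_nonneg (by norm_num)]; exact hn
  have h3 : Tendsto (fun n => ∑ j ∈ Finset.range n, Tk (sj j) h x) atTop
      (𝓝 (∫ w in ball (0:ℂ) 1, (Real.pi:ℂ)⁻¹ * ((x - w)⁻¹ • h w))) := by
    refine Tendsto.congr (fun n => (e1 n).symm) h2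
  rw [tendsto_nhds_unique h1 h3, cauT, integral_const_mul]
  rfl

/-- the equation -/
theorem dbar_Ca (hα : 0 < α) (hα1 : α < 1) (hh : Hol α H h) {x : ℂ} (hx : ‖x‖ < 1) :
    (1 / 2 : ℂ) * (Cd h x 1 + Complex.I * Cd h x Complex.I) = h x := by
  have h1 : WDb (ball 0 1) (Ca h) h :=
    (wdb_cauT (hh.integrable hα).integrableOn).congr
      (fun z hz => (Ca_eq_cauT hα hα1.le hh (by simpa using hz)).symm) (fun _ _ => rfl)
  have h2 := h1.dbarV_eq isOpen_ball (Ca_contDiff hα hα1 hh).contDiffOn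
    (hh.cont hα).continuousOn (show x ∈ ball (0:ℂ) 1 by simpa using hx)
  rw [← h2, dbarV, fderiv_Ca hα hα1 hh]
  simp

end

end Vale.Agent.P247.H324
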