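import Vale.Agent.P247.H324.MG.Pow

/-! Hölder continuity from Morrey bounds; limits of roots on the punctured disc. -/

open MeasureTheory Set Metric Filter Topology
open scoped ContDiff ENNReal NNReal

set_option linter.unusedSectionVars false
set_option linter.unusedVariables false

noncomputable section

namespace Vale.Agent.P247.H324

open Vale.Agent.P272.CT

variable {E : Type*} [NormedAddCommGroup E] [NormedSpace ℂ E]

theorem isOpen_pb (r : ℝ) : IsOpen (pb r) := isOpen_ball.sdiff isClosed_singleton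

theorem mem_pb {r : ℝ} {z : ℂ} : z ∈ pb r ↔ ‖z‖ < r ∧ z ≠ 0 := by
  unfold pb
  rw [Set.mem_sdiff, mem_ball_zero_iff]
  rfl

theorem pb_mono {r r' : ℝ} (h : r ≤ r') : pb r ⊆ pb r' := fun z hz => by
  rw [mem_pb] at hz ⊢
  exact ⟨hz.1.trans_le h, hz.2⟩

theorem restrict_pb (r : ℝ) : (volume : Measure ℂ).restrict (pb r) = volume.restrict (ball 0 r) := by
  refine Measure.restrict_congr_set ?_
  refine sdiff_null_ae_eq_self ?_
  simp

theorem pb_nhds {r : ℝ} (hr : 0 < r) : pb r ∈ 𝓝[≠] (0:ℂ) := by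
  filter_upwards [self_mem_nhdsWithin, mem_nhdsWithin_of_mem_nhds (ball_mem_nhds (0:ℂ) hr)]
    with z h1 h2
  exact mem_pb.2 ⟨by simpa using h2, h1⟩

theorem WG.aesm {F : Type*} [NormedAddCommGroup F] [NormedSpace ℝ F] {U : Set ℂ} {f : ℂ → F}
    {f' : ℂ → ℂ →L[ℝ] F} (h : WG U f f') (hU : IsOpen U) :
    AEStronglyMeasurable f' (volume.restrict U) := by
  have h2 : LocallyIntegrableOn f' U := by
    rw [locallyIntegrableOn_iff hU.isLocallyClosed]
    exact fun k hk hk2 => h.int k hk2 hk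
  exact h2.aestronglyMeasurable

theorem WG.aesm_pzb {U : Set ℂ} {f : ℂ → E} {f' : ℂ → ℂ →L[ℝ] E} (h : WG U f f') (hU : IsOpen U) :
    AEStronglyMeasurable (fun z => pzb (f' z)) (volume.restrict U) := by
  have h3 := h.aesm hU
  have h4 : ∀ v : ℂ, AEStronglyMeasurable (fun z => f' z v) (volume.restrict U) := fun v =>
    (ContinuousLinearMap.apply ℝ E v).continuous.comp_aestronglyMeasurable h3
  exact ((h4 1).add ((h4 Complex.I).const_smul Complex.I)).const_smul _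

/-- holomorphic functions are Lipschitz inside -/
theorem holo_lip2 [CompleteSpace E] {H : ℂ → E} (hH : DifferentiableOn ℂ H (ball 0 1)) :
    ∃ K1 : ℝ, 0 ≤ K1 ∧ ∀ z ∈ ball (0:ℂ) (1/2), ∀ z' ∈ ball (0:ℂ) (1/2), ‖H z - H z'‖ ≤ K1 * ‖z - z'‖ := by
  have hc : ContinuousOn (fun z => ‖deriv H z‖) (closedBall (0:ℂ) (1/2)) := by
    have h1 : DifferentiableOn ℂ (deriv H) (ball 0 1) := hH.deriv isOpen_ball
    exact (h1.continuousOn.mono (closedBall_subset_ball (by norm_num))).norm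
  obtain ⟨K, hK⟩ := (isCompact_closedBall (0:ℂ) (1/2)).bddAbove_image hc
  refine ⟨max K 0, le_max_right _ _, fun z hz z' hz' => ?_⟩
  refine (convex_ball (0:ℂ) (1/2)).norm_image_sub_le_of_norm_deriv_le (f := H) (C := max K 0)
    (fun x hx => ?_) (fun x hx => ?_) hz' hz
  · exact (hH x (ball_subset_ball (by norm_num) hx)).differentiableAt
      (isOpen_ball.mem_nhds (ball_subset_ball (by norm_num) hx))
  · exact (hK ⟨x, ball_subset_closedBall hx, rfl⟩).trans (le_max_left _ _)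

/-- Hölder continuity from a Morrey bound on the weak `∂̄` derivative, across a puncture -/
theorem wdb_holder [CompleteSpace E] {f q : ℂ → E} {G : ℂ → ℝ≥0∞} {r K ε B h : ℝ} (hr : 0 < r)
    (hε : 0 < ε) (hK : 0 ≤ K) (hh : 0 < h) (hh1 : h ≤ 1) (hhε : h < ε)
    (hG : AEMeasurable G (volume.restrict (ball 0 r)))
    (hM : ∀ x ρ, 0 < ρ → ∫⁻ w in ball x ρ ∩ ball 0 r, G w ≤ ENNReal.ofReal (K * ρ ^ (1 + ε)))
    (hf : ContinuousOn f (pb r)) (hb : ∀ z ∈ pb r, ‖f z‖ ≤ B)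
    (hqm : AEStronglyMeasurable q (volume.restrict (ball 0 r)))
    (hq : ∀ᵐ w ∂(volume.restrict (ball 0 r)), ‖q w‖ₑ ≤ G w) (hw : WDb (pb r) f q) :
    ∃ C v0, 0 ≤ C ∧ (∀ z ∈ pb (r / 2), ∀ z' ∈ pb (r / 2), ‖f z - f z'‖ ≤ C * ‖z - z'‖ ^ h) ∧
      ∀ z ∈ pb (r / 2), ‖f z - v0‖ ≤ C * ‖z‖ ^ h := by
  have hpi := Real.pi_pos
  have hrc : (r:ℂ) ≠ 0 := by exact_mod_cast hr.ne'
  have hmaps1 : MapsTo (sc 0 r) (ball 0 1) (ball 0 r) := by
    intro z hz
    rw [sc_eq, zero_add, mem_ball_zero_iff, norm_mul, Complex.norm_real, Real.norm_of_nonneg hr.le]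
    rw [mem_ball_zero_iff] at hz
    nlinarith
  have hmaps2 : MapsTo (sc 0 r) pd (pb r) := by
    intro z hz
    refine mem_pb.2 ⟨by simpa using hmaps1 hz.1, ?_⟩
    rw [sc_eq, zero_add]
    exact mul_ne_zero hrc hz.2
  have hquasi : Measure.QuasiMeasurePreserving (sc 0 r) (volume.restrict (ball 0 1))
      (volume.restrict (ball 0 r)) := (sc_quasi 0 hr).restrict hmaps1
  set f1 : ℂ → E := fun z => f (sc 0 r z) with hf1
  set q1 : ℂ → E := fun z => (r:ℂ) • q (sc 0 r z) with hq1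
  set G1 : ℂ → ℝ≥0∞ := fun z => ENNReal.ofReal r * G (sc 0 r z) with hG1
  have hcont : Continuous (sc 0 r) := by unfold sc; fun_prop
  have hmor : Mor (K * r ^ ε) ε G1 := by
    refine ⟨(hG.comp_quasiMeasurePreserving hquasi).const_mul _, by positivity, fun x ρ hρ => ?_⟩
    rw [lintegral_const_mul' _ _ ENNReal.ofReal_ne_top,
      sc_lintegral 0 hr (measurableSet_ball.inter measurableSet_ball) G]
    have himg : sc 0 r '' (ball x ρ ∩ ball 0 1) ⊆ ball (sc 0 r x) (r * ρ) ∩ ball 0 r := by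
      rintro _ ⟨z, ⟨hz1, hz2⟩, rfl⟩
      refine ⟨?_, hmaps1 hz2⟩
      rw [← sc_image_ball 0 x hr ρ]
      exact mem_image_of_mem _ hz1
    calc ENNReal.ofReal r * (ENNReal.ofReal ((r ^ 2)⁻¹) *
          ∫⁻ w in sc 0 r '' (ball x ρ ∩ ball 0 1), G w)
        ≤ ENNReal.ofReal r * (ENNReal.ofReal ((r ^ 2)⁻¹) *
          ENNReal.ofReal (K * (r * ρ) ^ (1 + ε))) := by
          gcongr
          exact (lintegral_mono_set himg).trans (hM _ _ (by positivity))
      _ = ENNReal.ofReal (K * r ^ ε * ρ ^ (1 + ε)) := by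
          rw [← ENNReal.ofReal_mul (by positivity), ← ENNReal.ofReal_mul (by positivity)]
          congr 1
          rw [Real.mul_rpow hr.le hρ.le, Real.rpow_add hr, Real.rpow_one]
          field_simp
  have hdom : Dom G1 1 0 q1 := by
    refine ⟨(hqm.comp_quasiMeasurePreserving hquasi).const_smul (r:ℂ), ?_⟩
    filter_upwards [hquasi.ae hq] with z hz
    simp only [hq1, hG1]
    rw [enorm_smul, Real.rpow_zero, mul_one, ENNReal.ofReal_one, mul_one]
    have : ‖(r:ℂ)‖ₑ = ENNReal.ofReal r := by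
      rw [← ofReal_norm, Complex.norm_real, Real.norm_of_nonneg hr.le]
    rw [this]
    gcongr
  obtain ⟨Hf, hHf, hdec⟩ := wdecomp (v := f1) (F := q1) (B := B) hmor hε zero_le_one hdom
    (hf.comp hcont.continuousOn hmaps2) (fun z hz => hb _ (hmaps2 hz)) (WDb.scale hr hw hmaps2)
  obtain ⟨K1, hK1, hlip⟩ := holo_lip2 hHf
  have hhol := fun x y => hdom.cauT_holder zero_le_one hmor hε hh.le hh1 hhε x y
  set C2 : ℝ := 4 * (1 * (K * r ^ ε * kc (1 + h) ε)) / Real.pi with hC2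
  have hkc := kc_pos (β := 1 + h) (ε := ε) (by linarith)
  have hC20 : 0 ≤ C2 := by positivity
  have key : ∀ a ∈ ball (0:ℂ) (1/2), ∀ b ∈ ball (0:ℂ) (1/2),
      ‖(Hf a + cauT q1 a) - (Hf b + cauT q1 b)‖ ≤ (K1 + C2) * ‖a - b‖ ^ h := by
    intro a ha b hb'
    have h1 : ‖a - b‖ ≤ ‖a - b‖ ^ h := by
      have h2 : ‖a - b‖ ≤ 1 := by
        rw [mem_ball_zero_iff] at ha hb'
        exact (norm_sub_le _ _).trans (by linarith)
      rcases eq_or_ne ‖a - b‖ 0 with h0 | h0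
      · rw [h0]; exact Real.rpow_nonneg le_rfl _
      · calc ‖a - b‖ = ‖a - b‖ ^ (1:ℝ) := (Real.rpow_one _).symm
          _ ≤ ‖a - b‖ ^ h := Real.rpow_le_rpow_of_exponent_ge
            (lt_of_le_of_ne (norm_nonneg _) (Ne.symm h0)) h2 hh1
    calc ‖(Hf a + cauT q1 a) - (Hf b + cauT q1 b)‖
        = ‖(Hf a - Hf b) + (cauT q1 a - cauT q1 b)‖ := by congr 1; abel
      _ ≤ K1 * ‖a - b‖ + C2 * ‖a - b‖ ^ h :=
          (norm_add_le _ _).trans (add_le_add (hlip a ha b hb') (hhol a b))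
      _ ≤ K1 * ‖a - b‖ ^ h + C2 * ‖a - b‖ ^ h := by gcongr
      _ = _ := by ring
  have hback : ∀ z ∈ pb (r / 2), (r:ℂ)⁻¹ * z ∈ ball (0:ℂ) (1/2) ∧
      f z = Hf ((r:ℂ)⁻¹ * z) + cauT q1 ((r:ℂ)⁻¹ * z) := by
    intro z hz
    rw [mem_pb] at hz
    have h1 : ‖(r:ℂ)⁻¹ * z‖ < 1/2 := by
      rw [norm_mul, norm_inv, Complex.norm_real, Real.norm_of_nonneg hr.le, inv_mul_lt_iff₀ hr]
      linarith
    have h2 : (r:ℂ)⁻¹ * z ∈ pd := ⟨by rw [mem_ball_zero_iff]; linarith, by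
      simpa [hrc] using hz.2⟩
    refine ⟨by simpa using h1, ?_⟩
    rw [← hdec _ h2, hf1]
    simp only [sc_eq, zero_add]
    rw [mul_inv_cancel_left₀ hrc]
  have hsc : ∀ z : ℂ, ‖(r:ℂ)⁻¹ * z‖ ^ h = (r⁻¹) ^ h * ‖z‖ ^ h := by
    intro z
    rw [norm_mul, norm_inv, Complex.norm_real, Real.norm_of_nonneg hr.le,
      Real.mul_rpow (by positivity) (norm_nonneg _)]
  refine ⟨(K1 + C2) * (r⁻¹) ^ h, Hf 0 + cauT q1 0, by positivity, fun z hz z' hz' => ?_,
    fun z hz => ?_⟩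
  · obtain ⟨a1, a2⟩ := hback z hz
    obtain ⟨b1, b2⟩ := hback z' hz'
    rw [a2, b2]
    refine (key _ a1 _ b1).trans (le_of_eq ?_)
    rw [← mul_sub, hsc]; ring
  · obtain ⟨a1, a2⟩ := hback z hz
    rw [a2]
    refine (key _ a1 0 (by simp)).trans (le_of_eq ?_)
    rw [sub_zero, hsc]; ring

/-- version for weak gradients -/
theorem wg_holder [CompleteSpace E] {f : ℂ → E} {f' : ℂ → ℂ →L[ℝ] E} {G : ℂ → ℝ≥0∞}
    {r K ε B h : ℝ} (hr : 0 < r)
    (hε : 0 < ε) (hK : 0 ≤ K) (hh : 0 < h) (hh1 : h ≤ 1) (hhε : h < ε)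
    (hG : AEMeasurable G (volume.restrict (ball 0 r)))
    (hM : ∀ x ρ, 0 < ρ → ∫⁻ w in ball x ρ ∩ ball 0 r, G w ≤ ENNReal.ofReal (K * ρ ^ (1 + ε)))
    (hf : ContinuousOn f (pb r)) (hb : ∀ z ∈ pb r, ‖f z‖ ≤ B) (hw : WG (pb r) f f')
    (hd : ∀ᵐ w ∂(volume.restrict (ball 0 r)), ‖f' w‖ₑ ≤ G w) :
    ∃ C v0, 0 ≤ C ∧ (∀ z ∈ pb (r / 2), ∀ z' ∈ pb (r / 2), ‖f z - f z'‖ ≤ C * ‖z - z'‖ ^ h) ∧
      ∀ z ∈ pb (r / 2), ‖f z - v0‖ ≤ C * ‖z‖ ^ h := by
  have hm := hw.aesm_pzb (isOpen_pb r)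
  rw [restrict_pb] at hm
  refine wdb_holder hr hε hK hh hh1 hhε hG hM hf hb hm ?_ hw.toWDb
  filter_upwards [hd] with w hw2
  refine le_trans ?_ hw2
  rw [← ofReal_norm, ← ofReal_norm]
  exact ENNReal.ofReal_le_ofReal (norm_pzb_le _)

/-- the punctured disc is preconnected -/
theorem pb_preconnected {r : ℝ} : IsPreconnected (pb r) := by
  rcases le_or_gt r 0 with hr | hr
  · have : pb r = ∅ := by
      ext z; rw [mem_pb]; simp only [mem_empty_iff_false, iff_false, not_and]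
      intro h; exact absurd (norm_nonneg z) (by linarith)
    rw [this]; exact isPreconnected_empty
  -- image of a connected set under the exponential
  have h1 : pb r = Complex.exp '' {w : ℂ | w.re < Real.log r} := by
    ext z
    rw [mem_pb]
    constructor
    · rintro ⟨hz1, hz2⟩
      refine ⟨Complex.log z, ?_, Complex.exp_log hz2⟩
      show (Complex.log z).re < Real.log r
      rw [Complex.log_re]
      exact Real.log_lt_log (norm_pos_iff.2 hz2) hz1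
    · rintro ⟨w, hw, rfl⟩
      have hw' : w.re < Real.log r := hw
      refine ⟨?_, Complex.exp_ne_zero w⟩
      rw [Complex.norm_exp]
      calc Real.exp w.re < Real.exp (Real.log r) := Real.exp_lt_exp.2 hw'
        _ = r := Real.exp_log hr
  rw [h1]
  have hconv : Convex ℝ {w : ℂ | w.re < Real.log r} := by
    have : {w : ℂ | w.re < Real.log r} = Complex.reLm ⁻¹' (Iio (Real.log r)) := rfl
    rw [this]
    exact (convex_Iio (Real.log r)).linear_preimage Complex.reLm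
  exact hconv.isPreconnected.image _ Complex.continuous_exp.continuousOn

/-- limits of roots -/
theorem root_lim {f : ℂ → ℂ} {r : ℝ} (hr : 0 < r) (hf : ContinuousOn f (pb r)) {n : ℕ} (hn : 1 ≤ n)
    {a : ℂ} (hlim : Tendsto (fun z => f z ^ n) (𝓝[≠] 0) (𝓝 a)) :
    ∃ c, c ^ n = a ∧ Tendsto f (𝓝[≠] 0) (𝓝 c) := by
  classical
  set Z : Finset ℂ := (Polynomial.X ^ n - Polynomial.C a : Polynomial ℂ).roots.toFinset with hZ
  have hmem : ∀ c : ℂ, c ^ n = a → c ∈ Z := by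
    intro c hc
    rw [hZ, Multiset.mem_toFinset, Polynomial.mem_roots (Polynomial.X_pow_sub_C_ne_zero (by omega) a)]
    simp [Polynomial.IsRoot, hc]
  -- separation
  obtain ⟨η, hη, hsep⟩ : ∃ η > 0, ∀ c ∈ Z, ∀ d ∈ Z, c ≠ d → 2 * η < ‖c - d‖ := by
    have h1 : ∀ p ∈ (Z ×ˢ Z).filter (fun p => p.1 ≠ p.2), 0 < ‖p.1 - p.2‖ := fun p hp => by
      exact norm_pos_iff.2 (sub_ne_zero.2 (Finset.mem_filter.1 hp).2)
    rcases ((Z ×ˢ Z).filter (fun p => p.1 ≠ p.2)).eq_empty_or_nonempty with he | hne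
    · refine ⟨1, one_pos, fun c hc d hd hcd => ?_⟩
      have : (c, d) ∈ (Z ×ˢ Z).filter (fun p => p.1 ≠ p.2) :=
        Finset.mem_filter.2 ⟨Finset.mk_mem_product hc hd, hcd⟩
      rw [he] at this
      exact absurd this (Finset.notMem_empty _)
    · obtain ⟨p, hp, hmin⟩ := Finset.exists_min_image _ (fun p : ℂ × ℂ => ‖p.1 - p.2‖) hne
      refine ⟨‖p.1 - p.2‖ / 3, by have := h1 p hp; positivity, fun c hc d hd hcd => ?_⟩
      have h2 := hmin (c, d) (Finset.mem_filter.2 ⟨Finset.mk_mem_product hc hd, hcd⟩)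
      have h3 := h1 p hp
      simp only at h2
      linarith
  have hev : ∀ δ > 0, ∃ ρ > 0, ρ ≤ r ∧ ∀ z ∈ pb ρ, ∃ c ∈ Z, ‖f z - c‖ < δ := by
    intro δ hδ
    have h1 : ∀ᶠ z in 𝓝[≠] (0:ℂ), ‖f z ^ n - a‖ < δ ^ n := by
      have := (tendsto_iff_norm_sub_tendsto_zero.1 hlim).eventually (gt_mem_nhds (pow_pos hδ n))
      exact this
    rw [eventually_nhdsWithin_iff] at h1
    obtain ⟨ρ, hρ, hρ2⟩ := Metric.eventually_nhds_iff_ball.1 h1
    refine ⟨min ρ r, by positivity, min_le_right _ _, fun z hz => ?_⟩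
    rw [mem_pb] at hz
    have h2 := hρ2 z (by rw [mem_ball_zero_iff]; exact hz.1.trans_le (min_le_left _ _)) hz.2
    obtain ⟨c, hc, hc2⟩ := root_dist hn hδ h2
    exact ⟨c, hmem c hc, hc2⟩
  obtain ⟨ρ0, hρ0, hρ0r, hρ0c⟩ := hev η hη
  -- pick a point
  have hz0 : ((ρ0 / 2 : ℝ) : ℂ) ∈ pb ρ0 := by
    rw [mem_pb, Complex.norm_real, Real.norm_of_nonneg (by positivity)]
    exact ⟨by linarith, by exact_mod_cast (by positivity : ρ0 / 2 ≠ 0)⟩
  obtain ⟨c, hcZ, hc⟩ := hρ0c _ hz0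
  have hconn : ∀ z ∈ pb ρ0, ‖f z - c‖ < η := by
    have hpre : IsPreconnected (f '' pb ρ0) :=
      pb_preconnected.image f (hf.mono (pb_mono hρ0r))
    have h1 : f '' pb ρ0 ⊆ ball c η := by
      refine hpre.subset_left_of_subset_union (v := ⋃ d ∈ Z.erase c, ball d η) isOpen_ball
        (isOpen_biUnion fun _ _ => isOpen_ball) ?_ ?_ ?_
      · rw [Set.disjoint_left]
        intro x hx hx2
        obtain ⟨d, hd, hd2⟩ := mem_iUnion₂.1 hx2
        have h2 := hsep c hcZ d (Finset.mem_of_mem_erase hd) (Finset.ne_of_mem_erase hd).symm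
        rw [mem_ball, dist_eq_norm] at hx hd2
        have h3 : ‖c - d‖ ≤ ‖x - c‖ + ‖x - d‖ := by
          calc ‖c - d‖ = ‖(x - d) - (x - c)‖ := by congr 1; ring
            _ ≤ ‖x - d‖ + ‖x - c‖ := norm_sub_le _ _
            _ = _ := by ring
        linarith
      · rintro _ ⟨z, hz, rfl⟩
        obtain ⟨d, hd, hd2⟩ := hρ0c z hz
        by_cases hdc : d = c
        · left; rw [mem_ball, dist_eq_norm, ← hdc]; exact hd2
        · right
          exact mem_iUnion₂.2 ⟨d, Finset.mem_erase.2 ⟨hdc, hd⟩, by rw [mem_ball, dist_eq_norm]; exact hd2⟩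
      · exact ⟨f _, ⟨_, hz0, rfl⟩, by rw [mem_ball, dist_eq_norm]; exact hc⟩
    intro z hz
    have := h1 ⟨z, hz, rfl⟩
    rwa [mem_ball, dist_eq_norm] at this
  have hft : Tendsto f (𝓝[≠] 0) (𝓝 c) := by
    rw [Metric.tendsto_nhds]
    intro δ hδ
    obtain ⟨ρ1, hρ1, hρ1r, hρ1c⟩ := hev (min δ η) (by positivity)
    filter_upwards [pb_nhds (show 0 < min ρ0 ρ1 by positivity)] with z hz
    obtain ⟨d, hd, hd2⟩ := hρ1c z (pb_mono (min_le_right _ _) hz)
    have h2 := hconn z (pb_mono (min_le_left _ _) hz)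
    have hdc : d = c := by
      by_contra hne
      have h3 := hsep c hcZ d hd (Ne.symm hne)
      have h4 : ‖c - d‖ ≤ ‖f z - c‖ + ‖f z - d‖ := by
        calc ‖c - d‖ = ‖(f z - d) - (f z - c)‖ := by congr 1; ring
          _ ≤ ‖f z - d‖ + ‖f z - c‖ := norm_sub_le _ _
          _ = _ := by ring
      have h5 := hd2.trans_le (min_le_right _ _)
      linarith
    rw [dist_eq_norm, ← hdc]
    exact hd2.trans_le (min_le_left _ _)
  refine ⟨c, ?_, hft⟩
  exact tendsto_nhds_unique (hft.pow n) hlim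

end Vale.Agent.P247.H324
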