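import Vale.Agent.P247.H324.MG.Def
import Vale.Agent.P247.H324.MG.Ps

/-! The power map `t ↦ t ^ q`: change of variables and Morrey bounds. -/

open MeasureTheory Set Metric Filter Topology
open scoped ContDiff ENNReal NNReal

set_option linter.unusedSectionVars false
set_option linter.unusedVariables false

noncomputable section

namespace Vale.Agent.P247.H324

open Vale.Agent.P272.CT

/-- multiplication by `c` as a real linear map -/
def mulL (c : ℂ) : ℂ →L[ℝ] ℂ := c • (1 : ℂ →L[ℝ] ℂ)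

@[simp] theorem mulL_apply (c v : ℂ) : mulL c v = c * v := rfl

theorem pz_mulL (c : ℂ) : pz (mulL c) = c := by
  simp only [pz, mulL_apply, smul_eq_mul]
  linear_combination (-c/2) * Complex.I_mul_I

theorem pzb_mulL (c : ℂ) : pzb (mulL c) = 0 := by
  simp only [pzb, mulL_apply, smul_eq_mul]
  linear_combination (c/2) * Complex.I_mul_I

theorem norm_mulL_le (c : ℂ) : ‖mulL c‖ ≤ ‖c‖ := by
  refine ContinuousLinearMap.opNorm_le_bound _ (norm_nonneg _) fun v => ?_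
  rw [mulL_apply, norm_mul]

theorem det_mulL (c : ℂ) : (mulL c).det = ‖c‖ ^ 2 := by
  rw [det_C]
  simp only [mulL_apply, mul_one, Complex.mul_I_im, Complex.mul_I_re]
  rw [Complex.sq_norm, Complex.normSq_apply]; ring

/-- the power map -/
def pw (q : ℕ) (t : ℂ) : ℂ := t ^ q

/-- its derivative -/
def pwd (q : ℕ) (t : ℂ) : ℂ := q * t ^ (q - 1)

theorem hasFDerivAt_pw (q : ℕ) (t : ℂ) : HasFDerivAt (pw q) (mulL (pwd q t)) t :=
  (hasDerivAt_pow q t).complexToReal_fderiv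

theorem fderiv_pw (q : ℕ) (t : ℂ) : fderiv ℝ (pw q) t = mulL (pwd q t) := (hasFDerivAt_pw q t).fderiv

theorem pw_contDiff (q : ℕ) : ContDiff ℝ ∞ (pw q) := contDiff_id.pow q

theorem pwd_ne {q : ℕ} (hq : 1 ≤ q) {t : ℂ} (ht : t ≠ 0) : pwd q t ≠ 0 :=
  mul_ne_zero (by exact_mod_cast (by omega : q ≠ 0)) (pow_ne_zero _ ht)

theorem pw_det {q : ℕ} (hq : 1 ≤ q) {t : ℂ} (ht : t ≠ 0) : (fderiv ℝ (pw q) t).det ≠ 0 := by
  rw [fderiv_pw, det_mulL]
  have := norm_pos_iff.2 (pwd_ne hq ht)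
  positivity

/-- change of variables with multiplicity -/
theorem pow_lint {q : ℕ} (hq : 1 ≤ q) {S : Set ℂ} (hS : MeasurableSet S) (φ : ℂ → ℝ≥0∞) :
    ∫⁻ t in S, ENNReal.ofReal (‖pwd q t‖ ^ 2) * φ (t ^ q) ≤ q * ∫⁻ z in pw q '' S, φ z := by
  classical
  have hq0 : q ≠ 0 := by omega
  have : NeZero q := ⟨hq0⟩
  set om : ℂ := Complex.exp (2 * Real.pi * Complex.I / q) with hom
  have hprim : IsPrimitiveRoot om q := Complex.isPrimitiveRoot_exp q hq0
  set T : Fin q → Set ℂ := fun j => {t | t ∈ S ∧ t = om ^ (j:ℕ) * (t ^ q) ^ ((q:ℂ)⁻¹)} with hT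
  have hTm : ∀ j, MeasurableSet (T j) := fun j => by
    refine hS.inter (measurableSet_eq_fun measurable_id ?_)
    exact measurable_const.mul ((measurable_id.pow_const q).pow_const _)
  have hcov : S ⊆ ⋃ j, T j := by
    intro t ht
    have hu : ((t ^ q) ^ ((q:ℂ)⁻¹)) ^ q = t ^ q := Complex.cpow_nat_inv_pow _ hq0
    by_cases h0 : t = 0
    · refine mem_iUnion.2 ⟨⟨0, by omega⟩, ht, ?_⟩
      subst h0
      have : ((0:ℂ) ^ q) ^ ((q:ℂ)⁻¹) = 0 := by
        rw [zero_pow hq0, Complex.zero_cpow]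
        exact inv_ne_zero (by exact_mod_cast hq0)
      rw [this, mul_zero]
    · set u := (t ^ q) ^ ((q:ℂ)⁻¹) with hudef
      have hu0 : u ≠ 0 := by
        intro h
        rw [h, zero_pow hq0] at hu
        exact pow_ne_zero q h0 hu.symm
      have h1 : (t / u) ^ q = 1 := by
        rw [div_pow, hu, div_self (pow_ne_zero q h0)]
      obtain ⟨i, hi, hi2⟩ := hprim.eq_pow_of_pow_eq_one h1
      refine mem_iUnion.2 ⟨⟨i, hi⟩, ht, ?_⟩
      simp only
      rw [hi2, ← hudef]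
      field_simp
  have hone : ∀ j, ∫⁻ t in T j, ENNReal.ofReal (‖pwd q t‖ ^ 2) * φ (t ^ q) ≤
      ∫⁻ z in pw q '' S, φ z := by
    intro j
    have hinj : InjOn (pw q) (T j) := by
      intro a ha b hb hab
      have h1 : a ^ q = b ^ q := hab
      rw [ha.2, hb.2, h1]
    have h1 := lintegral_image_eq_lintegral_abs_det_fderiv_mul volume (hTm j)
      (fun t _ => (hasFDerivAt_pw q t).hasFDerivWithinAt) hinj φ
    calc ∫⁻ t in T j, ENNReal.ofReal (‖pwd q t‖ ^ 2) * φ (t ^ q)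
        = ∫⁻ t in T j, ENNReal.ofReal |(mulL (pwd q t)).det| * φ (pw q t) := by
          refine lintegral_congr fun t => ?_
          rw [det_mulL, abs_of_nonneg (by positivity)]; rfl
      _ = ∫⁻ z in pw q '' (T j), φ z := h1.symm
      _ ≤ _ := lintegral_mono_set (image_mono fun t ht => ht.1)
  calc ∫⁻ t in S, ENNReal.ofReal (‖pwd q t‖ ^ 2) * φ (t ^ q)
      ≤ ∫⁻ t in ⋃ j, T j, ENNReal.ofReal (‖pwd q t‖ ^ 2) * φ (t ^ q) := lintegral_mono_set hcov
    _ ≤ ∑' j, ∫⁻ t in T j, ENNReal.ofReal (‖pwd q t‖ ^ 2) * φ (t ^ q) := lintegral_iUnion_le _ _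
    _ = ∑ j, ∫⁻ t in T j, ENNReal.ofReal (‖pwd q t‖ ^ 2) * φ (t ^ q) := tsum_fintype _
    _ ≤ ∑ _j : Fin q, ∫⁻ z in pw q '' S, φ z := Finset.sum_le_sum fun j _ => hone j
    _ = q * ∫⁻ z in pw q '' S, φ z := by
        rw [Finset.sum_const, Finset.card_univ, Fintype.card_fin, nsmul_eq_mul]

theorem pw_quasi {q : ℕ} (hq : 1 ≤ q) : Measure.QuasiMeasurePreserving (pw q) volume volume := by
  refine ⟨(pw_contDiff q).continuous.measurable, ?_⟩
  refine Measure.AbsolutelyContinuous.mk fun s hs h0 => ?_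
  rw [Measure.map_apply (pw_contDiff q).continuous.measurable hs]
  have h1 := pow_lint hq MeasurableSet.univ (s.indicator 1)
  have h2 : ∫⁻ z in pw q '' univ, s.indicator (1 : ℂ → ℝ≥0∞) z = 0 := by
    refine le_antisymm ((setLIntegral_le_lintegral _ _).trans ?_) (zero_le)
    rw [lintegral_indicator_one hs, h0]
  rw [h2, mul_zero, Measure.restrict_univ] at h1
  have hm : Measurable fun t : ℂ => ENNReal.ofReal (‖pwd q t‖ ^ 2) * s.indicator 1 (t ^ q) := by
    refine Measurable.mul ?_ ?_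
    · unfold pwd; fun_prop
    · exact (measurable_one.indicator hs).comp (measurable_id.pow_const q)
  have h3 := (lintegral_eq_zero_iff hm).1 (le_antisymm h1 (zero_le))
  have hne : ∀ᵐ w : ℂ ∂volume, w ≠ 0 := by
    rw [ae_iff]; simp
  have h4 : ∀ᵐ t ∂(volume : Measure ℂ), t ∉ pw q ⁻¹' s := by
    filter_upwards [h3, hne] with t ht ht0 hts
    have hts' : t ^ q ∈ s := hts
    simp only [Pi.zero_apply, indicator_of_mem hts', Pi.one_apply, mul_one,
      ENNReal.ofReal_eq_zero] at ht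
    have := norm_pos_iff.2 (pwd_ne hq ht0)
    have : 0 < ‖pwd q t‖ ^ 2 := by positivity
    linarith
  rw [ae_iff] at h4
  exact le_antisymm ((measure_mono fun a ha => not_not.2 ha).trans h4.le) (zero_le)

theorem pow_sub_le {q : ℕ} {a b : ℂ} (ha : ‖a‖ ≤ 1) (hb : ‖b‖ ≤ 1) :
    ‖a ^ q - b ^ q‖ ≤ q * ‖a - b‖ := by
  induction q with
  | zero => simp
  | succ n ih =>
      have e : a ^ (n + 1) - b ^ (n + 1) = a * (a ^ n - b ^ n) + (a - b) * b ^ n := by ring
      rw [e]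
      have h1 : ‖b ^ n‖ ≤ 1 := by rw [norm_pow]; exact pow_le_one₀ (norm_nonneg _) hb
      calc ‖a * (a ^ n - b ^ n) + (a - b) * b ^ n‖
          ≤ ‖a‖ * ‖a ^ n - b ^ n‖ + ‖a - b‖ * ‖b ^ n‖ := by
            refine (norm_add_le _ _).trans ?_
            rw [norm_mul, norm_mul]
        _ ≤ 1 * (n * ‖a - b‖) + ‖a - b‖ * 1 := by gcongr
        _ = _ := by push_cast; ring

section Bas

variable {N : ℕ} {R K ε L : ℝ} {m A : ℂ × ℂ → ℂ} {g : ℂ → ℝ≥0∞} {Y : ℂ → Fin N → ℂ}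
  {D : ℂ → Fin N → ℂ →L[ℝ] ℂ}

/-- pulled back bound -/
def gq (g : ℂ → ℝ≥0∞) (q : ℕ) (t : ℂ) : ℝ≥0∞ := g (t ^ q) * ‖pwd q t‖ₑ

theorem gq_meas (h : Bas R K ε L m A g Y D) {q : ℕ} (hq : 1 ≤ q) {r : ℝ} (hr : 0 < r)
    (hrq : r ^ q ≤ R) : AEMeasurable (gq g q) (volume.restrict (ball 0 r)) := by
  obtain ⟨g0, hg0, he⟩ := h.gm
  have he' : ∀ᵐ t ∂(volume : Measure ℂ), pw q t ∈ ball (0:ℂ) R → g (pw q t) = g0 (pw q t) :=
    (pw_quasi hq).ae ((ae_restrict_iff' measurableSet_ball).1 he)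
  refine ⟨gq g0 q, ?_, ?_⟩
  · refine Measurable.mul (hg0.comp (pw_contDiff q).continuous.measurable) ?_
    unfold pwd; fun_prop
  · filter_upwards [ae_restrict_of_ae he', ae_restrict_mem measurableSet_ball] with t ht ht2
    have h3 : pw q t ∈ ball (0:ℂ) R := by
      rw [mem_ball_zero_iff] at ht2 ⊢
      unfold pw
      rw [norm_pow]
      exact (pow_lt_pow_left₀ ht2 (norm_nonneg _) (by omega)).trans_le hrq
    have h4 := ht h3
    unfold gq
    unfold pw at h4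
    rw [h4]

theorem gq_sq (h : Bas R K ε L m A g Y D) {q : ℕ} (hq : 1 ≤ q) {r : ℝ} (hr : 0 < r) (hr1 : r ≤ 1)
    (hrq : r ^ q ≤ R) (x : ℂ) {ρ : ℝ} (hρ : 0 < ρ) :
    ∫⁻ t in ball x ρ ∩ ball 0 r, gq g q t ^ 2 ≤
      ENNReal.ofReal (q * K * (2 * q) ^ (2 * ε) * ρ ^ (2 * ε)) := by
  have hK := h.Kpos
  have hq' : (0:ℝ) < q := by exact_mod_cast hq
  rcases (ball x ρ ∩ ball (0:ℂ) r).eq_empty_or_nonempty with he | ⟨x', hx1, hx2⟩
  · rw [he]; simp
  have hm : MeasurableSet (ball x ρ ∩ ball (0:ℂ) r) := measurableSet_ball.inter measurableSet_ball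
  have himg : pw q '' (ball x ρ ∩ ball (0:ℂ) r) ⊆ ball (x' ^ q) (2 * q * ρ) ∩ ball 0 R := by
    rintro _ ⟨t, ⟨ht1, ht2⟩, rfl⟩
    rw [mem_ball_zero_iff] at ht2 hx2
    refine ⟨?_, ?_⟩
    · rw [mem_ball, dist_eq_norm]
      have h1 : ‖t - x'‖ < 2 * ρ := by
        rw [← dist_eq_norm]
        have := dist_triangle_right t x' x
        rw [mem_ball] at ht1 hx1
        linarith
      calc ‖pw q t - x' ^ q‖ ≤ q * ‖t - x'‖ := pow_sub_le (ht2.le.trans hr1) (hx2.le.trans hr1)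
        _ < q * (2 * ρ) := by gcongr
        _ = 2 * q * ρ := by ring
    · rw [mem_ball_zero_iff]
      unfold pw
      rw [norm_pow]
      exact (pow_lt_pow_left₀ ht2 (norm_nonneg _) (by omega)).trans_le hrq
  calc ∫⁻ t in ball x ρ ∩ ball 0 r, gq g q t ^ 2
      = ∫⁻ t in ball x ρ ∩ ball 0 r, ENNReal.ofReal (‖pwd q t‖ ^ 2) * (g (t ^ q)) ^ 2 := by
        refine lintegral_congr fun t => ?_
        unfold gq
        rw [mul_pow, mul_comm, ← ofReal_norm, ENNReal.ofReal_pow (norm_nonneg _)]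
    _ ≤ q * ∫⁻ z in pw q '' (ball x ρ ∩ ball 0 r), g z ^ 2 := pow_lint hq hm (fun z => g z ^ 2)
    _ ≤ q * ∫⁻ z in ball (x' ^ q) (2 * q * ρ) ∩ ball 0 R, g z ^ 2 := by gcongr
    _ ≤ q * ENNReal.ofReal (K * (2 * q * ρ) ^ (2 * ε)) := by
        gcongr
        exact h.mor _ _ (by positivity)
    _ = _ := by
        rw [← ENNReal.ofReal_natCast, ← ENNReal.ofReal_mul (by positivity),
          Real.mul_rpow (by positivity) hρ.le]
        congr 1; ring

/-- Cauchy–Schwarz -/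
theorem cs_ball {f : ℂ → ℝ≥0∞} {x : ℂ} {ρ r M : ℝ} (hρ : 0 < ρ) (hM : 0 ≤ M)
    (hf : AEMeasurable f (volume.restrict (ball 0 r)))
    (h : ∫⁻ t in ball x ρ ∩ ball 0 r, f t ^ 2 ≤ ENNReal.ofReal M) :
    ∫⁻ t in ball x ρ ∩ ball 0 r, f t ≤ ENNReal.ofReal (2 * Real.sqrt M * ρ) := by
  have hf' : AEMeasurable f (volume.restrict (ball x ρ ∩ ball 0 r)) :=
    hf.mono_measure (Measure.restrict_mono_set _ inter_subset_right)
  have h1 := ENNReal.lintegral_mul_le_Lp_mul_Lq (volume.restrict (ball x ρ ∩ ball 0 r))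
    Real.HolderConjugate.two_two hf' (aemeasurable_const (b := (1:ℝ≥0∞)))
  simp only [Pi.mul_apply, mul_one, ENNReal.one_rpow, lintegral_const,
    Measure.restrict_apply MeasurableSet.univ, univ_inter, one_mul] at h1
  refine h1.trans ?_
  have h2 : ∫⁻ t in ball x ρ ∩ ball 0 r, f t ^ (2:ℝ) ≤ ENNReal.ofReal M := by
    have e : ∀ t, f t ^ (2:ℝ) = f t ^ 2 := fun t => by
      rw [← ENNReal.rpow_natCast]; norm_num
    simp_rw [e]; exact h
  have h3 : volume (ball x ρ ∩ ball 0 r) ≤ ENNReal.ofReal (4 * ρ ^ 2) := by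
    calc volume (ball x ρ ∩ ball 0 r) ≤ volume (ball x ρ) := measure_mono inter_subset_left
      _ = ENNReal.ofReal (Real.pi * ρ ^ 2) := by
          rw [Complex.volume_ball, ← ENNReal.ofReal_pow hρ.le, mul_comm,
            ENNReal.ofReal_mul Real.pi_pos.le]
          congr 1
          rw [← NNReal.coe_real_pi, ENNReal.ofReal_coe_nnreal]
      _ ≤ ENNReal.ofReal (4 * ρ ^ 2) := by
          refine ENNReal.ofReal_le_ofReal ?_
          have := Real.pi_le_four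
          gcongr
  calc (∫⁻ t in ball x ρ ∩ ball 0 r, f t ^ (2:ℝ)) ^ (1 / (2:ℝ)) *
        volume (ball x ρ ∩ ball 0 r) ^ (1 / (2:ℝ))
      ≤ ENNReal.ofReal M ^ (1 / (2:ℝ)) * ENNReal.ofReal (4 * ρ ^ 2) ^ (1 / (2:ℝ)) := by
        gcongr
    _ = ENNReal.ofReal (2 * Real.sqrt M * ρ) := by
        rw [ENNReal.ofReal_rpow_of_nonneg hM (by norm_num),
          ENNReal.ofReal_rpow_of_nonneg (by positivity) (by norm_num),
          ← ENNReal.ofReal_mul (by positivity), ← Real.sqrt_eq_rpow, ← Real.sqrt_eq_rpow]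
        congr 1
        have e : Real.sqrt (4 * ρ ^ 2) = 2 * ρ := by
          rw [show 4 * ρ ^ 2 = (2 * ρ) ^ 2 by ring]
          exact Real.sqrt_sq (by positivity)
        rw [e]; ring

/-- the Morrey exponent used -/
def e1 (ε : ℝ) : ℝ := min ε (1 / 2)

theorem e1_pos (hε : 0 < ε) : 0 < e1 ε := by unfold e1; positivity

/-- `L¹`-Morrey bound for `1 + g_q` -/
theorem gq_mor (h : Bas R K ε L m A g Y D) {q : ℕ} (hq : 1 ≤ q) {r : ℝ} (hr : 0 < r) (hr1 : r ≤ 1)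
    (hrq : r ^ q ≤ R) : ∃ K', 0 ≤ K' ∧ ∀ x ρ, 0 < ρ →
    ∫⁻ t in ball x ρ ∩ ball 0 r, (1 + gq g q t) ≤ ENNReal.ofReal (K' * ρ ^ (1 + e1 ε)) := by
  have hK := h.Kpos
  have hε := h.εpos
  have hε1 := e1_pos hε
  have hq' : (0:ℝ) < q := by exact_mod_cast hq
  set M : ℝ := q * K * (2 * q) ^ (2 * ε) with hM
  have hM0 : 0 ≤ M := by positivity
  set K1 : ℝ := 4 + 2 * Real.sqrt M with hK1
  have hK10 : 0 ≤ K1 := by positivity
  have hmG : AEMeasurable (gq g q) (volume.restrict (ball 0 r)) := gq_meas h hq hr hrq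
  have base : ∀ x ρ, 0 < ρ → ρ ≤ 1 →
      ∫⁻ t in ball x ρ ∩ ball 0 r, (1 + gq g q t) ≤ ENNReal.ofReal (K1 * ρ ^ (1 + e1 ε)) := by
    intro x ρ hρ hρ1
    have h1 := gq_sq h hq hr hr1 hrq x hρ
    have h2 := cs_ball hρ (by positivity) hmG h1
    have h3 : ∫⁻ t in ball x ρ ∩ ball 0 r, (1:ℝ≥0∞) ≤ ENNReal.ofReal (4 * ρ ^ 2) := by
      rw [lintegral_const, one_mul, Measure.restrict_apply MeasurableSet.univ, univ_inter]
      calc volume (ball x ρ ∩ ball 0 r) ≤ volume (ball x ρ) := measure_mono inter_subset_left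
        _ = ENNReal.ofReal (Real.pi * ρ ^ 2) := by
            rw [Complex.volume_ball, ← ENNReal.ofReal_pow hρ.le, mul_comm,
              ENNReal.ofReal_mul Real.pi_pos.le]
            congr 1
            rw [← NNReal.coe_real_pi, ENNReal.ofReal_coe_nnreal]
        _ ≤ ENNReal.ofReal (4 * ρ ^ 2) := by
            refine ENNReal.ofReal_le_ofReal ?_
            have := Real.pi_le_four
            gcongr
    calc ∫⁻ t in ball x ρ ∩ ball 0 r, (1 + gq g q t)
        = (∫⁻ t in ball x ρ ∩ ball 0 r, (1:ℝ≥0∞)) + ∫⁻ t in ball x ρ ∩ ball 0 r, gq g q t :=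
          lintegral_add_left measurable_const _
      _ ≤ ENNReal.ofReal (4 * ρ ^ 2) + ENNReal.ofReal (2 * Real.sqrt (M * ρ ^ (2 * ε)) * ρ) :=
          add_le_add h3 h2
      _ ≤ ENNReal.ofReal (K1 * ρ ^ (1 + e1 ε)) := by
          rw [← ENNReal.ofReal_add (by positivity) (by positivity)]
          refine ENNReal.ofReal_le_ofReal ?_
          have a1 : ρ ^ 2 ≤ ρ ^ (1 + e1 ε) := by
            rw [← Real.rpow_two]
            refine Real.rpow_le_rpow_of_exponent_ge hρ hρ1 ?_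
            have : e1 ε ≤ 1/2 := min_le_right _ _
            linarith
          have a2 : Real.sqrt (M * ρ ^ (2 * ε)) = Real.sqrt M * ρ ^ ε := by
            rw [Real.sqrt_mul hM0]
            congr 1
            rw [Real.sqrt_eq_rpow, ← Real.rpow_mul hρ.le]; congr 1; ring
          have a3 : ρ ^ ε * ρ ≤ ρ ^ (1 + e1 ε) := by
            calc ρ ^ ε * ρ = ρ ^ (1 + ε) := by rw [add_comm, Real.rpow_add_one hρ.ne']
              _ ≤ ρ ^ (1 + e1 ε) := by
                refine Real.rpow_le_rpow_of_exponent_ge hρ hρ1 ?_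
                have : e1 ε ≤ ε := min_le_left _ _
                linarith
          rw [a2]
          calc 4 * ρ ^ 2 + 2 * (Real.sqrt M * ρ ^ ε) * ρ = 4 * ρ ^ 2 + 2 * Real.sqrt M * (ρ ^ ε * ρ) := by ring
            _ ≤ 4 * ρ ^ (1 + e1 ε) + 2 * Real.sqrt M * ρ ^ (1 + e1 ε) := by gcongr
            _ = _ := by rw [hK1]; ring
  refine ⟨K1, hK10, fun x ρ hρ => ?_⟩
  by_cases hρ1 : ρ ≤ 1
  · exact base x ρ hρ hρ1
  · push Not at hρ1
    calc ∫⁻ t in ball x ρ ∩ ball 0 r, (1 + gq g q t) ≤ ∫⁻ t in ball 0 1 ∩ ball 0 r, (1 + gq g q t) := by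
          refine lintegral_mono_set fun t ht => ⟨ball_subset_ball hr1 ht.2, ht.2⟩
      _ ≤ ENNReal.ofReal (K1 * 1 ^ (1 + e1 ε)) := base 0 1 one_pos le_rfl
      _ ≤ ENNReal.ofReal (K1 * ρ ^ (1 + e1 ε)) := by
          refine ENNReal.ofReal_le_ofReal ?_
          gcongr

end Bas

end Vale.Agent.P247.H324
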