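import Vale.Agent.P247.H324.MG.Base
import Vale.Agent.P247.H324.MG.Bch
import Vale.Agent.P247.H957.AsmDef

/-!
# Branches of a continuous multisection: single value and union
-/

open MeasureTheory Set Metric Filter Topology
open scoped ContDiff ENNReal

noncomputable section

namespace Vale.Agent.P247.H324

open Vale.Agent.P272.CT

variable {N : ℕ} {R K ε L : ℝ} {m A : ℂ × ℂ → ℂ} {g : ℂ → ℝ≥0∞} {Y : ℂ → Fin N → ℂ}
  {D : ℂ → Fin N → ℂ →L[ℝ] ℂ}

theorem Bas.shrink (hB : Bas R K ε L m A g Y D) {R1 : ℝ} (h0 : 0 < R1) (h1 : R1 ≤ R) :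
    Bas R1 K ε L m A g Y D := by
  have hsub : ball (0:ℂ) R1 ⊆ ball 0 R := ball_subset_ball h1
  exact ⟨h0, h1.trans hB.Rle, hB.Kpos, hB.εpos, hB.Lpos,
    fun F hF => (hB.chain F hF).mono hsub, fun F hF => (hB.cont F hF).mono hsub,
    hB.gm.mono_measure (Measure.restrict_mono hsub le_rfl), fun z hz i => hB.gD z (hsub hz) i,
    fun x ρ hρ => (lintegral_mono_set (inter_subset_inter_right _ hsub)).trans (hB.mor x ρ hρ),
    hB.bdd, fun z hz i => hB.eqn z (hsub hz) i, fun z hz i j h => hB.same z (hsub hz) i j h⟩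

theorem Bas.monoL (hB : Bas R K ε L m A g Y D) {L1 : ℝ} (h1 : L ≤ L1) :
    Bas R K ε L1 m A g Y D :=
  ⟨hB.Rpos, hB.Rle, hB.Kpos, hB.εpos, hB.Lpos.trans h1, hB.chain, hB.cont, hB.gm, hB.gD, hB.mor,
    fun z i => (hB.bdd z i).trans h1, hB.eqn, hB.same⟩

/-- all sheets are near the values over `0` -/
theorem sheets_near (hB : Bas R K ε L m A g Y D) {η : ℝ} (hη : 0 < η) :
    ∃ R1, 0 < R1 ∧ R1 ≤ R ∧ ∀ z ∈ ball (0:ℂ) R1, ∀ i, ∃ j, ‖Y z i - Y 0 j‖ < η := by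
  rcases isEmpty_or_nonempty (Fin N) with he | hne
  · exact ⟨R, hB.Rpos, le_rfl, fun z _ i => (he.false i).elim⟩
  set V : Set ℂ := range (Y 0) with hV
  have hVne : V.Nonempty := range_nonempty _
  have hc := hB.cont (fun y => ((infDist y V : ℝ) : ℂ))
    (Complex.continuous_ofReal.comp (continuous_infDist_pt V))
  have h0 : ContinuousAt (fun z => ∑ i, ((infDist (Y z i) V : ℝ) : ℂ)) 0 :=
    hc.continuousAt (isOpen_ball.mem_nhds (mem_ball_self hB.Rpos))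
  have hz0 : ∑ i, ((infDist (Y 0 i) V : ℝ) : ℂ) = 0 :=
    Finset.sum_eq_zero fun i _ => by
      rw [infDist_zero_of_mem (show Y 0 i ∈ V from ⟨i, rfl⟩)]; simp
  obtain ⟨δ, hδ, hδ'⟩ := Metric.continuousAt_iff.1 h0 η hη
  refine ⟨min δ R, lt_min hδ hB.Rpos, min_le_right _ _, fun z hz i => ?_⟩
  have hz1 : dist z 0 < δ := (mem_ball.1 hz).trans_le (min_le_left _ _)
  have h1 := hδ' hz1
  rw [hz0, dist_zero_right] at h1
  have h2 : ‖∑ i, ((infDist (Y z i) V : ℝ) : ℂ)‖ = ∑ i, infDist (Y z i) V := by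
    rw [← Complex.ofReal_sum, Complex.norm_real, Real.norm_eq_abs,
      abs_of_nonneg (Finset.sum_nonneg fun i _ => infDist_nonneg)]
  rw [h2] at h1
  have h3 : infDist (Y z i) V < η := lt_of_le_of_lt
    (Finset.single_le_sum (f := fun i => infDist (Y z i) V) (fun i _ => infDist_nonneg)
      (Finset.mem_univ i)) h1
  obtain ⟨y, ⟨j, rfl⟩, hy⟩ := (infDist_lt_iff hVne).1 h3
  exact ⟨j, by rwa [dist_eq_norm] at hy⟩

/-- branches near one value -/
structure OneP (N : ℕ) (Y : ℂ → Fin N → ℂ) (y0 : ℂ) (η δ : ℝ) (L : ℕ) (k μ : Fin L → ℕ)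
    (W : Fin L → ℂ → ℂ) : Prop where
  pos : ∀ l, 1 ≤ k l ∧ 1 ≤ μ l
  card : (Finset.univ.filter fun i => ‖Y 0 i - y0‖ < η).card = ∑ l, k l * μ l
  cont : ∀ l, ContinuousOn (W l) {s | s ≠ 0 ∧ ‖s‖ ^ k l < δ}
  inj : ∀ l l' s s', s ≠ 0 → ‖s‖ ^ k l < δ → s ^ k l = s' ^ k l' → W l s = W l' s' →
    l = l' ∧ s = s'
  zero : ∀ l, W l 0 = y0
  near : ∀ l s, s ≠ 0 → ‖s‖ ^ k l < δ → ‖W l s - y0‖ < η
  sum : ∀ z, z ≠ 0 → ‖z‖ < δ → ∀ s : Fin L → ℂ, (∀ l, s l ^ k l = z) →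
    (Finset.univ.filter fun i => ‖Y z i - y0‖ < η).val.map (Y z) =
      ∑ l, μ l • ∑ j ∈ Finset.range (k l),
      {W l (Complex.exp (2 * Real.pi * Complex.I * j / k l) * s l)}

theorem exists_root {k : ℕ} (hk : 1 ≤ k) (z : ℂ) : ∃ s : ℂ, s ^ k = z :=
  IsAlgClosed.exists_pow_nat_eq z (by omega)

/-- near one value -/
theorem one_value (hP : PUIS_statement) (hO : ORB_statement)
    (hm : ContDiffOn ℝ ∞ m (H574.PD 2)) (hA : ContDiffOn ℝ ∞ A (H574.PD 2))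
    (hlt : ∀ p ∈ H574.PD 2, ‖m p‖ < 1) (hL : L < 1) (hB : Bas R K ε L m A g Y D)
    {y0 : ℂ} {η : ℝ} (hη : 0 < η) (hη1 : η ≤ 1) (hy0 : ‖y0‖ ≤ L)
    (hsep : ∀ z ∈ ball (0:ℂ) R, ∀ i, ‖Y z i - y0‖ < η ∨ 2 * η < ‖Y z i - y0‖)
    (hc : ∀ i, ‖Y 0 i - y0‖ < η → Y 0 i = y0) :
    ∃ (δ : ℝ) (n : ℕ) (k μ : Fin n → ℕ) (W : Fin n → ℂ → ℂ), 0 < δ ∧ OneP N Y y0 η δ n k μ W := by
  have hR := hB.Rpos
  have hR1 := hB.Rle
  have hPDm : ∀ z y : ℂ, ‖z‖ < 2 → ‖y‖ < 2 → (z, y) ∈ H574.PD 2 := fun z y h1 h2 =>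
    ⟨by simpa using h1, by simpa using h2⟩
  have hm0 : ‖m (0, y0)‖ < 1 := hlt _ (hPDm 0 y0 (by simp) (by linarith))
  set m0 := m (0, y0) with hm0d
  set R' : ℝ := min 1 (R / (2 * (‖phi m0‖ + 1))) with hR'
  have hR'0 : 0 < R' := by positivity
  have hR'1 : R' ≤ 1 := min_le_left _ _
  have hcb : ∀ w ∈ closedBall (0:ℂ) R', phi m0 w ∈ ball (0:ℂ) R := by
    intro w hw
    rw [mem_closedBall, dist_zero_right] at hw
    rw [mem_ball, dist_zero_right]
    calc ‖phi m0 w‖ ≤ ‖phi m0‖ * ‖w‖ := (phi m0).le_opNorm _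
      _ ≤ (‖phi m0‖ + 1) * (R / (2 * (‖phi m0‖ + 1))) := by
        gcongr
        · linarith
        · exact hw.trans (min_le_right _ _)
      _ = R / 2 := by field_simp
      _ < R := by linarith
  have hsub : ∀ w ∈ ball (0:ℂ) R', phi m0 w ∈ ball (0:ℂ) R := fun w hw =>
    hcb w (ball_subset_closedBall hw)
  have hκ : ∀ z ∈ ball (0:ℂ) R, ∀ i, ‖m (z, Y z i)‖ < 1 := fun z hz i =>
    hlt _ (hPDm _ _ (by rw [mem_ball, dist_zero_right] at hz; linarith)
      (by linarith [hB.bdd z i]))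
  obtain ⟨K', g', hBt⟩ := bas_change hB hm0 hκ hR'0 hR'1 hsub
  obtain ⟨C, hC0, hC⟩ := lip_mt (R' := R') (y0 := y0) (η := η) hm0 hm hA hlt
    (fun w hw => ball_subset_ball (by linarith) (hcb w hw)) (fun y hy => by
      rw [mem_closedBall, dist_eq_norm] at hy
      rw [mem_ball, dist_zero_right]
      have : ‖y‖ ≤ ‖y - y0‖ + ‖y0‖ := by simpa using norm_add_le (y - y0) y0
      linarith)
  have hBt' := hBt.monoL (le_max_left L C)
  obtain ⟨q, r, S, hq, hr, hrq, hS1, hS2, hS3⟩ := hP N R' K' ε (max L C) (mt m0 m) (At m0 m A) g' _ _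
    y0 η hBt' hη (fun z hz z' hz' y hy y' hy' => by
      obtain ⟨h1, h2⟩ := hC z hz z' hz' y hy y' hy'
      have h3 : C * (‖z - z'‖ + ‖y - y'‖) ≤ max L C * (‖z - z'‖ + ‖y - y'‖) := by
        gcongr
        exact le_max_right _ _
      exact ⟨h1.trans h3, h2.trans h3⟩)
    (by simp [mt, ← hm0d]) (fun z hz i => hsep _ (hsub z hz) i)
    (fun i hi => by simp only [map_zero] at hi ⊢; exact hc i hi)
  set V : ℂ → Multiset ℂ := fun z =>
    (Finset.univ.filter fun i => ‖Y z i - y0‖ < η).val.map (Y z) with hV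
  have hSV : ∀ t ∈ pb r, ∀ z, z + m0 * (starRingEnd ℂ) z = t ^ q → S.map (fun f => f t) = V z := by
    intro t ht z hz
    have h1 : phi m0 (t ^ q) = z := by rw [← hz]; exact phi_left hm0 z
    rw [hS3 t ht, h1]
  obtain ⟨δ, hδ, n, k, μ, W, hpos, hcard, hcont, hinj, hsum⟩ := hO m0 hm0 V q r S hq hr hS1 hS2 hSV
  -- cardinality
  have hcardS : S.card = (Finset.univ.filter fun i => ‖Y 0 i - y0‖ < η).card := by
    have htr : ((r / 2 : ℝ) : ℂ) ∈ pb r := by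
      rw [mem_pb, Complex.norm_real, Real.norm_eq_abs, abs_of_pos (by positivity)]
      exact ⟨by linarith, by exact_mod_cast (by positivity : r / 2 ≠ 0)⟩
    have h1 := congrArg Multiset.card (hS3 _ htr)
    rw [Multiset.card_map, Multiset.card_map] at h1
    rw [h1]
    set w : ℂ := ((r / 2 : ℝ) : ℂ) ^ q with hw
    have hwR : w ∈ ball (0:ℂ) R' := by
      rw [mem_ball, dist_zero_right, hw, norm_pow]
      refine lt_of_lt_of_le ?_ hrq
      have := (mem_pb.1 htr).1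
      exact pow_lt_pow_left₀ this (norm_nonneg _) (by omega)
    have h2 := card_IY hB hη hsep (hsub w hwR)
    have h3 : ∀ z, IY Y y0 η 1 z = Finset.univ.filter fun i => ‖Y z i - y0‖ < η := fun z => by
      simp only [IY, pow_one]
    rw [h3, h3] at h2
    exact h2
  classical
  -- the branches stay near
  have hnear : ∀ l s, s ≠ 0 → ‖s‖ ^ k l < δ → ‖W l s - y0‖ < η := by
    intro l s hs hsδ
    set z := s ^ k l with hz
    have hz0 : z ≠ 0 := pow_ne_zero _ hs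
    have hzδ : ‖z‖ < δ := by rw [hz, norm_pow]; exact hsδ
    choose s' hs' using fun l' => exists_root (hpos l').1 z
    set s'' : Fin n → ℂ := Function.update s' l s with hs''
    have hroot : ∀ l', s'' l' ^ k l' = z := by
      intro l'
      by_cases h : l' = l
      · subst h; simp [hs'', hz]
      · simp [hs'', Function.update_of_ne h, hs']
    have h1 := hsum z hz0 hzδ s'' hroot
    have h2 : W l s ∈ V z := by
      rw [h1, Multiset.mem_sum]
      refine ⟨l, Finset.mem_univ _, ?_⟩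
      rw [Multiset.mem_nsmul_of_ne_zero (by have := (hpos l).2; omega), Multiset.mem_sum]
      refine ⟨0, Finset.mem_range.2 (by have := (hpos l).1; omega), ?_⟩
      simp [hs'']
    rw [hV, Multiset.mem_map] at h2
    obtain ⟨i, hi, hWi⟩ := h2
    rw [← hWi]
    exact (Finset.mem_filter.1 (show i ∈ Finset.univ.filter fun i => ‖Y z i - y0‖ < η from hi)).2
  refine ⟨δ, n, k, μ, fun l s => if s = 0 then y0 else W l s, hδ, hpos, ?_, ?_, ?_, ?_, ?_, ?_⟩
  · rw [← hcardS, hcard]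
  · intro l
    refine (hcont l).congr fun s hs => ?_
    simp only [if_neg hs.1]
  · intro l l' s s' hs hsδ hss hWW
    have hs' : s' ≠ 0 := by
      rintro rfl
      rw [zero_pow (by have := (hpos l').1; omega)] at hss
      exact pow_ne_zero _ hs hss
    simp only [if_neg hs, if_neg hs'] at hWW
    exact hinj l l' s s' hs hsδ hss hWW
  · intro l; simp
  · intro l s hs hsδ
    simp only [if_neg hs]
    exact hnear l s hs hsδ
  · intro z hz hzδ s hs
    rw [show (Finset.univ.filter fun i => ‖Y z i - y0‖ < η).val.map (Y z) = V z from rfl,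
      hsum z hz hzδ s hs]
    refine Finset.sum_congr rfl fun l _ => ?_
    congr 1
    refine Finset.sum_congr rfl fun j _ => ?_
    have h1 : Complex.exp (2 * Real.pi * Complex.I * j / k l) * s l ≠ 0 := by
      refine mul_ne_zero (Complex.exp_ne_zero _) fun h => hz ?_
      rw [← hs l, h, zero_pow (by have := (hpos l).1; omega)]
    simp only [if_neg h1]

/-- `TopP` over an arbitrary finite index type -/
theorem topP_of_fintype {ι : Type} [Fintype ι] {δ : ℝ} {k μ : ι → ℕ} {W : ι → ℂ → ℂ}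
    (pos : ∀ l, 1 ≤ k l ∧ 1 ≤ μ l) (card : N = ∑ l, k l * μ l)
    (cont : ∀ l, ContinuousOn (W l) {s | s ≠ 0 ∧ ‖s‖ ^ k l < δ})
    (inj : ∀ l l' s s', s ≠ 0 → ‖s‖ ^ k l < δ → s ^ k l = s' ^ k l' → W l s = W l' s' →
      l = l' ∧ s = s')
    (mem0 : ∀ l, ∃ i, W l 0 = Y 0 i)
    (near : ∃ η > 0, ∀ l s, s ≠ 0 → ‖s‖ ^ k l < δ → ∀ i, Y 0 i ≠ W l 0 → η ≤ ‖W l s - Y 0 i‖)
    (sum : ∀ z, z ≠ 0 → ‖z‖ < δ → ∀ s : ι → ℂ, (∀ l, s l ^ k l = z) →
      Finset.univ.val.map (Y z) = ∑ l, μ l • ∑ j ∈ Finset.range (k l),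
        {W l (Complex.exp (2 * Real.pi * Complex.I * j / k l) * s l)}) :
    ∃ (n : ℕ) (k μ : Fin n → ℕ) (W : Fin n → ℂ → ℂ), H957.Asm.TopP N Y δ n k μ W := by
  let e : ι ≃ Fin (Fintype.card ι) := Fintype.equivFin ι
  refine ⟨Fintype.card ι, fun l => k (e.symm l), fun l => μ (e.symm l), fun l => W (e.symm l),
    fun l => pos _, ?_, fun l => cont _, ?_, fun l => mem0 _, ?_, ?_⟩
  · rw [card]
    exact (Equiv.sum_comp e.symm fun l => k l * μ l).symm
  · intro l l' s s' hs hsδ hss hWW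
    obtain ⟨h1, h2⟩ := inj _ _ s s' hs hsδ hss hWW
    exact ⟨e.symm.injective h1, h2⟩
  · obtain ⟨η, hη, h⟩ := near
    exact ⟨η, hη, fun l => h _⟩
  · intro z hz hzδ s hs
    rw [sum z hz hzδ (fun l => s (e l)) (fun l => by
      have := hs (e l)
      simpa using this)]
    rw [← Equiv.sum_comp e.symm]
    refine Finset.sum_congr rfl fun l _ => ?_
    simp only [Equiv.apply_symm_apply]

theorem sum_filter_map {ι : Type} [Fintype ι] (p : ι → Fin N → Prop)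
    [∀ v, DecidablePred (p v)] (f : Fin N → ℂ) (hp : ∀ i, ∃! v, p v i) :
    ∑ v, (Finset.univ.filter (p v)).val.map f = Finset.univ.val.map f := by
  classical
  have h1 : ∀ s : Finset (Fin N), s.val.map f = ∑ i ∈ s, {f i} := by
    intro s
    have h2 := (Multiset.sum_map_singleton (s.val.map f)).symm
    rw [Multiset.map_map] at h2
    exact h2
  simp only [h1]
  simp only [Finset.sum_filter]
  rw [Finset.sum_comm]
  refine Finset.sum_congr rfl fun i _ => ?_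
  obtain ⟨v, hv, hv'⟩ := hp i
  rw [Finset.sum_eq_single v (fun w _ hw => if_neg fun h => hw (hv' w h))
    (fun h => absurd (Finset.mem_univ v) h), if_pos hv]

theorem exists_sep (V0 : Finset ℂ) : ∃ η : ℝ, 0 < η ∧ η ≤ 1 ∧ ∀ v ∈ V0, ∀ w ∈ V0, v ≠ w →
    4 * η ≤ ‖v - w‖ := by
  classical
  set S := (V0 ×ˢ V0).filter fun p => p.1 ≠ p.2 with hS
  rcases S.eq_empty_or_nonempty with he | hne
  · refine ⟨1, one_pos, le_rfl, fun v hv w hw hvw => ?_⟩
    have : (v, w) ∈ S := Finset.mem_filter.2 ⟨Finset.mem_product.2 ⟨hv, hw⟩, hvw⟩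
    rw [he] at this
    exact absurd this (Finset.notMem_empty _)
  · obtain ⟨p, hp, hmin⟩ := Finset.exists_min_image S (fun p => ‖p.1 - p.2‖) hne
    have hp' := (Finset.mem_filter.1 hp).2
    have hpos : 0 < ‖p.1 - p.2‖ := norm_pos_iff.2 (sub_ne_zero.2 hp')
    refine ⟨min 1 (‖p.1 - p.2‖ / 4), by positivity, min_le_left _ _, fun v hv w hw hvw => ?_⟩
    have h1 := hmin (v, w) (Finset.mem_filter.2 ⟨Finset.mem_product.2 ⟨hv, hw⟩, hvw⟩)
    have h2 := min_le_right 1 (‖p.1 - p.2‖ / 4)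
    simp only at h1
    linarith

theorem CLU (hP : PUIS_statement) (hO : ORB_statement) : H957.Asm.CLU_statement := by
  classical
  intro N R K ε L m A g Y D hm hA hlt hL hB
  set V0 : Finset ℂ := Finset.univ.image (Y 0) with hV0
  obtain ⟨η, hη, hη1, hsepV⟩ := exists_sep V0
  obtain ⟨R1, hR1, hR1R, hnear⟩ := sheets_near hB hη
  have hB1 := hB.shrink hR1 hR1R
  have hmem : ∀ j, Y 0 j ∈ V0 := fun j => Finset.mem_image_of_mem _ (Finset.mem_univ j)
  have h0 : (0:ℂ) ∈ ball (0:ℂ) R1 := mem_ball_self hR1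
  have hsep : ∀ v ∈ V0, ∀ z ∈ ball (0:ℂ) R1, ∀ i, ‖Y z i - v‖ < η ∨ 2 * η < ‖Y z i - v‖ := by
    intro v hv z hz i
    obtain ⟨j, hj⟩ := hnear z hz i
    by_cases h : Y 0 j = v
    · left; rwa [← h]
    · right
      have h1 := hsepV _ (hmem j) v hv h
      have h2 : ‖Y 0 j - v‖ ≤ ‖Y z i - v‖ + ‖Y z i - Y 0 j‖ := by
        calc ‖Y 0 j - v‖ = ‖(Y z i - v) - (Y z i - Y 0 j)‖ := by congr 1; ring
          _ ≤ _ := norm_sub_le _ _
      linarith
  have hc : ∀ v ∈ V0, ∀ i, ‖Y 0 i - v‖ < η → Y 0 i = v := by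
    intro v hv i hi
    by_contra h
    have h1 := hsepV _ (hmem i) v hv h
    linarith
  have hVL : ∀ v ∈ V0, ‖v‖ ≤ L := by
    intro v hv
    obtain ⟨i, -, rfl⟩ := Finset.mem_image.1 hv
    exact hB.bdd 0 i
  have hone := fun v : {v // v ∈ V0} => one_value hP hO hm hA hlt hL hB1 hη hη1 (hVL v.1 v.2)
    (hsep v.1 v.2) (hc v.1 v.2)
  choose δ n k μ W hδ hone using hone
  obtain ⟨δ0, hδ0, hδ0R, hδ0v⟩ : ∃ δ0 : ℝ, 0 < δ0 ∧ δ0 ≤ R1 ∧ ∀ v, δ0 ≤ δ v := by
    set T : Finset ℝ := insert R1 (Finset.univ.image δ) with hT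
    have hTn : T.Nonempty := ⟨R1, Finset.mem_insert_self _ _⟩
    refine ⟨T.min' hTn, ?_, T.min'_le _ (Finset.mem_insert_self _ _), fun v =>
      T.min'_le _ (Finset.mem_insert_of_mem (Finset.mem_image_of_mem _ (Finset.mem_univ v)))⟩
    have := T.min'_mem hTn
    rcases Finset.mem_insert.1 this with h | h
    · rw [h]; exact hR1
    · obtain ⟨v, -, hv⟩ := Finset.mem_image.1 h
      rw [← hv]; exact hδ v
  have hex : ∀ z ∈ ball (0:ℂ) R1, ∀ i, ∃! v : {v // v ∈ V0}, ‖Y z i - v.1‖ < η := by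
    intro z hz i
    obtain ⟨j, hj⟩ := hnear z hz i
    refine ⟨⟨Y 0 j, hmem j⟩, hj, fun w hw => ?_⟩
    by_contra h
    have h1 := hsepV w.1 w.2 (Y 0 j) (hmem j) (fun h' => h (Subtype.ext h'))
    have h2 : ‖w.1 - Y 0 j‖ ≤ ‖Y z i - Y 0 j‖ + ‖Y z i - w.1‖ := by
      calc ‖w.1 - Y 0 j‖ = ‖(Y z i - Y 0 j) - (Y z i - w.1)‖ := by congr 1; ring
        _ ≤ _ := norm_sub_le _ _
    have h3 : ‖Y z i - w.1‖ < η := hw
    linarith
  have hsum : ∀ z ∈ ball (0:ℂ) R1, ∑ v : {v // v ∈ V0},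
      (Finset.univ.filter fun i => ‖Y z i - v.1‖ < η).val.map (Y z) = Finset.univ.val.map (Y z) :=
    fun z hz => sum_filter_map (fun v : {v // v ∈ V0} => fun i => ‖Y z i - v.1‖ < η) (Y z) (hex z hz)
  suffices hfin : ∃ (n : ℕ) (k μ : Fin n → ℕ) (W : Fin n → ℂ → ℂ), H957.Asm.TopP N Y δ0 n k μ W by
    obtain ⟨n', k', μ', W', hW'⟩ := hfin
    exact ⟨δ0, n', k', μ', W', hδ0, hδ0R.trans hR1R, hW'⟩
  refine topP_of_fintype (N := N) (Y := Y) (δ := δ0)
    (ι := Σ v : {v // v ∈ V0}, Fin (n v)) (k := fun l => k l.1 l.2) (μ := fun l => μ l.1 l.2)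
    (W := fun l => W l.1 l.2) (fun l => (hone l.1).pos l.2) ?_ ?_ ?_ ?_ ?_ ?_
  · rw [Fintype.sum_sigma]
    have h1 := congrArg Multiset.card (hsum 0 h0)
    rw [Multiset.card_sum] at h1
    simp only [Multiset.card_map, Finset.card_val, Finset.card_univ, Fintype.card_fin] at h1
    rw [← h1]
    exact Finset.sum_congr rfl fun v _ => (hone v).card
  · intro l
    exact ((hone l.1).cont l.2).mono fun s hs => ⟨hs.1, hs.2.trans_le (hδ0v _)⟩
  · rintro ⟨v, a⟩ ⟨v', b⟩ s s' hs hsδ hss hWW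
    simp only at hsδ hss hWW
    have hk' := ((hone v').pos b).1
    have hs' : s' ≠ 0 := by
      rintro rfl
      rw [zero_pow (by omega)] at hss
      exact pow_ne_zero _ hs hss
    have hsδ' : ‖s'‖ ^ k v' b < δ0 := by
      rw [← norm_pow, ← hss, norm_pow]; exact hsδ
    have h1 := (hone v).near a s hs (hsδ.trans_le (hδ0v _))
    have h2 := (hone v').near b s' hs' (hsδ'.trans_le (hδ0v _))
    have hv : v = v' := by
      by_contra h
      have h3 := hsepV v.1 v.2 v'.1 v'.2 (fun h' => h (Subtype.ext h'))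
      have h4 : ‖v.1 - v'.1‖ ≤ ‖W v' b s' - v'.1‖ + ‖W v a s - v.1‖ := by
        rw [← hWW]
        calc ‖v.1 - v'.1‖ = ‖(W v a s - v'.1) - (W v a s - v.1)‖ := by congr 1; ring
          _ ≤ _ := norm_sub_le _ _
      linarith
    subst hv
    obtain ⟨h3, h4⟩ := (hone v).inj a b s s' hs (hsδ.trans_le (hδ0v _)) hss hWW
    subst h3
    exact ⟨rfl, h4⟩
  · intro l
    obtain ⟨i, -, hi⟩ := Finset.mem_image.1 l.1.2
    exact ⟨i, by rw [(hone l.1).zero l.2]; exact hi.symm⟩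
  · refine ⟨η, hη, fun l s hs hsδ i hi => ?_⟩
    have h1 := (hone l.1).near l.2 s hs (hsδ.trans_le (hδ0v _))
    rw [(hone l.1).zero l.2] at hi
    have h2 := hsepV _ (hmem i) l.1.1 l.1.2 hi
    have h3 : ‖Y 0 i - l.1.1‖ ≤ ‖W l.1 l.2 s - l.1.1‖ + ‖W l.1 l.2 s - Y 0 i‖ := by
      calc ‖Y 0 i - l.1.1‖ = ‖(W l.1 l.2 s - l.1.1) - (W l.1 l.2 s - Y 0 i)‖ := by congr 1; ring
        _ ≤ _ := norm_sub_le _ _
    linarith
  · intro z hz hzδ s hs
    have hzb : z ∈ ball (0:ℂ) R1 := by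
      rw [mem_ball, dist_zero_right]; exact hzδ.trans_le hδ0R
    rw [← hsum z hzb, Fintype.sum_sigma]
    refine Finset.sum_congr rfl fun v _ => ?_
    exact (hone v).sum z hz (hzδ.trans_le (hδ0v _)) (fun a => s ⟨v, a⟩) (fun a => hs ⟨v, a⟩)

end Vale.Agent.P247.H324
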