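import Vale.Agent.P247.H324.MG.Clu

/-! The vector of centred power sums of a cluster. -/

open MeasureTheory Set Metric Filter Topology
open scoped ContDiff ENNReal NNReal Nat

set_option linter.unusedSectionVars false
set_option linter.unusedVariables false

noncomputable section

namespace Vale.Agent.P247.H324

open Vale.Agent.P272.CT

abbrev V1 (k : ℕ) := Fin (2 * k + 1) → ℂ
abbrev V2 (k : ℕ) := Fin (2 * k) → ℂ

/-- the exponents -/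
def ex (k : ℕ) (l : Fin (2 * k)) : ℕ := (2 * k)! / ((l:ℕ) + 1)

theorem ex_mul (k : ℕ) (l : Fin (2 * k)) : ex k l * ((l:ℕ) + 1) = (2 * k)! := by
  unfold ex
  exact Nat.div_mul_cancel (Nat.dvd_factorial (Nat.succ_pos _) l.2)

theorem ex_pos (k : ℕ) (l : Fin (2 * k)) : 1 ≤ ex k l := by
  have h1 := ex_mul k l
  have h2 := Nat.factorial_pos (2 * k)
  rcases Nat.eq_zero_or_pos (ex k l) with h | h
  · rw [h, zero_mul] at h1; omega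
  · exact h

/-- power sums of a subfamily -/
def sg {N : ℕ} (k : ℕ) (J : Finset (Fin N)) (y : Fin N → ℂ) : V1 k := fun j => ∑ i ∈ J, y i ^ (j:ℕ)

/-- mean -/
def mn {N : ℕ} (k : ℕ) (J : Finset (Fin N)) (y : Fin N → ℂ) : ℂ := (k:ℂ)⁻¹ * ∑ i ∈ J, y i

/-- centred power sums in terms of power sums -/
def pl (k : ℕ) (s : V1 k) (l : Fin (2 * k)) : ℂ :=
  ∑ j : Fin (2 * k + 1), s j * (-((k:ℂ)⁻¹ * s 1)) ^ (((l:ℕ) + 1) - (j:ℕ)) *
    (Nat.choose ((l:ℕ) + 1) (j:ℕ) : ℂ)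

/-- the vector -/
def Phi (k : ℕ) (s : V1 k) : V2 k := fun l => pl k s l ^ ex k l

theorem Phi_contDiff (k : ℕ) : ContDiff ℝ ∞ (Phi k) := by
  unfold Phi pl
  fun_prop

theorem pl_sg {N : ℕ} {k : ℕ} (hk : 1 ≤ k) (J : Finset (Fin N)) (y : Fin N → ℂ) (l : Fin (2 * k)) :
    pl k (sg k J y) l = ∑ i ∈ J, (y i - mn k J y) ^ ((l:ℕ) + 1) := by
  have h1 : ((1 : Fin (2 * k + 1)) : ℕ) = 1 := by
    rw [Fin.val_one', Nat.mod_eq_of_lt (by omega)]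
  have hs1 : sg k J y 1 = ∑ i ∈ J, y i := by
    unfold sg
    rw [h1]; simp
  unfold pl
  rw [hs1]
  have h2 : ∀ x : ℂ, ∑ j : Fin (2 * k + 1), x ^ (j:ℕ) * (-((k:ℂ)⁻¹ * ∑ i ∈ J, y i)) ^ (((l:ℕ) + 1) - (j:ℕ)) *
      (Nat.choose ((l:ℕ) + 1) (j:ℕ) : ℂ) = (x - mn k J y) ^ ((l:ℕ) + 1) := by
    intro x
    rw [sub_eq_add_neg, add_pow]
    rw [Fin.sum_univ_eq_sum_range (fun j => x ^ j * (-((k:ℂ)⁻¹ * ∑ i ∈ J, y i)) ^ (((l:ℕ) + 1) - j) *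
      (Nat.choose ((l:ℕ) + 1) j : ℂ)) (2 * k + 1)]
    have hl := l.2
    have hsub : Finset.range ((l:ℕ) + 1 + 1) ⊆ Finset.range (2 * k + 1) := by
      intro j hj
      rw [Finset.mem_range] at hj ⊢
      omega
    rw [← Finset.sum_subset hsub]
    · rfl
    · intro j _ hj
      rw [Finset.mem_range, not_lt] at hj
      rw [Nat.choose_eq_zero_of_lt (by omega)]
      simp
  unfold sg
  simp_rw [Finset.sum_mul]
  rw [Finset.sum_comm]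
  exact Finset.sum_congr rfl fun i _ => h2 (y i)

/-- the differential of the composed map -/
def dPsi {N : ℕ} (k : ℕ) (J : Finset (Fin N)) (y e : Fin N → ℂ) (l : Fin (2 * k)) : ℂ :=
  (ex k l : ℂ) * (∑ i ∈ J, (y i - mn k J y) ^ ((l:ℕ) + 1)) ^ (ex k l - 1) *
    ∑ i ∈ J, (((l:ℕ) + 1 : ℕ) : ℂ) * (y i - mn k J y) ^ (l:ℕ) * (e i - mn k J e)

theorem dPsi_lin {N : ℕ} (k : ℕ) (J : Finset (Fin N)) (y e e' : Fin N → ℂ) (a b : ℂ)
    (l : Fin (2 * k)) : dPsi k J y (fun i => a * e i + b * e' i) l =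
      a * dPsi k J y e l + b * dPsi k J y e' l := by
  unfold dPsi
  have h1 : mn k J (fun i => a * e i + b * e' i) = a * mn k J e + b * mn k J e' := by
    unfold mn
    rw [Finset.sum_add_distrib, ← Finset.mul_sum, ← Finset.mul_sum]; ring
  rw [h1]
  have h2 : ∑ i ∈ J, (((l:ℕ) + 1 : ℕ) : ℂ) * (y i - mn k J y) ^ (l:ℕ) *
      (a * e i + b * e' i - (a * mn k J e + b * mn k J e')) =
      a * (∑ i ∈ J, (((l:ℕ) + 1 : ℕ) : ℂ) * (y i - mn k J y) ^ (l:ℕ) * (e i - mn k J e)) +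
      b * ∑ i ∈ J, (((l:ℕ) + 1 : ℕ) : ℂ) * (y i - mn k J y) ^ (l:ℕ) * (e' i - mn k J e') := by
    rw [Finset.mul_sum, Finset.mul_sum, ← Finset.sum_add_distrib]
    exact Finset.sum_congr rfl fun i _ => by ring
  rw [h2]; ring

theorem key_deriv {N : ℕ} {k : ℕ} (hk : 1 ≤ k) (J : Finset (Fin N)) (y e : Fin N → ℂ) (s' : V1 k)
    (hs' : ∀ j, s' j = ∑ i ∈ J, (j:ℂ) * y i ^ ((j:ℕ) - 1) * e i) (l : Fin (2 * k)) :
    (fderiv ℝ (Phi k) (sg k J y) s') l = dPsi k J y e l := by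
  have hline : ∀ i, HasDerivAt (fun τ : ℝ => y i + (τ:ℂ) * e i) (e i) 0 := by
    intro i
    have h1 : HasDerivAt (fun τ : ℝ => (τ:ℂ)) 1 0 := Complex.ofRealCLM.hasDerivAt
    have h2 := (h1.mul_const (e i)).const_add (y i)
    simpa using h2
  have hf1 : HasDerivAt (fun τ : ℝ => sg k J (fun i => y i + (τ:ℂ) * e i)) s' 0 := by
    rw [hasDerivAt_pi]
    intro j
    have h3 : HasDerivAt (fun τ : ℝ => ∑ i ∈ J, (y i + (τ:ℂ) * e i) ^ (j:ℕ))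
        (∑ i ∈ J, ((j:ℕ):ℂ) * (y i + ((0:ℝ):ℂ) * e i) ^ ((j:ℕ) - 1) * e i) 0 :=
      HasDerivAt.fun_sum fun i _ => (hline i).pow (j:ℕ)
    rw [hs' j]
    simpa [sg] using h3
  have hΦ : HasFDerivAt (Phi k) (fderiv ℝ (Phi k) (sg k J y))
      (sg k J (fun i => y i + ((0:ℝ):ℂ) * e i)) := by
    have h4 : (fun i => y i + ((0:ℝ):ℂ) * e i) = y := by funext i; simp
    rw [h4]
    exact (((Phi_contDiff k).differentiable (by simp)) _).hasFDerivAt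
  have h5 := hΦ.comp_hasDerivAt (0:ℝ) hf1
  rw [hasDerivAt_pi] at h5
  have h6 := h5 l
  -- direct computation
  have hmn : HasDerivAt (fun τ : ℝ => mn k J (fun i => y i + (τ:ℂ) * e i)) (mn k J e) 0 := by
    unfold mn
    exact (HasDerivAt.fun_sum fun i _ => hline i).const_mul _
  have hterm : ∀ i, HasDerivAt (fun τ : ℝ => ((y i + (τ:ℂ) * e i) -
      mn k J (fun i => y i + (τ:ℂ) * e i)) ^ ((l:ℕ) + 1))
      ((((l:ℕ) + 1 : ℕ) : ℂ) * (y i - mn k J y) ^ (l:ℕ) * (e i - mn k J e)) 0 := by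
    intro i
    have h7 := ((hline i).sub hmn).pow ((l:ℕ) + 1)
    have h8 := h7.congr_deriv (g' := (((l:ℕ) + 1 : ℕ) : ℂ) * (y i - mn k J y) ^ (l:ℕ) *
      (e i - mn k J e)) (by simp)
    exact h8
  have hsum : HasDerivAt (fun τ : ℝ => ∑ i ∈ J, ((y i + (τ:ℂ) * e i) -
      mn k J (fun i => y i + (τ:ℂ) * e i)) ^ ((l:ℕ) + 1))
      (∑ i ∈ J, (((l:ℕ) + 1 : ℕ) : ℂ) * (y i - mn k J y) ^ (l:ℕ) * (e i - mn k J e)) 0 :=
    HasDerivAt.fun_sum fun i _ => hterm i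
  have hpow := hsum.pow (ex k l)
  have heq : (fun τ : ℝ => (Phi k ∘ fun τ : ℝ => sg k J (fun i => y i + (τ:ℂ) * e i)) τ l) =
      fun τ : ℝ => (∑ i ∈ J, ((y i + (τ:ℂ) * e i) -
      mn k J (fun i => y i + (τ:ℂ) * e i)) ^ ((l:ℕ) + 1)) ^ ex k l := by
    funext τ
    simp only [Function.comp, Phi]
    rw [pl_sg hk]
  rw [heq] at h6
  rw [h6.unique hpow]
  unfold dPsi
  simp

theorem norm_sum_le_card' {N : ℕ} {J : Finset (Fin N)} {f : Fin N → ℂ} {b : ℝ}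
    (h : ∀ i ∈ J, ‖f i‖ ≤ b) : ‖∑ i ∈ J, f i‖ ≤ J.card * b := by
  have := norm_sum_le_of_le J h
  rwa [Finset.sum_const, nsmul_eq_mul] at this

theorem dPsi_le {N : ℕ} {k : ℕ} (hk : 1 ≤ k) {J : Finset (Fin N)} (hJ : J.card = k)
    {y e : Fin N → ℂ} {δ b : ℝ} (hδ : 0 ≤ δ) (hb : 0 ≤ b) (h1 : ∀ i ∈ J, ‖y i - mn k J y‖ ≤ δ)
    (h2 : ∀ i ∈ J, ‖e i - mn k J e‖ ≤ δ * b) (l : Fin (2 * k)) :
    ‖dPsi k J y e l‖ ≤ ((2 * k)! * (k:ℝ) ^ (2 * k)!) * b * δ ^ (2 * k)! := by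
  have hk' : (1:ℝ) ≤ k := by exact_mod_cast hk
  have hP : ‖∑ i ∈ J, (y i - mn k J y) ^ ((l:ℕ) + 1)‖ ≤ k * δ ^ ((l:ℕ) + 1) := by
    have := norm_sum_le_card' (J := J) (f := fun i => (y i - mn k J y) ^ ((l:ℕ) + 1))
      (b := δ ^ ((l:ℕ) + 1)) fun i hi => by
        rw [norm_pow]; exact pow_le_pow_left₀ (norm_nonneg _) (h1 i hi) _
    rwa [hJ] at this
  have hS : ‖∑ i ∈ J, (((l:ℕ) + 1 : ℕ) : ℂ) * (y i - mn k J y) ^ (l:ℕ) * (e i - mn k J e)‖ ≤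
      k * ((((l:ℕ) + 1 : ℕ) : ℝ) * δ ^ (l:ℕ) * (δ * b)) := by
    have := norm_sum_le_card' (J := J)
      (f := fun i => (((l:ℕ) + 1 : ℕ) : ℂ) * (y i - mn k J y) ^ (l:ℕ) * (e i - mn k J e))
      (b := (((l:ℕ) + 1 : ℕ) : ℝ) * δ ^ (l:ℕ) * (δ * b)) fun i hi => by
        rw [norm_mul, norm_mul, Complex.norm_natCast, norm_pow]
        have a1 := pow_le_pow_left₀ (norm_nonneg _) (h1 i hi) (l:ℕ)
        have a2 := h2 i hi
        gcongr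
    rwa [hJ] at this
  obtain ⟨n, hn⟩ : ∃ n, ex k l = n + 1 := ⟨ex k l - 1, by have := ex_pos k l; omega⟩
  have hexm : (n + 1) * ((l:ℕ) + 1) = (2 * k)! := by rw [← hn]; exact ex_mul k l
  unfold dPsi
  rw [hn, Nat.add_sub_cancel, norm_mul, norm_mul, Complex.norm_natCast, norm_pow]
  calc ((n + 1 : ℕ):ℝ) * ‖∑ i ∈ J, (y i - mn k J y) ^ ((l:ℕ) + 1)‖ ^ n *
        ‖∑ i ∈ J, (((l:ℕ) + 1 : ℕ) : ℂ) * (y i - mn k J y) ^ (l:ℕ) * (e i - mn k J e)‖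
      ≤ ((n + 1 : ℕ):ℝ) * (k * δ ^ ((l:ℕ) + 1)) ^ n *
        (k * ((((l:ℕ) + 1 : ℕ) : ℝ) * δ ^ (l:ℕ) * (δ * b))) := by gcongr
    _ = (((n + 1) * ((l:ℕ) + 1) : ℕ) : ℝ) * (k:ℝ) ^ (n + 1) * b * δ ^ ((n + 1) * ((l:ℕ) + 1)) := by
        push_cast
        rw [mul_pow, ← pow_mul]
        have e1 : δ ^ ((n + 1) * ((l:ℕ) + 1)) = δ ^ (((l:ℕ) + 1) * n) * (δ ^ (l:ℕ) * δ) := by
          rw [← pow_succ, ← pow_add]; congr 1; ring
        rw [e1, pow_succ]; ring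
    _ = ((2 * k)! : ℝ) * (k:ℝ) ^ (n + 1) * b * δ ^ (2 * k)! := by rw [hexm]
    _ ≤ ((2 * k)! * (k:ℝ) ^ (2 * k)!) * b * δ ^ (2 * k)! := by
        have : n + 1 ≤ (2 * k)! := by rw [← hexm]; exact Nat.le_mul_of_pos_right _ (Nat.succ_pos _)
        gcongr

/-- the vector controls the spread -/
theorem Phi_ge (k : ℕ) (hk : 1 ≤ k) : ∃ C : ℝ, 0 < C ∧ ∀ {N : ℕ} (J : Finset (Fin N)) (y : Fin N → ℂ),
    J.card = k → ∀ i ∈ J, ‖y i - mn k J y‖ ^ (2 * k)! ≤ C * ‖Phi k (sg k J y)‖ := by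
  obtain ⟨C, hC, h⟩ := psum_bound k
  refine ⟨C ^ (2 * k)!, by positivity, fun {N} J y hJ i hi => ?_⟩
  have hF : (2 * k)! ≠ 0 := (Nat.factorial_pos _).ne'
  set M := ‖Phi k (sg k J y)‖ with hM
  have hM0 : 0 ≤ M := norm_nonneg _
  set δ : ℝ := M ^ (((2 * k)! : ℝ)⁻¹) with hδ
  have hδ0 : 0 ≤ δ := by positivity
  have hδM : δ ^ (2 * k)! = M := Real.rpow_inv_natCast_pow hM0 hF
  set s : Multiset ℂ := J.val.map fun i => y i - mn k J y with hs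
  have hps : ∀ l, psm s l = ∑ i ∈ J, (y i - mn k J y) ^ l := by
    intro l
    rw [hs, psm, Multiset.map_map]; rfl
  have h1 := h s (by rw [hs, Multiset.card_map]; exact hJ) δ hδ0 ?_ (y i - mn k J y)
    (Multiset.mem_map.2 ⟨i, hi, rfl⟩)
  · calc ‖y i - mn k J y‖ ^ (2 * k)! ≤ (C * δ) ^ (2 * k)! := by gcongr
      _ = C ^ (2 * k)! * M := by rw [mul_pow, hδM]
  · intro l hl1 hl2
    rw [hps]
    have h2 := norm_le_pi_norm (Phi k (sg k J y)) ⟨l - 1, by omega⟩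
    rw [← hM] at h2
    unfold Phi at h2
    rw [pl_sg hk, norm_pow] at h2
    simp only at h2
    have e : l - 1 + 1 = l := by omega
    rw [e] at h2
    have h3 : ex k ⟨l - 1, by omega⟩ * l = (2 * k)! := by
      have := ex_mul k ⟨l - 1, by omega⟩
      simp only at this
      rwa [e] at this
    have h4 : ‖∑ i ∈ J, (y i - mn k J y) ^ l‖ ^ ex k ⟨l - 1, by omega⟩ ≤
        (δ ^ l) ^ ex k ⟨l - 1, by omega⟩ := by
      rw [← pow_mul, mul_comm l, h3, hδM]; exact h2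
    exact le_of_pow_le_pow_left₀ (by have := ex_pos k ⟨l - 1, by omega⟩; omega) (by positivity) h4

end Vale.Agent.P247.H324
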