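import Vale.Agent.P247.H324.SPM.Scale

/-! Weak total derivatives of functions of one complex variable: mollification, chain rules. -/

open MeasureTheory Set Metric Filter Topology
open scoped ContDiff ENNReal Convolution

set_option linter.unusedSectionVars false
set_option linter.unusedVariables false

noncomputable section

namespace Vale.Agent.P247.H324

open Vale.Agent.P272.CT

variable {E : Type*} [NormedAddCommGroup E] [NormedSpace ℝ E]
  {F : Type*} [NormedAddCommGroup F] [NormedSpace ℝ F]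

/-- `f'` is the weak total derivative of `f` on `U` -/
structure WG (U : Set ℂ) (f : ℂ → E) (f' : ℂ → ℂ →L[ℝ] E) : Prop where
  intf : ∀ K, IsCompact K → K ⊆ U → IntegrableOn f K
  int : ∀ K, IsCompact K → K ⊆ U → IntegrableOn f' K
  wd : ∀ φ : ℂ → ℝ, ContDiff ℝ ∞ φ → HasCompactSupport φ → tsupport φ ⊆ U → ∀ v : ℂ,
    ∫ z, fderiv ℝ φ z v • f z = - ∫ z, φ z • f' z v

/-- real mollification at scale `δ` -/
def rm (δ : ℝ) (hδ : 0 < δ) (g : ℂ → E) : ℂ → E :=
  (bmp δ hδ).normed volume ⋆[ContinuousLinearMap.lsmul ℝ ℝ, volume] g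

/-- the mollifier -/
def bp (δ : ℝ) (hδ : 0 < δ) : ℂ → ℝ := (bmp δ hδ).normed volume

section rm

variable {δ : ℝ} (hδ : 0 < δ) {g : ℂ → E}

theorem bp_contDiff : ContDiff ℝ ∞ (bp δ hδ) := (bmp δ hδ).contDiff_normed

theorem bp_compact : HasCompactSupport (bp δ hδ) := (bmp δ hδ).hasCompactSupport_normed

theorem bp_nonneg (x : ℂ) : 0 ≤ bp δ hδ x := (bmp δ hδ).nonneg_normed x

theorem bp_integral : ∫ x, bp δ hδ x = 1 := (bmp δ hδ).integral_normed

theorem bp_zero {x : ℂ} (hx : δ ≤ ‖x‖) : bp δ hδ x = 0 := by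
  have h : x ∉ Function.support (bp δ hδ) := by
    rw [bp, ContDiffBump.support_normed_eq, mem_ball_zero_iff, not_lt]
    exact hx
  by_contra h4
  exact h h4

theorem bp_lintegral (x : ℂ) : ∫⁻ t, ‖bp δ hδ (t - x)‖ₑ = 1 := by
  rw [lintegral_sub_right_eq_self (μ := volume) (fun t => ‖bp δ hδ t‖ₑ) x]
  have h1 : ∫⁻ t, ‖bp δ hδ t‖ₑ = ENNReal.ofReal (∫ t, bp δ hδ t) := by
    rw [ofReal_integral_eq_lintegral_ofReal]
    · refine lintegral_congr fun t => ?_
      rw [Real.enorm_of_nonneg (bp_nonneg hδ t)]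
    · exact (bp_contDiff hδ).continuous.integrable_of_hasCompactSupport (bp_compact hδ)
    · exact Eventually.of_forall (bp_nonneg hδ)
  rw [h1, bp_integral, ENNReal.ofReal_one]

variable [CompleteSpace E]

theorem rm_contDiff (hg : LocallyIntegrable g) : ContDiff ℝ ∞ (rm δ hδ g) :=
  (bmp δ hδ).hasCompactSupport_normed.contDiff_convolution_left _
    (bmp δ hδ).contDiff_normed hg

theorem rm_dist (hg : AEStronglyMeasurable g) {x : ℂ} {ε : ℝ}
    (h : ∀ y ∈ ball x δ, dist (g y) (g x) ≤ ε) : dist (rm δ hδ g x) (g x) ≤ ε :=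
  ContDiffBump.dist_normed_convolution_le hg h

theorem rm_apply (x : ℂ) : rm δ hδ g x = ∫ t, bp δ hδ (x - t) • g t := by
  unfold rm
  rw [convolution_eq_swap]
  rfl

theorem rm_fderiv (hg : LocallyIntegrable g) (x w : ℂ) :
    fderiv ℝ (rm δ hδ g) x w = ∫ t, fderiv ℝ (bp δ hδ) (x - t) w • g t := by
  have h1 := (bmp δ hδ).hasCompactSupport_normed (μ := volume)
  have h2 : ContDiff ℝ ∞ ((bmp δ hδ).normed volume) := (bmp δ hδ).contDiff_normed
  have h3 := h1.hasFDerivAt_convolution_left (ContinuousLinearMap.lsmul ℝ ℝ)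
    (h2.of_le (by simp)) hg x
  have h4 : fderiv ℝ (rm δ hδ g) x = _ := h3.fderiv
  rw [h4, convolution_eq_swap]
  have h5 : Integrable (fun t => ((ContinuousLinearMap.lsmul ℝ ℝ :
      ℝ →L[ℝ] E →L[ℝ] E).precompL ℂ) (fderiv ℝ ((bmp δ hδ).normed volume) (x - t)) (g t)) := by
    have h6 := ((h1.fderiv ℝ).convolutionExists_left ((ContinuousLinearMap.lsmul ℝ ℝ :
      ℝ →L[ℝ] E →L[ℝ] E).precompL ℂ) (h2.continuous_fderiv (by simp)) hg x)
    exact h6.integrable_swap
  rw [ContinuousLinearMap.integral_apply h5]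
  rfl

theorem enorm_rm_le (x : ℂ) : ‖rm δ hδ g x‖ₑ ≤ ∫⁻ t, ‖bp δ hδ (x - t)‖ₑ * ‖g t‖ₑ := by
  rw [rm_apply]
  refine (enorm_integral_le_lintegral_enorm _).trans (le_of_eq ?_)
  refine lintegral_congr fun t => ?_
  rw [enorm_smul]

theorem lint_rm_le (hg : AEStronglyMeasurable g) : ∫⁻ x, ‖rm δ hδ g x‖ₑ ≤ ∫⁻ t, ‖g t‖ₑ := by
  calc ∫⁻ x, ‖rm δ hδ g x‖ₑ ≤ ∫⁻ x, ∫⁻ t, ‖bp δ hδ (x - t)‖ₑ * ‖g t‖ₑ :=
        lintegral_mono fun x => enorm_rm_le hδ x
    _ = ∫⁻ t, ∫⁻ x, ‖bp δ hδ (x - t)‖ₑ * ‖g t‖ₑ := by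
        refine lintegral_lintegral_swap ?_
        have m1 : AEMeasurable (fun p : ℂ × ℂ => ‖bp δ hδ (p.1 - p.2)‖ₑ) (volume.prod volume) :=
          (((bp_contDiff hδ).continuous.comp
            (continuous_fst.sub continuous_snd)).enorm.measurable).aemeasurable
        have m2 : AEMeasurable (fun p : ℂ × ℂ => ‖g p.2‖ₑ) (volume.prod volume) :=
          hg.enorm.comp_quasiMeasurePreserving Measure.quasiMeasurePreserving_snd
        exact m1.mul m2
    _ = ∫⁻ t, ‖g t‖ₑ := by
        refine lintegral_congr fun t => ?_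
        rw [lintegral_mul_const'' _ ?_, bp_lintegral, one_mul]
        exact (((bp_contDiff hδ).continuous.comp
            (continuous_id.sub continuous_const)).enorm.measurable).aemeasurable

theorem rm_sub (hg : LocallyIntegrable g) {g' : ℂ → E} (hg' : LocallyIntegrable g') (x : ℂ) :
    rm δ hδ (fun t => g t - g' t) x = rm δ hδ g x - rm δ hδ g' x := by
  rw [rm_apply, rm_apply, rm_apply, ← integral_sub]
  · simp only [smul_sub]
  · have h1 : Continuous fun t => bp δ hδ (x - t) :=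
      (bp_contDiff hδ).continuous.comp (continuous_const.sub continuous_id)
    refine hg.integrable_smul_left_of_hasCompactSupport h1 ?_
    exact (bp_compact hδ).comp_homeomorph (Homeomorph.subLeft x)
  · have h1 : Continuous fun t => bp δ hδ (x - t) :=
      (bp_contDiff hδ).continuous.comp (continuous_const.sub continuous_id)
    refine hg'.integrable_smul_left_of_hasCompactSupport h1 ?_
    exact (bp_compact hδ).comp_homeomorph (Homeomorph.subLeft x)

end rm

/-- mollification converges in `L¹` -/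
theorem rm_L1 [CompleteSpace E] {g : ℂ → E} (hg : Integrable g) {ε : ℝ} (hε : 0 < ε) :
    ∃ δ0 > 0, ∀ δ (hδ : 0 < δ), δ < δ0 → ∫⁻ x, ‖rm δ hδ g x - g x‖ₑ ≤ ENNReal.ofReal ε := by
  obtain ⟨g0, hg0s, hg0, hg0c, hg0i⟩ := hg.exists_hasCompactSupport_lintegral_sub_le
    (ε := ENNReal.ofReal (ε / 3)) (by simpa using hε)
  -- uniform continuity
  have huc : UniformContinuous g0 := hg0s.uniformContinuous_of_continuous hg0c 
  obtain ⟨R, hR⟩ := hg0s.isCompact.isBounded.subset_closedBall 0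
  set V : ℝ := (volume (closedBall (0:ℂ) (R + 1))).toReal with hV
  have hVfin : volume (closedBall (0:ℂ) (R + 1)) ≠ ⊤ := (isCompact_closedBall _ _).measure_lt_top.ne
  obtain ⟨d, hd, hud⟩ := Metric.uniformContinuous_iff.1 huc (ε / (3 * (V + 1))) (by positivity)
  refine ⟨min d 1, by positivity, fun δ hδ hδd => ?_⟩
  have hδd1 : δ < d := hδd.trans_le (min_le_left _ _)
  have hδ1 : δ < 1 := hδd.trans_le (min_le_right _ _)
  have h1 : ∀ x, ‖rm δ hδ g0 x - g0 x‖ ≤ ε / (3 * (V + 1)) := by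
    intro x
    rw [← dist_eq_norm]
    refine rm_dist hδ hg0c.aestronglyMeasurable fun y hy => ?_
    exact (hud ((mem_ball.1 hy).trans hδd1)).le
  have h2 : ∀ x ∉ closedBall (0:ℂ) (R + 1), rm δ hδ g0 x - g0 x = 0 := by
    intro x hx
    have hx' : ∀ t ∈ tsupport g0, ‖t‖ ≤ R := fun t ht => by simpa using hR ht
    have e0 : g0 x = 0 := by
      by_contra h
      have := hx' x (subset_tsupport _ h)
      apply hx
      rw [mem_closedBall_zero_iff]; linarith
    rw [e0, sub_zero, rm_apply]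
    refine integral_eq_zero_of_ae (Eventually.of_forall fun t => ?_)
    by_cases ht : t ∈ tsupport g0
    · have h3 := hx' t ht
      have h4 : R + 1 < ‖x‖ := by
        by_contra h; exact hx (by rw [mem_closedBall_zero_iff]; linarith)
      have h5 : δ ≤ ‖x - t‖ := by
        have := norm_sub_norm_le x t
        linarith
      simp [bp_zero hδ h5]
    · simp [image_eq_zero_of_notMem_tsupport ht]
  have h3 : ∫⁻ x, ‖rm δ hδ g0 x - g0 x‖ₑ ≤ ENNReal.ofReal (ε / 3) := by
    calc ∫⁻ x, ‖rm δ hδ g0 x - g0 x‖ₑ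
        ≤ ∫⁻ x, (closedBall (0:ℂ) (R + 1)).indicator
            (fun _ => ENNReal.ofReal (ε / (3 * (V + 1)))) x := by
          refine lintegral_mono fun x => ?_
          by_cases hx : x ∈ closedBall (0:ℂ) (R + 1)
          · rw [indicator_of_mem hx, ← ofReal_norm]
            exact ENNReal.ofReal_le_ofReal (h1 x)
          · rw [indicator_of_notMem hx, h2 x hx]; simp
      _ = ENNReal.ofReal (ε / (3 * (V + 1))) * volume (closedBall (0:ℂ) (R + 1)) := by
          rw [lintegral_indicator measurableSet_closedBall, setLIntegral_const]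
      _ = ENNReal.ofReal (ε / (3 * (V + 1))) * ENNReal.ofReal V := by
          rw [hV, ENNReal.ofReal_toReal hVfin]
      _ = ENNReal.ofReal (ε / (3 * (V + 1)) * V) := by
          rw [ENNReal.ofReal_mul (by positivity)]
      _ ≤ ENNReal.ofReal (ε / 3) := by
          refine ENNReal.ofReal_le_ofReal ?_
          have hV0 : 0 ≤ V := ENNReal.toReal_nonneg
          rw [div_mul_eq_mul_div, div_le_div_iff₀ (by positivity) (by norm_num)]
          nlinarith
  have hgg : AEStronglyMeasurable (fun x => g x - g0 x) :=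
    hg.aestronglyMeasurable.sub hg0c.aestronglyMeasurable
  calc ∫⁻ x, ‖rm δ hδ g x - g x‖ₑ
      ≤ ∫⁻ x, (‖rm δ hδ (fun t => g t - g0 t) x‖ₑ + ‖rm δ hδ g0 x - g0 x‖ₑ + ‖g x - g0 x‖ₑ) := by
        refine lintegral_mono fun x => ?_
        have e : rm δ hδ g x - g x = rm δ hδ (fun t => g t - g0 t) x + (rm δ hδ g0 x - g0 x)
            - (g x - g0 x) := by
          rw [rm_sub hδ hg.locallyIntegrable hg0i.locallyIntegrable]; abel
        rw [e]
        refine (enorm_sub_le).trans ?_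
        gcongr
        exact enorm_add_le _ _
    _ ≤ (∫⁻ x, ‖rm δ hδ (fun t => g t - g0 t) x‖ₑ) + (∫⁻ x, ‖rm δ hδ g0 x - g0 x‖ₑ)
          + ∫⁻ x, ‖g x - g0 x‖ₑ := by
        have m1 : Measurable fun x => ‖rm δ hδ (fun t => g t - g0 t) x‖ₑ :=
          (rm_contDiff hδ (hg.sub hg0i).locallyIntegrable).continuous.enorm.measurable
        have m2 : Measurable fun x => ‖rm δ hδ g0 x - g0 x‖ₑ :=
          ((rm_contDiff hδ hg0i.locallyIntegrable).continuous.sub hg0c).enorm.measurable
        have m12 : Measurable fun x => ‖rm δ hδ (fun t => g t - g0 t) x‖ₑ +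
          ‖rm δ hδ g0 x - g0 x‖ₑ := m1.add m2
        rw [lintegral_add_left m12, lintegral_add_left m1]
    _ ≤ ENNReal.ofReal (ε / 3) + ENNReal.ofReal (ε / 3) + ENNReal.ofReal (ε / 3) := by
        gcongr
        · exact (lint_rm_le hδ hgg).trans hg0
    _ = ENNReal.ofReal ε := by
        rw [← ENNReal.ofReal_add (by positivity) (by positivity),
          ← ENNReal.ofReal_add (by positivity) (by positivity)]
        congr 1; ring

end Vale.Agent.P247.H324
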