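import Vale.Agent.P247.H324.MG.WG

/-! Approximation of functions with weak derivatives. -/

open MeasureTheory Set Metric Filter Topology
open scoped ContDiff ENNReal Convolution

set_option linter.unusedSectionVars false
set_option linter.unusedVariables false

noncomputable section

namespace Vale.Agent.P247.H324

open Vale.Agent.P272.CT

variable {E : Type*} [NormedAddCommGroup E] [NormedSpace ℝ E]
  {F : Type*} [NormedAddCommGroup F] [NormedSpace ℝ F]

theorem int_ind {G : Type*} [NormedAddCommGroup G] {f : ℂ → G} {K : Set ℂ} (hK : MeasurableSet K)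
    (h : IntegrableOn f K) : Integrable (K.indicator f) := h.integrable_indicator hK

theorem rm_test_tsupport {δ : ℝ} (hδ : 0 < δ) (x : ℂ) :
    tsupport (fun t => bp δ hδ (x - t)) ⊆ closedBall x δ := by
  refine closure_minimal ?_ isClosed_closedBall
  intro t ht
  by_contra hcon
  refine ht ?_
  refine bp_zero hδ ?_
  rw [mem_closedBall, not_le, dist_comm, dist_eq_norm] at hcon
  exact hcon.le

/-- the mollified derivative -/
theorem WG.rm_fderiv [CompleteSpace E] {U : Set ℂ} {f : ℂ → E} {f' : ℂ → ℂ →L[ℝ] E}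
    (h : WG U f f') {δ : ℝ} (hδ : 0 < δ) {g : ℂ → E} {g' : ℂ → ℂ →L[ℝ] E}
    (hg : LocallyIntegrable g) (hg' : LocallyIntegrable g') {x : ℂ} (hx : closedBall x δ ⊆ U)
    (e1 : ∀ y ∈ closedBall x δ, g y = f y) (e2 : ∀ y ∈ closedBall x δ, g' y = f' y) :
    fderiv ℝ (rm δ hδ g) x = rm δ hδ g' x := by
  set φ := bp δ hδ with hφ
  have hφs : ContDiff ℝ ∞ φ := bp_contDiff hδ
  set η : ℂ → ℝ := fun t => φ (x - t) with hη
  have hηs : ContDiff ℝ ∞ η := hφs.comp (contDiff_const.sub contDiff_id)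
  have htsupp : tsupport η ⊆ closedBall x δ := rm_test_tsupport hδ x
  have hcs : HasCompactSupport η :=
    (isCompact_closedBall x δ).of_isClosed_subset (isClosed_tsupport _) htsupp
  have hηd : ∀ t w, fderiv ℝ η t w = - (fderiv ℝ φ (x - t) w) := by
    intro t w
    have h1 : HasFDerivAt (fun t : ℂ => x - t) (-ContinuousLinearMap.id ℝ ℂ) t := by
      simpa using (hasFDerivAt_id (𝕜 := ℝ) t).const_sub x
    have h2 : HasFDerivAt φ (fderiv ℝ φ (x - t)) (x - t) :=
      ((hφs.differentiable (by simp)) (x - t)).hasFDerivAt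
    have h3 := h2.comp t h1
    have h4 : fderiv ℝ η t = _ := h3.fderiv
    rw [h4]
    simp
  have hz0 : ∀ t ∉ closedBall x δ, η t = 0 := fun t ht => by
    by_contra h1
    exact ht (htsupp (subset_tsupport _ h1))
  have hz : ∀ t ∉ closedBall x δ, ∀ w, fderiv ℝ η t w = 0 := fun t ht w => by
    have : fderiv ℝ η t = 0 := by
      by_contra h1
      exact ht (htsupp (tsupport_fderiv_subset ℝ (subset_tsupport _ h1)))
    rw [this]; rfl
  ext w
  have key := h.wd η hηs hcs (htsupp.trans hx) w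
  have hI : Integrable fun t => η t • g' t :=
    hg'.integrable_smul_left_of_hasCompactSupport hηs.continuous hcs
  calc fderiv ℝ (rm δ hδ g) x w = ∫ t, fderiv ℝ φ (x - t) w • g t := Vale.Agent.P247.H324.rm_fderiv hδ hg x w
    _ = ∫ t, -(fderiv ℝ η t w • f t) := by
        refine integral_congr_ae (Eventually.of_forall fun t => ?_)
        by_cases ht : t ∈ closedBall x δ
        · simp only [e1 t ht, hηd]; rw [neg_smul, neg_neg]
        · have h1 := hz t ht w
          have h2 := hηd t w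
          rw [h1] at h2
          have h3 : fderiv ℝ φ (x - t) w = 0 := by linarith
          simp only [h1, h3, zero_smul, neg_zero]
    _ = ∫ t, η t • f' t w := by rw [integral_neg, key, neg_neg]
    _ = ∫ t, (η t • g' t) w := by
        refine integral_congr_ae (Eventually.of_forall fun t => ?_)
        by_cases ht : t ∈ closedBall x δ
        · simp only [e2 t ht]; rfl
        · simp only [hz0 t ht, zero_smul]; rfl
    _ = rm δ hδ g' x w := by
        rw [rm_apply, ← ContinuousLinearMap.integral_apply hI]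

/-- approximation -/
theorem WG.approx [CompleteSpace E] {U : Set ℂ} (hU : IsOpen U) {f : ℂ → E} {f' : ℂ → ℂ →L[ℝ] E}
    (h : WG U f f') {K : Set ℂ} (hK : IsCompact K) (hKU : K ⊆ U) {ε : ℝ} (hε : 0 < ε) :
    ∃ g : ℂ → E, ContDiff ℝ ∞ g ∧ (ContinuousOn f U → ∀ z ∈ K, ‖g z - f z‖ ≤ ε) ∧
      (∫⁻ z in K, ‖g z - f z‖ₑ ≤ ENNReal.ofReal ε) ∧
      ∫⁻ z in K, ‖fderiv ℝ g z - f' z‖ₑ ≤ ENNReal.ofReal ε := by
  obtain ⟨r, hr, hrΩ⟩ := hK.exists_cthickening_subset_open hU hKU
  set K' := cthickening r K with hK'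
  have hK'c : IsCompact K' := hK.cthickening
  have hKK' : K ⊆ K' := self_subset_cthickening K
  have hI1 : Integrable (K'.indicator f) :=
    (h.intf K' hK'c hrΩ).integrable_indicator hK'c.measurableSet
  have hI2 : Integrable (K'.indicator f') := int_ind hK'c.measurableSet (h.int K' hK'c hrΩ)
  obtain ⟨d1, hd1, h1⟩ := rm_L1 hI1 hε
  obtain ⟨d2, hd2, h2⟩ := rm_L1 hI2 hε
  obtain ⟨d3, hd3, h3⟩ : ∃ d3 > 0, ContinuousOn f U → ∀ x ∈ K', ∀ y ∈ K', dist x y < d3 →
      dist (f x) (f y) < ε := by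
    by_cases hc : ContinuousOn f U
    · have huv : UniformContinuousOn f K' :=
        hK'c.uniformContinuousOn_of_continuous (hc.mono hrΩ)
      obtain ⟨d3, hd3, h3⟩ := Metric.uniformContinuousOn_iff.1 huv ε hε
      exact ⟨d3, hd3, fun _ => h3⟩
    · exact ⟨1, one_pos, fun h => absurd h hc⟩
  set δ := min r (min d1 (min d2 d3)) / 2 with hδdef
  have hδ : 0 < δ := by positivity
  have hδr : δ < r := by
    have : min r (min d1 (min d2 d3)) ≤ r := min_le_left _ _
    linarith
  have hδ1 : δ < d1 := by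
    have : min r (min d1 (min d2 d3)) ≤ d1 := (min_le_right _ _).trans (min_le_left _ _)
    linarith
  have hδ2 : δ < d2 := by
    have : min r (min d1 (min d2 d3)) ≤ d2 :=
      (min_le_right _ _).trans ((min_le_right _ _).trans (min_le_left _ _))
    linarith
  have hδ3 : δ < d3 := by
    have : min r (min d1 (min d2 d3)) ≤ d3 :=
      (min_le_right _ _).trans ((min_le_right _ _).trans (min_le_right _ _))
    linarith
  have hball : ∀ x ∈ K, closedBall x δ ⊆ K' := fun x hx y hy => by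
    refine mem_cthickening_of_dist_le y x r K hx ?_
    exact (mem_closedBall.1 hy).trans hδr.le
  refine ⟨rm δ hδ (K'.indicator f), rm_contDiff hδ hI1.locallyIntegrable, fun hc z hz => ?_, ?_, ?_⟩
  · have hz' : z ∈ K' := hKK' hz
    rw [← dist_eq_norm]
    have h4 := rm_dist hδ hI1.aestronglyMeasurable (x := z) (ε := ε) ?_
    · rwa [indicator_of_mem hz'] at h4
    · intro y hy
      have hy' : y ∈ K' := hball z hz (ball_subset_closedBall hy)
      rw [indicator_of_mem hz', indicator_of_mem hy']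
      exact (h3 hc y hy' z hz' ((mem_ball.1 hy).trans hδ3)).le
  · calc ∫⁻ z in K, ‖rm δ hδ (K'.indicator f) z - f z‖ₑ
        = ∫⁻ z in K, ‖rm δ hδ (K'.indicator f) z - K'.indicator f z‖ₑ := by
          refine setLIntegral_congr_fun hK.measurableSet fun z hz => ?_
          simp only [indicator_of_mem (hKK' hz)]
      _ ≤ _ := (setLIntegral_le_lintegral _ _).trans (h1 δ hδ hδ1)
  · calc ∫⁻ z in K, ‖fderiv ℝ (rm δ hδ (K'.indicator f)) z - f' z‖ₑ
        = ∫⁻ z in K, ‖rm δ hδ (K'.indicator f') z - K'.indicator f' z‖ₑ := by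
          refine setLIntegral_congr_fun hK.measurableSet fun z hz => ?_
          rw [h.rm_fderiv hδ hI1.locallyIntegrable hI2.locallyIntegrable
            ((hball z hz).trans hrΩ) (fun y hy => indicator_of_mem (hball z hz hy) _)
            (fun y hy => indicator_of_mem (hball z hz hy) _), indicator_of_mem (hKK' hz)]
      _ ≤ _ := (setLIntegral_le_lintegral _ _).trans (h2 δ hδ hδ2)

/-- smooth functions -/
theorem WG.of_contDiffOn {U : Set ℂ} (hU : IsOpen U) {f : ℂ → E} (hf : ContDiffOn ℝ 1 f U) :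
    WG U f (fderiv ℝ f) := by
  have hf0 : ContinuousOn f U := hf.continuousOn
  have hd : ContinuousOn (fderiv ℝ f) U := hf.continuousOn_fderiv_of_isOpen hU (le_refl _)
  refine ⟨fun K hK hKU => (hf0.mono hKU).integrableOn_compact hK,
    fun K hK hKU => (hd.mono hKU).integrableOn_compact hK, ?_⟩
  intro φ hφ hc hs w
  have hdiff : ∀ z ∈ tsupport φ, DifferentiableAt ℝ f z := fun z hz =>
    (hf.differentiableOn (by simp)).differentiableAt (hU.mem_nhds (hs hz))
  have hφd : Continuous (fderiv ℝ φ) := hφ.continuous_fderiv (by simp)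
  have hint : ∀ {η : ℂ → ℝ} {u : ℂ → E}, Continuous η → tsupport η ⊆ tsupport φ →
      ContinuousOn u U → Integrable fun z => η z • u z := by
    intro η u hη hηs hu
    refine Continuous.integrable_of_hasCompactSupport ?_ ?_
    · refine continuous_of_tsupport fun z hz => ?_
      have h1 : z ∈ tsupport η := closure_mono (Function.support_smul_subset_left η u) hz
      exact hη.continuousAt.smul (hu.continuousAt (hU.mem_nhds (hs (hηs h1))))
    · have h5 : HasCompactSupport η := hc.of_isClosed_subset (isClosed_tsupport _) hηs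
      exact h5.smul_right
  have hts : tsupport (fun z => fderiv ℝ φ z w) ⊆ tsupport φ := by
    refine closure_minimal ?_ (isClosed_tsupport φ)
    intro z hz
    by_contra hcon
    refine hz ?_
    have h1 : fderiv ℝ φ z = 0 := by
      by_contra h2
      exact hcon (support_fderiv_subset ℝ h2)
    simp only [h1]
    rfl
  have h1 := integral_smul_fderiv_eq_neg_fderiv_smul_of_integrable (μ := (volume : Measure ℂ))
      (𝕜 := ℝ) (f := φ) (g := f) (v := w) ?_ ?_ ?_ ?_ hdiff
  · rw [h1, neg_neg]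
  · exact hint (hφd.clm_apply continuous_const) hts hf0
  · exact hint hφ.continuous le_rfl (hd.clm_apply continuousOn_const)
  · exact hint hφ.continuous le_rfl hf0
  · exact fun z _ => (hφ.differentiable (by simp)).differentiableAt

/-- `∫⁻_K ‖φ • u‖ ≤ C ∫⁻_K ‖u‖` -/
theorem lint_smul_le {K : Set ℂ} {η : ℂ → ℝ} {C : ℝ} (hC : ∀ z, ‖η z‖ ≤ C)
    (hK : ∀ z ∉ K, η z = 0) (hKm : MeasurableSet K) (u : ℂ → E) :
    ‖∫ z, η z • u z‖ ≤ (ENNReal.ofReal C * ∫⁻ z in K, ‖u z‖ₑ).toReal ∨
      ∫⁻ z in K, ‖u z‖ₑ = ⊤ := by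
  by_cases hfin : ∫⁻ z in K, ‖u z‖ₑ = ⊤
  · exact Or.inr hfin
  left
  have h1 : ‖∫ z, η z • u z‖ₑ ≤ ENNReal.ofReal C * ∫⁻ z in K, ‖u z‖ₑ := by
    calc ‖∫ z, η z • u z‖ₑ ≤ ∫⁻ z, ‖η z • u z‖ₑ := enorm_integral_le_lintegral_enorm _
      _ ≤ ∫⁻ z, K.indicator (fun z => ENNReal.ofReal C * ‖u z‖ₑ) z := by
          refine lintegral_mono fun z => ?_
          by_cases hz : z ∈ K
          · rw [indicator_of_mem hz, enorm_smul]
            gcongr
            rw [← ofReal_norm]
            exact ENNReal.ofReal_le_ofReal (hC z)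
          · simp [hK z hz]
      _ = ENNReal.ofReal C * ∫⁻ z in K, ‖u z‖ₑ := by
          rw [lintegral_indicator hKm, lintegral_const_mul' _ _ ENNReal.ofReal_ne_top]
  have h2 : ENNReal.ofReal C * ∫⁻ z in K, ‖u z‖ₑ ≠ ⊤ :=
    ENNReal.mul_ne_top ENNReal.ofReal_ne_top hfin
  have h3 := ENNReal.toReal_mono h2 h1
  rwa [toReal_enorm] at h3

/-- converse: limits in `L¹_loc` -/
theorem WG.of_approx {U : Set ℂ} (hU : IsOpen U) {f : ℂ → E} {f' : ℂ → ℂ →L[ℝ] E}
    (intf : ∀ K, IsCompact K → K ⊆ U → IntegrableOn f K)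
    (int : ∀ K, IsCompact K → K ⊆ U → IntegrableOn f' K)
    (h : ∀ K, IsCompact K → K ⊆ U → ∀ ε : ℝ, 0 < ε → ∃ (g : ℂ → E) (g' : ℂ → ℂ →L[ℝ] E)
      (V : Set ℂ), IsOpen V ∧ K ⊆ V ∧ WG V g g' ∧
      (∫⁻ z in K, ‖g z - f z‖ₑ ≤ ENNReal.ofReal ε) ∧
      ∫⁻ z in K, ‖g' z - f' z‖ₑ ≤ ENNReal.ofReal ε) : WG U f f' := by
  refine ⟨intf, int, ?_⟩
  intro φ hφ hc hs v
  set K := tsupport φ with hKdef
  have hKc : IsCompact K := hc
  have hφd : Continuous fun z => fderiv ℝ φ z v :=
    (hφ.continuous_fderiv (by simp)).clm_apply continuous_const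
  have hφd0 : ∀ z ∉ K, fderiv ℝ φ z v = 0 := fun z hz => by
    have : fderiv ℝ φ z = 0 := by
      by_contra h2
      exact hz (tsupport_fderiv_subset ℝ (subset_tsupport _ h2))
    rw [this]; rfl
  have hφ0 : ∀ z ∉ K, φ z = 0 := fun z hz => image_eq_zero_of_notMem_tsupport hz
  have hφds : HasCompactSupport fun z => fderiv ℝ φ z v :=
    HasCompactSupport.intro hKc fun z hz => hφd0 z hz
  obtain ⟨C1, hC1⟩ := hφd.bounded_above_of_compact_support hφds
  obtain ⟨C2, hC2⟩ := hφ.continuous.bounded_above_of_compact_support hc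
  have hC1' : 0 ≤ C1 := (norm_nonneg _).trans (hC1 0)
  have hC2' : 0 ≤ C2 := (norm_nonneg _).trans (hC2 0)
  have hint : ∀ {η : ℂ → ℝ} {u : ℂ → E}, Continuous η → (∀ z ∉ K, η z = 0) →
      IntegrableOn u K → Integrable fun z => η z • u z := by
    intro η u hη hη0 hu
    have hηs : HasCompactSupport η := HasCompactSupport.intro hKc hη0
    obtain ⟨C, hC⟩ := hη.bounded_above_of_compact_support hηs
    have h1 : IntegrableOn (fun z => η z • u z) K :=
      hu.bdd_smul C hη.aestronglyMeasurable (Eventually.of_forall hC)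
    have h2 := h1.integrable_indicator hKc.measurableSet
    refine h2.congr (Eventually.of_forall fun z => ?_)
    by_cases hz : z ∈ K
    · simp [hz]
    · simp [hz, hη0 z hz]
  have happ : ∀ {u : ℂ → ℂ →L[ℝ] E}, IntegrableOn u K → IntegrableOn (fun z => u z v) K :=
    fun hu => hu.apply_continuousLinearMap v
  have hle : ∀ ε : ℝ, 0 < ε → ‖(∫ z, fderiv ℝ φ z v • f z) + ∫ z, φ z • f' z v‖ ≤
      C1 * ε + C2 * (‖v‖ * ε) := by
    intro ε hε
    obtain ⟨g, g', V, hV, hKV, hg, hg1, hg2⟩ := h K hKc hs ε hε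
    have i1 := hint hφd hφd0 (intf K hKc hs)
    have i2 := hint hφd hφd0 (hg.intf K hKc hKV)
    have i3 := hint hφ.continuous hφ0 (happ (int K hKc hs))
    have i4 := hint hφ.continuous hφ0 (happ (hg.int K hKc hKV))
    have e0 := hg.wd φ hφ hc hKV v
    have e1 : (∫ z, fderiv ℝ φ z v • f z) + ∫ z, φ z • f' z v =
        - ((∫ z, fderiv ℝ φ z v • (g z - f z)) + ∫ z, φ z • (g' z v - f' z v)) := by
      simp_rw [smul_sub]
      rw [integral_sub i2 i1, integral_sub i4 i3, e0]
      abel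
    rw [e1, norm_neg]
    refine (norm_add_le _ _).trans (add_le_add ?_ ?_)
    · rcases lint_smul_le hC1 hφd0 hKc.measurableSet (fun z => g z - f z) with h1 | h1
      · refine h1.trans ?_
        have : ENNReal.ofReal C1 * ∫⁻ z in K, ‖g z - f z‖ₑ ≤ ENNReal.ofReal (C1 * ε) := by
          rw [ENNReal.ofReal_mul hC1']; gcongr
        exact ENNReal.toReal_le_of_le_ofReal (by positivity) this
      · rw [h1] at hg1; simp at hg1
    · rcases lint_smul_le hC2 hφ0 hKc.measurableSet (fun z => g' z v - f' z v) with h1 | h1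
      · refine h1.trans ?_
        have h5 : ∫⁻ z in K, ‖g' z v - f' z v‖ₑ ≤ ENNReal.ofReal (‖v‖ * ε) := by
          calc ∫⁻ z in K, ‖g' z v - f' z v‖ₑ ≤ ∫⁻ z in K, ENNReal.ofReal ‖v‖ * ‖g' z - f' z‖ₑ := by
                refine lintegral_mono fun z => ?_
                rw [← sub_apply, ← ofReal_norm, ← ofReal_norm,
                  ← ENNReal.ofReal_mul (norm_nonneg _)]
                refine ENNReal.ofReal_le_ofReal ?_
                rw [mul_comm]
                exact ContinuousLinearMap.le_opNorm _ _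
            _ = ENNReal.ofReal ‖v‖ * ∫⁻ z in K, ‖g' z - f' z‖ₑ :=
                lintegral_const_mul' _ _ ENNReal.ofReal_ne_top
            _ ≤ _ := by rw [ENNReal.ofReal_mul (norm_nonneg _)]; gcongr
        have : ENNReal.ofReal C2 * ∫⁻ z in K, ‖g' z v - f' z v‖ₑ ≤
            ENNReal.ofReal (C2 * (‖v‖ * ε)) := by
          rw [ENNReal.ofReal_mul hC2']; gcongr
        exact ENNReal.toReal_le_of_le_ofReal (by positivity) this
      · exfalso
        have h6 : ∫⁻ z in K, ‖g' z v - f' z v‖ₑ < ⊤ :=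
          ((happ (hg.int K hKc hKV)).sub (happ (int K hKc hs))).2
        rw [h1] at h6
        exact lt_irrefl _ h6
  have h0 : ‖(∫ z, fderiv ℝ φ z v • f z) + ∫ z, φ z • f' z v‖ ≤ 0 := by
    refine le_of_forall_pos_le_add fun ε hε => ?_
    rw [zero_add]
    have := hle (ε / (C1 + C2 * ‖v‖ + 1)) (by positivity)
    refine this.trans ?_
    have e : C1 * (ε / (C1 + C2 * ‖v‖ + 1)) + C2 * (‖v‖ * (ε / (C1 + C2 * ‖v‖ + 1))) =
      ((C1 + C2 * ‖v‖) * ε) / (C1 + C2 * ‖v‖ + 1) := by ring
    rw [e, div_le_iff₀ (by positivity)]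
    nlinarith
  have h1 : (∫ z, fderiv ℝ φ z v • f z) + ∫ z, φ z • f' z v = 0 := norm_le_zero_iff.1 h0
  exact eq_neg_of_add_eq_zero_left h1

end Vale.Agent.P247.H324
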