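import Vale.Agent.P247.H324.MG.WG2

/-! Calculus of weak total derivatives. -/

open MeasureTheory Set Metric Filter Topology
open scoped ContDiff ENNReal Convolution

set_option linter.unusedSectionVars false
set_option linter.unusedVariables false

noncomputable section

namespace Vale.Agent.P247.H324

open Vale.Agent.P272.CT

variable {E : Type*} [NormedAddCommGroup E] [NormedSpace ℝ E]
  {F : Type*} [NormedAddCommGroup F] [NormedSpace ℝ F]

/-- test functions times locally integrable functions -/
theorem int_test {U : Set ℂ} {η : ℂ → ℝ} {u : ℂ → E} (hη : Continuous η)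
    (hc : HasCompactSupport η) (hs : tsupport η ⊆ U)
    (hu : ∀ K, IsCompact K → K ⊆ U → IntegrableOn u K) : Integrable fun z => η z • u z := by
  obtain ⟨C, hC⟩ := hη.bounded_above_of_compact_support hc
  have h1 : IntegrableOn (fun z => η z • u z) (tsupport η) :=
    (hu _ hc hs).bdd_smul C hη.aestronglyMeasurable (Eventually.of_forall hC)
  have h2 := h1.integrable_indicator (isClosed_tsupport η).measurableSet
  refine h2.congr (Eventually.of_forall fun z => ?_)
  by_cases hz : z ∈ tsupport η
  · simp [hz]
  · simp [hz, image_eq_zero_of_notMem_tsupport hz]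

theorem test_fderiv {φ : ℂ → ℝ} (hφ : ContDiff ℝ ∞ φ) (hc : HasCompactSupport φ) (v : ℂ) :
    Continuous (fun z => fderiv ℝ φ z v) ∧ HasCompactSupport (fun z => fderiv ℝ φ z v) ∧
      tsupport (fun z => fderiv ℝ φ z v) ⊆ tsupport φ := by
  have h0 : ∀ z ∉ tsupport φ, fderiv ℝ φ z v = 0 := fun z hz => by
    have : fderiv ℝ φ z = 0 := by
      by_contra h2
      exact hz (tsupport_fderiv_subset ℝ (subset_tsupport _ h2))
    rw [this]; rfl
  refine ⟨(hφ.continuous_fderiv (by simp)).clm_apply continuous_const,
    HasCompactSupport.intro hc h0, closure_minimal ?_ (isClosed_tsupport φ)⟩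
  intro z hz
  by_contra hcon
  exact hz (h0 z hcon)

theorem int_add {G : Type*} [NormedAddCommGroup G] {u v : ℂ → G} {K : Set ℂ}
    (hu : IntegrableOn u K) (hv : IntegrableOn v K) : IntegrableOn (fun z => u z + v z) K :=
  Integrable.add hu hv

theorem int_apply {K : Set ℂ} {u : ℂ → ℂ →L[ℝ] E} (hu : IntegrableOn u K) (v : ℂ) :
    IntegrableOn (fun z => u z v) K := hu.apply_continuousLinearMap v

namespace WG

variable {U : Set ℂ} {f g : ℂ → E} {f' g' : ℂ → ℂ →L[ℝ] E}

theorem mono {V : Set ℂ} (h : WG U f f') (hV : V ⊆ U) : WG V f f' :=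
  ⟨fun K hK hKV => h.intf K hK (hKV.trans hV), fun K hK hKV => h.int K hK (hKV.trans hV),
    fun φ hφ hc hs => h.wd φ hφ hc (hs.trans hV)⟩

theorem congr_ae (h : WG U f f') (hU : MeasurableSet U) (e1 : f =ᵐ[volume.restrict U] g)
    (e2 : f' =ᵐ[volume.restrict U] g') : WG U g g' := by
  have m1 : ∀ K ⊆ U, volume.restrict K ≤ volume.restrict U := fun K hK => Measure.restrict_mono_set _ hK
  refine ⟨fun K hK hKU => (h.intf K hK hKU).congr (ae_mono (m1 K hKU) e1),
    fun K hK hKU => (h.int K hK hKU).congr (ae_mono (m1 K hKU) e2), ?_⟩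
  intro φ hφ hc hs v
  rw [ae_eq_restrict_iff_indicator_ae_eq hU] at e1 e2
  obtain ⟨d1, d2, d3⟩ := test_fderiv hφ hc v
  calc ∫ z, fderiv ℝ φ z v • g z = ∫ z, fderiv ℝ φ z v • f z := by
        refine integral_congr_ae ?_
        filter_upwards [e1] with z hz
        by_cases hzU : z ∈ U
        · rw [indicator_of_mem hzU, indicator_of_mem hzU] at hz
          rw [hz]
        · have : fderiv ℝ φ z v = 0 := by
            by_contra h2
            exact hzU (hs (d3 (subset_tsupport _ h2)))
          rw [this, zero_smul, zero_smul]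
    _ = - ∫ z, φ z • f' z v := h.wd φ hφ hc hs v
    _ = - ∫ z, φ z • g' z v := by
        congr 1
        refine integral_congr_ae ?_
        filter_upwards [e2] with z hz
        by_cases hzU : z ∈ U
        · rw [indicator_of_mem hzU, indicator_of_mem hzU] at hz
          rw [hz]
        · have : φ z = 0 := by
            by_contra h2
            exact hzU (hs (subset_tsupport _ h2))
          rw [this, zero_smul, zero_smul]

theorem congr (h : WG U f f') (hU : MeasurableSet U) (e1 : EqOn f g U)
    (e2 : EqOn f' g' U) : WG U g g' :=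
  h.congr_ae hU (by filter_upwards [ae_restrict_mem hU] with z hz using e1 hz)
    (by filter_upwards [ae_restrict_mem hU] with z hz using e2 hz)

theorem clm [CompleteSpace E] [CompleteSpace F] (h : WG U f f') (L : E →L[ℝ] F) :
    WG U (fun z => L (f z)) fun z => L.comp (f' z) := by
  refine ⟨fun K hK hKU => L.integrable_comp (h.intf K hK hKU), fun K hK hKU => ?_, ?_⟩
  · exact ((ContinuousLinearMap.compL ℝ ℂ E F) L).integrable_comp (h.int K hK hKU)
  intro φ hφ hc hs v
  obtain ⟨d1, d2, d3⟩ := test_fderiv hφ hc v
  have i1 : Integrable fun z => fderiv ℝ φ z v • f z := int_test d1 d2 (d3.trans hs) h.intf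
  have i2 : Integrable fun z => φ z • f' z v :=
    int_test hφ.continuous hc hs fun K hK hKU => int_apply (h.int K hK hKU) v
  have e := h.wd φ hφ hc hs v
  calc ∫ z, fderiv ℝ φ z v • L (f z) = ∫ z, L (fderiv ℝ φ z v • f z) := by
        simp only [map_smul]
    _ = L (∫ z, fderiv ℝ φ z v • f z) := L.integral_comp_comm i1
    _ = - L (∫ z, φ z • f' z v) := by rw [e, map_neg]
    _ = - ∫ z, φ z • (L.comp (f' z)) v := by
        rw [← L.integral_comp_comm i2]
        simp only [map_smul, ContinuousLinearMap.comp_apply]

theorem add (h : WG U f f') (h2 : WG U g g') :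
    WG U (fun z => f z + g z) fun z => f' z + g' z := by
  refine ⟨fun K hK hKU => (h.intf K hK hKU).add (h2.intf K hK hKU),
    fun K hK hKU => int_add (h.int K hK hKU) (h2.int K hK hKU), ?_⟩
  intro φ hφ hc hs v
  obtain ⟨d1, d2, d3⟩ := test_fderiv hφ hc v
  have i1 : Integrable fun z => fderiv ℝ φ z v • f z := int_test d1 d2 (d3.trans hs) h.intf
  have i2 : Integrable fun z => φ z • f' z v :=
    int_test hφ.continuous hc hs fun K hK hKU => int_apply (h.int K hK hKU) v
  have i3 : Integrable fun z => fderiv ℝ φ z v • g z := int_test d1 d2 (d3.trans hs) h2.intf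
  have i4 : Integrable fun z => φ z • g' z v :=
    int_test hφ.continuous hc hs fun K hK hKU => int_apply (h2.int K hK hKU) v
  simp only [smul_add, ContinuousLinearMap.add_apply]
  rw [integral_add i1 i3, integral_add i2 i4, h.wd φ hφ hc hs v, h2.wd φ hφ hc hs v]
  abel

theorem const (hU : IsOpen U) (c : E) : WG U (fun _ => c) fun _ => (0 : ℂ →L[ℝ] E) := by
  have h := WG.of_contDiffOn hU (f := fun _ : ℂ => c) contDiffOn_const
  refine h.congr hU.measurableSet (fun _ _ => rfl) (fun z _ => ?_)
  simp

theorem sum {ι : Type*} (hU : IsOpen U) (s : Finset ι) {f : ι → ℂ → E} {f' : ι → ℂ → ℂ →L[ℝ] E}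
    (h : ∀ i ∈ s, WG U (f i) (f' i)) : WG U (fun z => ∑ i ∈ s, f i z) fun z => ∑ i ∈ s, f' i z := by
  classical
  induction s using Finset.induction_on with
  | empty => simpa using const hU (0 : E)
  | insert a s ha ih =>
      have h1 := (h a (Finset.mem_insert_self a s)).add
        (ih fun i hi => h i (Finset.mem_insert_of_mem hi))
      refine h1.congr hU.measurableSet (fun z _ => ?_) (fun z _ => ?_)
      · rw [Finset.sum_insert ha]
      · rw [Finset.sum_insert ha]

/-- the weak `∂̄` derivative -/
theorem toWDb {E : Type*} [NormedAddCommGroup E] [NormedSpace ℂ E] {f : ℂ → E}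
    {f' : ℂ → ℂ →L[ℝ] E} (h : WG U f f') :
    WDb U f fun z => (1 / 2 : ℂ) • (f' z 1 + Complex.I • f' z Complex.I) := by
  intro η hη hc hs
  -- real and imaginary part
  have hre : ContDiff ℝ ∞ (fun z => (η z).re) := Complex.reCLM.contDiff.comp hη
  have him : ContDiff ℝ ∞ (fun z => (η z).im) := Complex.imCLM.contDiff.comp hη
  have hcre : HasCompactSupport (fun z => (η z).re) := hc.comp_left (g := Complex.re) rfl
  have hcim : HasCompactSupport (fun z => (η z).im) := hc.comp_left (g := Complex.im) rfl
  have hsre : tsupport (fun z => (η z).re) ⊆ U :=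
    (closure_mono (fun z hz => by
      intro h0; apply hz; simp only; rw [h0]; rfl)).trans hs
  have hsim : tsupport (fun z => (η z).im) ⊆ U :=
    (closure_mono (fun z hz => by
      intro h0; apply hz; simp only; rw [h0]; rfl)).trans hs
  have dη : ∀ z v, fderiv ℝ η z v = (fderiv ℝ (fun z => (η z).re) z v : ℂ) +
      Complex.I * (fderiv ℝ (fun z => (η z).im) z v : ℂ) := by
    intro z v
    have h0 : HasFDerivAt η (fderiv ℝ η z) z := (hη.differentiable (by simp) z).hasFDerivAt
    have h1 := Complex.reCLM.hasFDerivAt.comp z h0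
    have h2 := Complex.imCLM.hasFDerivAt.comp z h0
    have e1 : fderiv ℝ (fun z => (η z).re) z = _ := h1.fderiv
    have e2 : fderiv ℝ (fun z => (η z).im) z = _ := h2.fderiv
    rw [e1, e2]
    simp only [ContinuousLinearMap.comp_apply, Complex.reCLM_apply, Complex.imCLM_apply]
    rw [mul_comm]
    exact (Complex.re_add_im _).symm
  have key : ∀ v : ℂ, ∫ z, fderiv ℝ η z v • f z = - ∫ z, η z • f' z v := by
    intro v
    obtain ⟨a1, a2, a3⟩ := test_fderiv hre hcre v
    obtain ⟨b1, b2, b3⟩ := test_fderiv him hcim v
    have i1 : Integrable fun z => fderiv ℝ (fun z => (η z).re) z v • f z :=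
      int_test a1 a2 (a3.trans hsre) h.intf
    have i2 : Integrable fun z => fderiv ℝ (fun z => (η z).im) z v • f z :=
      int_test b1 b2 (b3.trans hsim) h.intf
    have i3 : Integrable fun z => (η z).re • f' z v :=
      int_test hre.continuous hcre hsre fun K hK hKU => int_apply (h.int K hK hKU) v
    have i4 : Integrable fun z => (η z).im • f' z v :=
      int_test him.continuous hcim hsim fun K hK hKU => int_apply (h.int K hK hKU) v
    have i2' : Integrable fun z => Complex.I • (fderiv ℝ (fun z => (η z).im) z v • f z) :=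
      i2.smul Complex.I
    have i4' : Integrable fun z => Complex.I • ((η z).im • f' z v) := i4.smul Complex.I
    calc ∫ z, fderiv ℝ η z v • f z
        = ∫ z, (fderiv ℝ (fun z => (η z).re) z v • f z +
            Complex.I • (fderiv ℝ (fun z => (η z).im) z v • f z)) := by
          refine integral_congr_ae (Eventually.of_forall fun z => ?_)
          simp only
          rw [dη z v, add_smul, mul_smul, Complex.coe_smul, Complex.coe_smul]
      _ = (∫ z, fderiv ℝ (fun z => (η z).re) z v • f z) +
            Complex.I • ∫ z, fderiv ℝ (fun z => (η z).im) z v • f z := by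
          rw [integral_add i1 i2', integral_smul]
      _ = - ((∫ z, (η z).re • f' z v) + Complex.I • ∫ z, (η z).im • f' z v) := by
          rw [h.wd _ hre hcre hsre v, h.wd _ him hcim hsim v, smul_neg, ← neg_add]
      _ = - ∫ z, η z • f' z v := by
          rw [← integral_smul, ← integral_add i3 i4']
          congr 1
          refine integral_congr_ae (Eventually.of_forall fun z => ?_)
          simp only
          conv_rhs => rw [← Complex.re_add_im (η z)]
          rw [add_smul, mul_comm, mul_smul, Complex.coe_smul, Complex.coe_smul]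
  have hη' : ∀ v : ℂ, Continuous (fun z => fderiv ℝ η z v) ∧
      HasCompactSupport (fun z => fderiv ℝ η z v) ∧
      tsupport (fun z => fderiv ℝ η z v) ⊆ tsupport η := by
    intro v
    have h0 : ∀ z ∉ tsupport η, fderiv ℝ η z v = 0 := fun z hz => by
      have : fderiv ℝ η z = 0 := by
        by_contra h2
        exact hz (tsupport_fderiv_subset ℝ (subset_tsupport _ h2))
      rw [this]; rfl
    refine ⟨(hη.continuous_fderiv (by simp)).clm_apply continuous_const,
      HasCompactSupport.intro hc h0, closure_minimal ?_ (isClosed_tsupport η)⟩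
    intro z hz
    by_contra hcon
    exact hz (h0 z hcon)
  have itest : ∀ {θ : ℂ → ℂ} {u : ℂ → E}, Continuous θ → HasCompactSupport θ → tsupport θ ⊆ U →
      (∀ K, IsCompact K → K ⊆ U → IntegrableOn u K) → Integrable fun z => θ z • u z := by
    intro θ u hθ hθc hθs hu
    obtain ⟨C, hC⟩ := hθ.bounded_above_of_compact_support hθc
    have h1 : IntegrableOn (fun z => θ z • u z) (tsupport θ) :=
      (hu _ hθc hθs).bdd_smul C hθ.aestronglyMeasurable (Eventually.of_forall hC)
    have h2 := h1.integrable_indicator (isClosed_tsupport θ).measurableSet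
    refine h2.congr (Eventually.of_forall fun z => ?_)
    by_cases hz : z ∈ tsupport θ
    · simp [hz]
    · simp [hz, image_eq_zero_of_notMem_tsupport hz]
  have i1 : ∀ v : ℂ, Integrable fun z => fderiv ℝ η z v • f z := fun v =>
    itest (hη' v).1 (hη' v).2.1 ((hη' v).2.2.trans hs) h.intf
  have i2 : ∀ v : ℂ, Integrable fun z => η z • f' z v := fun v =>
    itest hη.continuous hc hs fun K hK hKU => int_apply (h.int K hK hKU) v
  have i1' : Integrable fun z => Complex.I • (fderiv ℝ η z Complex.I • f z) :=
    (i1 Complex.I).smul Complex.I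
  have i2' : Integrable fun z => Complex.I • (η z • f' z Complex.I) :=
    (i2 Complex.I).smul Complex.I
  calc ∫ z, dbar η z • f z = ∫ z, (1 / 2 : ℂ) • (fderiv ℝ η z 1 • f z +
        Complex.I • (fderiv ℝ η z Complex.I • f z)) := by
        refine integral_congr_ae (Eventually.of_forall fun z => ?_)
        simp only [dbar, smul_smul, smul_add, mul_add, add_smul]
    _ = (1 / 2 : ℂ) • ((∫ z, fderiv ℝ η z 1 • f z) +
        Complex.I • ∫ z, fderiv ℝ η z Complex.I • f z) := by
        rw [integral_smul, integral_add (i1 1) i1', integral_smul]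
    _ = - ((1 / 2 : ℂ) • ((∫ z, η z • f' z 1) +
        Complex.I • ∫ z, η z • f' z Complex.I)) := by
        rw [key, key, smul_neg, ← neg_add, smul_neg]
    _ = - ∫ z, η z • ((1 / 2 : ℂ) • (f' z 1 + Complex.I • f' z Complex.I)) := by
        rw [← integral_smul Complex.I, ← integral_add (i2 1) i2', ← integral_smul]
        congr 1
        refine integral_congr_ae (Eventually.of_forall fun z => ?_)
        simp only [smul_smul, smul_add]
        ring_nf

end WG

end Vale.Agent.P247.H324
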