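import Vale.Agent.P247.H324.MG.WG3

/-! Chain rule and change of variables for weak total derivatives. -/

open MeasureTheory Set Metric Filter Topology
open scoped ContDiff ENNReal Convolution

set_option linter.unusedSectionVars false
set_option linter.unusedVariables false

noncomputable section

namespace Vale.Agent.P247.H324

open Vale.Agent.P272.CT

variable {E : Type*} [NormedAddCommGroup E] [NormedSpace ℝ E]
  {F : Type*} [NormedAddCommGroup F] [NormedSpace ℝ F]

/-- the derivative of `z ↦ (z, f z)` -/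
def gr (f' : ℂ →L[ℝ] E) : ℂ →L[ℝ] ℂ × E := (ContinuousLinearMap.id ℝ ℂ).prod f'

@[simp] theorem gr_apply (f' : ℂ →L[ℝ] E) (v : ℂ) : gr f' v = (v, f' v) := rfl

theorem norm_gr_sub (a b : ℂ →L[ℝ] E) : ‖gr a - gr b‖ ≤ ‖a - b‖ := by
  refine ContinuousLinearMap.opNorm_le_bound _ (norm_nonneg _) fun v => ?_
  have : (gr a - gr b) v = (0, (a - b) v) := by
    simp [gr]
  rw [this, Prod.norm_def]
  simp only [norm_zero]
  exact max_le (by positivity) ((a - b).le_opNorm v)

theorem norm_gr (a : ℂ →L[ℝ] E) : ‖gr a‖ ≤ 1 + ‖a‖ := by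
  refine ContinuousLinearMap.opNorm_le_bound _ (by positivity) fun v => ?_
  rw [gr_apply, Prod.norm_def]
  have h1 := a.le_opNorm v
  have h2 := norm_nonneg v
  have h3 : 0 ≤ ‖a‖ * ‖v‖ := by positivity
  refine max_le ?_ ?_
  · simp only; nlinarith
  · simp only; nlinarith

theorem aesm_comp {G : Type*} [NormedAddCommGroup G] [NormedSpace ℝ G] {K : Set ℂ}
    {a : ℂ → F →L[ℝ] G} {b : ℂ → ℂ →L[ℝ] F} (ha : AEStronglyMeasurable a (volume.restrict K))
    (hb : AEStronglyMeasurable b (volume.restrict K)) :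
    AEStronglyMeasurable (fun z => (a z).comp (b z)) (volume.restrict K) :=
  (ContinuousLinearMap.compL ℝ ℂ F G).aestronglyMeasurable_comp₂ ha hb

theorem aesm_gr {K : Set ℂ} {a : ℂ → ℂ →L[ℝ] E} (ha : AEStronglyMeasurable a (volume.restrict K)) :
    AEStronglyMeasurable (fun z => gr (a z)) (volume.restrict K) := by
  have hc : Continuous (fun a : ℂ →L[ℝ] E => gr a) := by
    refine continuous_iff_continuousAt.2 fun a => ?_
    rw [Metric.continuousAt_iff]
    intro ε hε
    refine ⟨ε, hε, fun {b} hb => ?_⟩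
    rw [dist_eq_norm] at hb ⊢
    exact (norm_gr_sub b a).trans_lt hb
  exact hc.comp_aestronglyMeasurable ha

/-- uniform continuity along a compact graph -/
theorem graph_unif {G : Type*} [NormedAddCommGroup G] {W : Set (ℂ × E)} (hW : IsOpen W)
    {Ψ : ℂ × E → G} (hΨ : ContinuousOn Ψ W) {K : Set ℂ} (hK : IsCompact K) {f : ℂ → E}
    (hf : ContinuousOn f K) (hg : ∀ z ∈ K, (z, f z) ∈ W) {η : ℝ} (hη : 0 < η) :
    ∃ δ > 0, ∀ z ∈ K, ∀ y, ‖y - f z‖ ≤ δ → (z, y) ∈ W ∧ ‖Ψ (z, y) - Ψ (z, f z)‖ ≤ η := by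
  have hC : IsCompact ((fun z => (z, f z)) '' K) := hK.image_of_continuousOn
    (continuousOn_id.prodMk hf)
  have hCW : ((fun z => (z, f z)) '' K) ⊆ W := by
    rintro _ ⟨z, hz, rfl⟩; exact hg z hz
  obtain ⟨d1, hd1, h1⟩ := hC.exists_thickening_subset_open hW hCW
  have h2 := hC.uniformContinuousAt_of_continuousAt Ψ
    (fun p hp => hΨ.continuousAt (hW.mem_nhds (hCW hp))) (Metric.dist_mem_uniformity hη)
  obtain ⟨d2, hd2, h3⟩ := Metric.mem_uniformity_dist.1 h2
  refine ⟨min d1 d2 / 2, by positivity, fun z hz y hy => ?_⟩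
  have hd : dist (z, f z) (z, y) = ‖y - f z‖ := by
    rw [Prod.dist_eq]
    simp only [dist_self]
    rw [max_eq_right dist_nonneg, dist_comm, dist_eq_norm]
  have hlt : dist (z, f z) (z, y) < min d1 d2 := by
    rw [hd]
    have : 0 < min d1 d2 := by positivity
    linarith
  refine ⟨h1 ?_, ?_⟩
  · rw [mem_thickening_iff]
    exact ⟨(z, f z), ⟨z, hz, rfl⟩, by rw [dist_comm]; exact hlt.trans_le (min_le_left _ _)⟩
  · have h4 := h3 (hlt.trans_le (min_le_right _ _)) ⟨z, hz, rfl⟩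
    rw [← dist_eq_norm, dist_comm]
    exact le_of_lt h4

namespace WG

variable {U : Set ℂ} {f g : ℂ → E} {f' g' : ℂ → ℂ →L[ℝ] E}

/-- chain rule -/
theorem chain [CompleteSpace E] (hU : IsOpen U) (h : WG U f f') (hf : ContinuousOn f U)
    {Φ : ℂ × E → F} {W : Set (ℂ × E)} (hW : IsOpen W) (hΦ : ContDiffOn ℝ 1 Φ W)
    (hg : ∀ z ∈ U, (z, f z) ∈ W) :
    WG U (fun z => Φ (z, f z)) (fun z => (fderiv ℝ Φ (z, f z)).comp (gr (f' z))) := by
  have hΦ0 : ContinuousOn Φ W := hΦ.continuousOn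
  have hΦ1 : ContinuousOn (fderiv ℝ Φ) W := hΦ.continuousOn_fderiv_of_isOpen hW (le_refl _)
  have hgr : ContinuousOn (fun z => (z, f z)) U := continuousOn_id.prodMk hf
  have hc0 : ContinuousOn (fun z => Φ (z, f z)) U := hΦ0.comp hgr hg
  have hc1 : ContinuousOn (fun z => fderiv ℝ Φ (z, f z)) U := hΦ1.comp hgr hg
  have hint : ∀ K, IsCompact K → K ⊆ U →
      IntegrableOn (fun z => (fderiv ℝ Φ (z, f z)).comp (gr (f' z))) K := by
    intro K hK hKU
    obtain ⟨M, hM⟩ := hK.exists_bound_of_continuousOn (hc1.mono hKU)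
    have hM0 : 0 ≤ max M 0 := le_max_right _ _
    have hi : IntegrableOn (fun z => max M 0 * (1 + ‖f' z‖)) K := by
      have h1 : IntegrableOn (fun _ : ℂ => (1:ℝ)) K := integrableOn_const hK.measure_lt_top.ne
      have h2 : IntegrableOn (fun z => ‖f' z‖) K := (h.int K hK hKU).norm
      exact (int_add h1 h2).const_mul _
    refine Integrable.mono' hi ?_ ?_
    · exact aesm_comp ((hc1.mono hKU).aestronglyMeasurable hK.measurableSet)
        (aesm_gr (h.int K hK hKU).aestronglyMeasurable)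
    · filter_upwards [ae_restrict_mem hK.measurableSet] with z hz
      refine (ContinuousLinearMap.opNorm_comp_le _ _).trans ?_
      have := norm_gr (f' z)
      have h3 := (hM z hz).trans (le_max_left M 0)
      exact mul_le_mul h3 this (norm_nonneg _) hM0
  refine WG.of_approx hU (fun K hK hKU => (hc0.mono hKU).integrableOn_compact hK) hint ?_
  intro K hK hKU ε hε
  obtain ⟨M, hM⟩ := hK.exists_bound_of_continuousOn (hc1.mono hKU)
  set M' : ℝ := max M 0 with hM'
  have hM'0 : 0 ≤ M' := le_max_right _ _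
  set I0 : ℝ := (volume K).toReal with hI0
  have hI0' : volume K = ENNReal.ofReal I0 := (ENNReal.ofReal_toReal hK.measure_lt_top.ne).symm
  have hI00 : 0 ≤ I0 := ENNReal.toReal_nonneg
  have hfin : ∫⁻ z in K, ‖f' z‖ₑ ≠ ⊤ := (h.int K hK hKU).2.ne
  set I1 : ℝ := (∫⁻ z in K, ‖f' z‖ₑ).toReal with hI1
  have hI1' : ∫⁻ z in K, ‖f' z‖ₑ = ENNReal.ofReal I1 := (ENNReal.ofReal_toReal hfin).symm
  have hI10 : 0 ≤ I1 := ENNReal.toReal_nonneg
  set η : ℝ := min 1 (ε / (2 * (I0 + I1 + 1))) with hη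
  have hη0 : 0 < η := by positivity
  have hη1 : η ≤ 1 := min_le_left _ _
  have hη2 : η * (I0 + I1 + 1) ≤ ε / 2 := by
    have : η ≤ ε / (2 * (I0 + I1 + 1)) := min_le_right _ _
    calc η * (I0 + I1 + 1) ≤ ε / (2 * (I0 + I1 + 1)) * (I0 + I1 + 1) := by gcongr
      _ = ε / 2 := by field_simp
  set ε' : ℝ := ε / (2 * (1 + M')) with hε'
  have hε'0 : 0 < ε' := by positivity
  have hε'2 : (1 + M') * ε' = ε / 2 := by rw [hε']; field_simp
  obtain ⟨d0, hd0, hu0⟩ := graph_unif hW hΦ0 hK (hf.mono hKU) (fun z hz => hg z (hKU hz)) hη0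
  obtain ⟨d1, hd1, hu1⟩ := graph_unif hW hΦ1 hK (hf.mono hKU) (fun z hz => hg z (hKU hz)) hη0
  obtain ⟨g, hgs, hg1, hg2, hg3⟩ := h.approx hU hK hKU (ε := min ε' (min d0 d1)) (by positivity)
  have hg1' := hg1 hf
  have hgm : Continuous fun z : ℂ => (z, g z) := continuous_id.prodMk hgs.continuous
  set V : Set ℂ := (fun z => (z, g z)) ⁻¹' W with hV
  have hVo : IsOpen V := hW.preimage hgm
  have hKV : K ⊆ V := fun z hz => (hu0 z hz (g z) ((hg1' z hz).trans
    ((min_le_right _ _).trans (min_le_left _ _)))).1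
  have hcd : ContDiffOn ℝ 1 (fun z => Φ (z, g z)) V := by
    refine hΦ.comp (contDiff_id.prodMk (hgs.of_le (by simp))).contDiffOn ?_
    intro z hz; exact hz
  have hder : ∀ z ∈ V, fderiv ℝ (fun z => Φ (z, g z)) z =
      (fderiv ℝ Φ (z, g z)).comp (gr (fderiv ℝ g z)) := by
    intro z hz
    have h1 : HasFDerivAt Φ (fderiv ℝ Φ (z, g z)) (z, g z) :=
      ((hΦ.differentiableOn (by simp)).differentiableAt (hW.mem_nhds hz)).hasFDerivAt
    have h2 : HasFDerivAt (fun z => (z, g z)) (gr (fderiv ℝ g z)) z :=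
      (hasFDerivAt_id (𝕜 := ℝ) z).prodMk ((hgs.differentiable (by simp)) z).hasFDerivAt
    exact (h1.comp z h2).fderiv
  refine ⟨fun z => Φ (z, g z), fderiv ℝ (fun z => Φ (z, g z)), V, hVo, hKV,
    WG.of_contDiffOn hVo hcd, ?_, ?_⟩
  · calc ∫⁻ z in K, ‖Φ (z, g z) - Φ (z, f z)‖ₑ ≤ ∫⁻ z in K, ENNReal.ofReal η := by
          refine setLIntegral_mono' hK.measurableSet fun z hz => ?_
          rw [← ofReal_norm]
          exact ENNReal.ofReal_le_ofReal (hu0 z hz (g z) ((hg1' z hz).trans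
            ((min_le_right _ _).trans (min_le_left _ _)))).2
      _ = ENNReal.ofReal η * ENNReal.ofReal I0 := by rw [setLIntegral_const, hI0']
      _ ≤ ENNReal.ofReal ε := by
          rw [← ENNReal.ofReal_mul hη0.le]
          refine ENNReal.ofReal_le_ofReal ?_
          nlinarith
  · have hpt : ∀ z ∈ K, ‖fderiv ℝ (fun z => Φ (z, g z)) z -
        (fderiv ℝ Φ (z, f z)).comp (gr (f' z))‖ₑ ≤
        ENNReal.ofReal η + ENNReal.ofReal η * ‖f' z‖ₑ +
          ENNReal.ofReal (1 + M') * ‖fderiv ℝ g z - f' z‖ₑ := by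
      intro z hz
      rw [hder z (hKV hz)]
      have e1 : (fderiv ℝ Φ (z, g z)).comp (gr (fderiv ℝ g z)) -
          (fderiv ℝ Φ (z, f z)).comp (gr (f' z)) =
          (fderiv ℝ Φ (z, g z) - fderiv ℝ Φ (z, f z)).comp (gr (fderiv ℝ g z)) +
          (fderiv ℝ Φ (z, f z)).comp (gr (fderiv ℝ g z) - gr (f' z)) := by
        rw [ContinuousLinearMap.sub_comp, ContinuousLinearMap.comp_sub]; abel
      have b1 := (hu1 z hz (g z) ((hg1' z hz).trans
            ((min_le_right _ _).trans (min_le_right _ _)))).2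
      have b2 := (hM z hz).trans (le_max_left M 0)
      have b3 := norm_gr (fderiv ℝ g z)
      have b4 := norm_gr_sub (fderiv ℝ g z) (f' z)
      have b5 : ‖fderiv ℝ g z‖ ≤ ‖f' z‖ + ‖fderiv ℝ g z - f' z‖ := by
        have := norm_add_le (f' z) (fderiv ℝ g z - f' z)
        rwa [add_sub_cancel] at this
      have hR : ‖(fderiv ℝ Φ (z, g z)).comp (gr (fderiv ℝ g z)) -
          (fderiv ℝ Φ (z, f z)).comp (gr (f' z))‖ ≤
          η + η * ‖f' z‖ + (1 + M') * ‖fderiv ℝ g z - f' z‖ := by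
        rw [e1]
        refine (norm_add_le _ _).trans ?_
        have c1 := (ContinuousLinearMap.opNorm_comp_le
          (fderiv ℝ Φ (z, g z) - fderiv ℝ Φ (z, f z)) (gr (fderiv ℝ g z)))
        have c2 := (ContinuousLinearMap.opNorm_comp_le
          (fderiv ℝ Φ (z, f z)) (gr (fderiv ℝ g z) - gr (f' z)))
        have c3 : ‖fderiv ℝ Φ (z, g z) - fderiv ℝ Φ (z, f z)‖ * ‖gr (fderiv ℝ g z)‖ ≤
            η * (1 + (‖f' z‖ + ‖fderiv ℝ g z - f' z‖)) :=
          mul_le_mul b1 (b3.trans (by linarith)) (norm_nonneg _) hη0.le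
        have c4 : ‖fderiv ℝ Φ (z, f z)‖ * ‖gr (fderiv ℝ g z) - gr (f' z)‖ ≤
            M' * ‖fderiv ℝ g z - f' z‖ := mul_le_mul b2 b4 (norm_nonneg _) hM'0
        have c5 : η * ‖fderiv ℝ g z - f' z‖ ≤ 1 * ‖fderiv ℝ g z - f' z‖ := by gcongr
        nlinarith
      rw [← ofReal_norm, ← ofReal_norm, ← ofReal_norm, ← ENNReal.ofReal_mul hη0.le,
        ← ENNReal.ofReal_mul (by positivity), ← ENNReal.ofReal_add (by positivity) (by positivity),
        ← ENNReal.ofReal_add (by positivity) (by positivity)]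
      exact ENNReal.ofReal_le_ofReal hR
    calc ∫⁻ z in K, ‖fderiv ℝ (fun z => Φ (z, g z)) z -
        (fderiv ℝ Φ (z, f z)).comp (gr (f' z))‖ₑ
        ≤ ∫⁻ z in K, (ENNReal.ofReal η + ENNReal.ofReal η * ‖f' z‖ₑ +
          ENNReal.ofReal (1 + M') * ‖fderiv ℝ g z - f' z‖ₑ) :=
          setLIntegral_mono' hK.measurableSet hpt
      _ = (∫⁻ z in K, ENNReal.ofReal η) + (∫⁻ z in K, ENNReal.ofReal η * ‖f' z‖ₑ) +
          ∫⁻ z in K, ENNReal.ofReal (1 + M') * ‖fderiv ℝ g z - f' z‖ₑ := by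
          have m0 : AEMeasurable (fun z => ‖f' z‖ₑ) (volume.restrict K) :=
            (h.int K hK hKU).aestronglyMeasurable.enorm
          have m1 : AEMeasurable (fun z => ENNReal.ofReal η + ENNReal.ofReal η * ‖f' z‖ₑ)
            (volume.restrict K) := (m0.const_mul _).const_add _
          rw [lintegral_add_left' m1, lintegral_add_left' aemeasurable_const]
      _ ≤ ENNReal.ofReal (η * I0) + ENNReal.ofReal (η * I1) + ENNReal.ofReal (ε / 2) := by
          gcongr
          · rw [setLIntegral_const, hI0', ENNReal.ofReal_mul hη0.le]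
          · rw [lintegral_const_mul' _ _ ENNReal.ofReal_ne_top, hI1', ENNReal.ofReal_mul hη0.le]
          · rw [lintegral_const_mul' _ _ ENNReal.ofReal_ne_top, ← hε'2,
              ENNReal.ofReal_mul (by positivity)]
            gcongr
            exact hg3.trans (ENNReal.ofReal_le_ofReal (min_le_left _ _))
      _ ≤ ENNReal.ofReal ε := by
          rw [← ENNReal.ofReal_add (by positivity) (by positivity),
            ← ENNReal.ofReal_add (by positivity) (by positivity)]
          refine ENNReal.ofReal_le_ofReal ?_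
          nlinarith

end WG

/-- change of variables inequality for local diffeomorphisms -/
theorem lint_comp_le {V : Set ℂ} (hV : IsOpen V) {g : ℂ → ℂ} (hg : ContDiffOn ℝ 1 g V)
    (hdet : ∀ z ∈ V, (fderiv ℝ g z).det ≠ 0) {K : Set ℂ} (hK : IsCompact K) (hKV : K ⊆ V) :
    ∃ C : ℝ, 0 ≤ C ∧ ∀ (h : ℂ → ℝ≥0∞), ∫⁻ z in K, h (g z) ≤ ENNReal.ofReal C * ∫⁻ w in g '' K, h w := by
  classical
  have hd : ContinuousOn (fderiv ℝ g) V := hg.continuousOn_fderiv_of_isOpen hV (le_refl _)
  have hdc : ContinuousOn (fun z => |(fderiv ℝ g z).det|⁻¹) K := by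
    have h1 : Continuous (fun L : ℂ →L[ℝ] ℂ => L.det) := ContinuousLinearMap.continuous_det
    exact ((h1.comp_continuousOn (hd.mono hKV)).abs).inv₀
      fun z hz => abs_ne_zero.2 (hdet z (hKV hz))
  obtain ⟨M, hM⟩ := hK.exists_bound_of_continuousOn hdc
  have hdiff : ∀ z ∈ V, HasFDerivAt g (fderiv ℝ g z) z := fun z hz =>
    ((hg.differentiableOn (by simp)).differentiableAt (hV.mem_nhds hz)).hasFDerivAt
  -- locally injective
  have hloc : ∀ z ∈ K, ∃ r > 0, InjOn g (closedBall z r ∩ K) := by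
    intro z hz
    have hzV := hKV hz
    have hst : HasStrictFDerivAt g (fderiv ℝ g z) z :=
      (hg.contDiffAt (hV.mem_nhds hzV)).hasStrictFDerivAt (by simp)
    have hu : IsUnit (fderiv ℝ g z).det := isUnit_iff_ne_zero.2 (hdet z hzV)
    set e : ℂ ≃L[ℝ] ℂ := (fderiv ℝ g z).toContinuousLinearEquivOfDetNeZero (hdet z hzV) with he
    have hst' : HasStrictFDerivAt g (e : ℂ →L[ℝ] ℂ) z := by
      have : (e : ℂ →L[ℝ] ℂ) = fderiv ℝ g z := by
        ext v; rfl
      rw [this]; exact hst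
    have hinj : InjOn g (hst'.toOpenPartialHomeomorph g).source :=
      (hst'.toOpenPartialHomeomorph g).injOn
    have hmem : (hst'.toOpenPartialHomeomorph g).source ∈ 𝓝 z :=
      (hst'.toOpenPartialHomeomorph g).open_source.mem_nhds
        hst'.mem_toOpenPartialHomeomorph_source
    obtain ⟨r, hr, hr2⟩ := Metric.nhds_basis_closedBall.mem_iff.1 hmem
    exact ⟨r, hr, hinj.mono (inter_subset_left.trans hr2)⟩
  choose! r hr hinj using hloc
  obtain ⟨s, hs, hcov⟩ := hK.elim_nhds_subcover (fun z => closedBall z (r z))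
    (fun z hz => closedBall_mem_nhds z (hr z hz))
  refine ⟨s.card * max M 0, by positivity, fun h => ?_⟩
  have hone : ∀ z ∈ s, ∫⁻ w in closedBall z (r z) ∩ K, h (g w) ≤
      ENNReal.ofReal (max M 0) * ∫⁻ w in g '' K, h w := by
    intro z hz
    have hAm : MeasurableSet (closedBall z (r z) ∩ K) := measurableSet_closedBall.inter hK.measurableSet
    have hcv := lintegral_image_eq_lintegral_abs_det_fderiv_mul volume hAm
      (fun w hw => (hdiff w (hKV hw.2)).hasFDerivWithinAt) (hinj z (hs z hz)) h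
    calc ∫⁻ w in closedBall z (r z) ∩ K, h (g w)
        ≤ ∫⁻ w in closedBall z (r z) ∩ K, ENNReal.ofReal (max M 0) *
            (ENNReal.ofReal |(fderiv ℝ g w).det| * h (g w)) := by
          refine setLIntegral_mono' hAm fun w hw => ?_
          have h1 := hM w hw.2
          rw [Real.norm_of_nonneg (by positivity)] at h1
          have h2 : 0 < |(fderiv ℝ g w).det| := abs_pos.2 (hdet w (hKV hw.2))
          have h3 : 1 ≤ max M 0 * |(fderiv ℝ g w).det| := by
            have : |(fderiv ℝ g w).det|⁻¹ * |(fderiv ℝ g w).det| ≤ max M 0 * |(fderiv ℝ g w).det| := by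
              gcongr
              exact h1.trans (le_max_left _ _)
            rwa [inv_mul_cancel₀ h2.ne'] at this
          rw [← mul_assoc, ← ENNReal.ofReal_mul (le_max_right _ _)]
          calc h (g w) = 1 * h (g w) := (one_mul _).symm
            _ ≤ _ := by
              gcongr
              exact ENNReal.one_le_ofReal.2 h3
      _ = ENNReal.ofReal (max M 0) * ∫⁻ w in g '' (closedBall z (r z) ∩ K), h w := by
          rw [lintegral_const_mul' _ _ ENNReal.ofReal_ne_top, hcv]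
      _ ≤ _ := by
          gcongr
          exact inter_subset_right
  calc ∫⁻ z in K, h (g z) ≤ ∫⁻ z in ⋃ z : s, (closedBall (z:ℂ) (r z) ∩ K), h (g z) := by
        refine lintegral_mono_set fun z hz => ?_
        obtain ⟨w, hw, hw2⟩ := mem_iUnion₂.1 (hcov hz)
        exact mem_iUnion.2 ⟨⟨w, hw⟩, hw2, hz⟩
    _ ≤ ∑' z : s, ∫⁻ w in closedBall (z:ℂ) (r z) ∩ K, h (g w) := lintegral_iUnion_le _ _
    _ = ∑ z ∈ s, ∫⁻ w in closedBall z (r z) ∩ K, h (g w) := by
        rw [tsum_fintype]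
        exact Finset.sum_coe_sort s (fun z => ∫⁻ w in closedBall z (r z) ∩ K, h (g w))
    _ ≤ ∑ z ∈ s, ENNReal.ofReal (max M 0) * ∫⁻ w in g '' K, h w := Finset.sum_le_sum hone
    _ = ENNReal.ofReal (s.card * max M 0) * ∫⁻ w in g '' K, h w := by
        rw [Finset.sum_const, nsmul_eq_mul, ENNReal.ofReal_mul (by positivity),
          ENNReal.ofReal_natCast, mul_assoc]

end Vale.Agent.P247.H324
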