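import Vale.Agent.P247.H324.MG.WG4
import Mathlib.Geometry.Manifold.PartitionOfUnity

/-! Change of variables and locality for weak total derivatives. -/

open MeasureTheory Set Metric Filter Topology
open scoped ContDiff ENNReal Convolution Manifold

set_option linter.unusedSectionVars false
set_option linter.unusedVariables false

noncomputable section

namespace Vale.Agent.P247.H324

open Vale.Agent.P272.CT

variable {E : Type*} [NormedAddCommGroup E] [NormedSpace ℝ E]
  {F : Type*} [NormedAddCommGroup F] [NormedSpace ℝ F]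

/-- almost everywhere statements pull back under local diffeomorphisms -/
theorem ae_comp {V : Set ℂ} (hV : IsOpen V) {g : ℂ → ℂ} (hg : ContDiffOn ℝ 1 g V)
    (hdet : ∀ z ∈ V, (fderiv ℝ g z).det ≠ 0) {K : Set ℂ} (hK : IsCompact K) (hKV : K ⊆ V)
    {p : ℂ → Prop} (hp : ∀ᵐ w ∂(volume.restrict (g '' K)), p w) :
    ∀ᵐ z ∂(volume.restrict K), p (g z) := by
  obtain ⟨C, hC0, hC⟩ := lint_comp_le hV hg hdet hK hKV
  rw [ae_iff] at hp ⊢
  obtain ⟨N, hN1, hN2, hN3⟩ := exists_measurable_superset_of_null hp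
  have hgm : AEMeasurable g (volume.restrict K) :=
    (hg.continuousOn.mono hKV).aemeasurable hK.measurableSet
  have hnm : NullMeasurableSet (g ⁻¹' N) (volume.restrict K) := hgm.nullMeasurableSet_preimage hN2
  refine measure_mono_null (t := g ⁻¹' N) (fun z hz => hN1 hz) ?_
  rw [← lintegral_indicator_one₀ hnm]
  have h1 := hC (N.indicator 1)
  rw [lintegral_indicator_one hN2, hN3, mul_zero] at h1
  exact le_antisymm h1 (zero_le)

theorem int_comp {G : Type*} [NormedAddCommGroup G] {V : Set ℂ} (hV : IsOpen V) {g : ℂ → ℂ}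
    (hg : ContDiffOn ℝ 1 g V) (hdet : ∀ z ∈ V, (fderiv ℝ g z).det ≠ 0) {K : Set ℂ}
    (hK : IsCompact K) (hKV : K ⊆ V) {u : ℂ → G} (hu : IntegrableOn u (g '' K)) :
    IntegrableOn (fun z => u (g z)) K := by
  obtain ⟨C, hC0, hC⟩ := lint_comp_le hV hg hdet hK hKV
  have hgm : AEMeasurable g (volume.restrict K) :=
    (hg.continuousOn.mono hKV).aemeasurable hK.measurableSet
  obtain ⟨u0, hu0, he⟩ := hu.aestronglyMeasurable
  have he' := ae_comp hV hg hdet hK hKV he
  refine ⟨?_, ?_⟩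
  · refine AEStronglyMeasurable.congr ?_ (EventuallyEq.symm he')
    exact (hu0.aestronglyMeasurable (μ := Measure.map g (volume.restrict K))).comp_aemeasurable hgm
  · have h1 := hC (fun w => ‖u w‖ₑ)
    refine lt_of_le_of_lt h1 ?_
    exact ENNReal.mul_lt_top ENNReal.ofReal_lt_top hu.2

namespace WG

variable {U : Set ℂ} {f g : ℂ → E} {f' g' : ℂ → ℂ →L[ℝ] E}

/-- change of variables -/
theorem comp_right [CompleteSpace E] {V : Set ℂ} (hU : IsOpen U) (hV : IsOpen V) (h : WG U f f')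
    {g : ℂ → ℂ} (hg : ContDiffOn ℝ 1 g V) (hdet : ∀ z ∈ V, (fderiv ℝ g z).det ≠ 0)
    (hm : ∀ z ∈ V, g z ∈ U) :
    WG V (fun z => f (g z)) (fun z => (f' (g z)).comp (fderiv ℝ g z)) := by
  have hd : ContinuousOn (fderiv ℝ g) V := hg.continuousOn_fderiv_of_isOpen hV (le_refl _)
  have hgK : ∀ {K : Set ℂ}, IsCompact K → K ⊆ V → IsCompact (g '' K) ∧ g '' K ⊆ U := by
    intro K hK hKV
    refine ⟨hK.image_of_continuousOn (hg.continuousOn.mono hKV), ?_⟩
    rintro _ ⟨z, hz, rfl⟩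
    exact hm z (hKV hz)
  have hnorm : ∀ {K : Set ℂ}, IsCompact K → K ⊆ V → ∃ M, 0 ≤ M ∧ ∀ z ∈ K, ‖fderiv ℝ g z‖ ≤ M := by
    intro K hK hKV
    obtain ⟨M, hM⟩ := hK.exists_bound_of_continuousOn (hd.mono hKV)
    exact ⟨max M 0, le_max_right _ _, fun z hz => (hM z hz).trans (le_max_left _ _)⟩
  refine WG.of_approx hV (fun K hK hKV => int_comp hV hg hdet hK hKV
    (h.intf _ (hgK hK hKV).1 (hgK hK hKV).2)) (fun K hK hKV => ?_) ?_
  · obtain ⟨M, hM0, hM⟩ := hnorm hK hKV
    have h1 : IntegrableOn (fun z => f' (g z)) K := int_comp hV hg hdet hK hKV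
      (h.int _ (hgK hK hKV).1 (hgK hK hKV).2)
    have h2 : IntegrableOn (fun z => M * ‖f' (g z)‖) K := h1.norm.const_mul M
    refine Integrable.mono' h2 ?_ ?_
    · exact aesm_comp h1.aestronglyMeasurable ((hd.mono hKV).aestronglyMeasurable hK.measurableSet)
    · filter_upwards [ae_restrict_mem hK.measurableSet] with z hz
      refine (ContinuousLinearMap.opNorm_comp_le _ _).trans ?_
      rw [mul_comm]
      exact mul_le_mul_of_nonneg_right (hM z hz) (norm_nonneg _)
  intro K hK hKV ε hε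
  obtain ⟨M, hM0, hM⟩ := hnorm hK hKV
  obtain ⟨C, hC0, hC⟩ := lint_comp_le hV hg hdet hK hKV
  set ε' : ℝ := ε / ((M + 1) * (C + 1)) with hε'
  have hε'0 : 0 < ε' := by positivity
  obtain ⟨u, hus, _, hu1, hu2⟩ := h.approx hU (hgK hK hKV).1 (hgK hK hKV).2 hε'0
  have hcd : ContDiffOn ℝ 1 (fun z => u (g z)) V := (hus.of_le (by simp)).comp_contDiffOn hg
  have hder : ∀ z ∈ V, fderiv ℝ (fun z => u (g z)) z = (fderiv ℝ u (g z)).comp (fderiv ℝ g z) := by
    intro z hz
    have h1 : HasFDerivAt u (fderiv ℝ u (g z)) (g z) := ((hus.differentiable (by simp)) _).hasFDerivAt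
    have h2 : HasFDerivAt g (fderiv ℝ g z) z :=
      ((hg.differentiableOn (by simp)).differentiableAt (hV.mem_nhds hz)).hasFDerivAt
    exact (h1.comp z h2).fderiv
  refine ⟨fun z => u (g z), fderiv ℝ (fun z => u (g z)), V, hV, hKV, WG.of_contDiffOn hV hcd, ?_, ?_⟩
  · calc ∫⁻ z in K, ‖u (g z) - f (g z)‖ₑ ≤ ENNReal.ofReal C * ∫⁻ w in g '' K, ‖u w - f w‖ₑ :=
        hC (fun w => ‖u w - f w‖ₑ)
      _ ≤ ENNReal.ofReal C * ENNReal.ofReal ε' := by gcongr
      _ ≤ ENNReal.ofReal ε := by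
        rw [← ENNReal.ofReal_mul hC0]
        refine ENNReal.ofReal_le_ofReal ?_
        rw [hε', mul_div_assoc', div_le_iff₀ (by positivity)]
        have : 0 ≤ M * (C + 1) * ε := by positivity
        nlinarith
  · calc ∫⁻ z in K, ‖fderiv ℝ (fun z => u (g z)) z - (f' (g z)).comp (fderiv ℝ g z)‖ₑ
        ≤ ∫⁻ z in K, ENNReal.ofReal M * ‖fderiv ℝ u (g z) - f' (g z)‖ₑ := by
          refine setLIntegral_mono' hK.measurableSet fun z hz => ?_
          rw [hder z (hKV hz), ← ContinuousLinearMap.sub_comp, ← ofReal_norm, ← ofReal_norm,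
            ← ENNReal.ofReal_mul hM0]
          refine ENNReal.ofReal_le_ofReal ((ContinuousLinearMap.opNorm_comp_le _ _).trans ?_)
          rw [mul_comm]
          exact mul_le_mul_of_nonneg_right (hM z hz) (norm_nonneg _)
      _ = ENNReal.ofReal M * ∫⁻ z in K, ‖fderiv ℝ u (g z) - f' (g z)‖ₑ :=
          lintegral_const_mul' _ _ ENNReal.ofReal_ne_top
      _ ≤ ENNReal.ofReal M * (ENNReal.ofReal C * ∫⁻ w in g '' K, ‖fderiv ℝ u w - f' w‖ₑ) := by
          gcongr
          exact hC (fun w => ‖fderiv ℝ u w - f' w‖ₑ)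
      _ ≤ ENNReal.ofReal M * (ENNReal.ofReal C * ENNReal.ofReal ε') := by gcongr
      _ ≤ ENNReal.ofReal ε := by
          rw [← ENNReal.ofReal_mul hC0, ← ENNReal.ofReal_mul hM0]
          refine ENNReal.ofReal_le_ofReal ?_
          have e : M * (C * ε') = (M * C) * ε / ((M + 1) * (C + 1)) := by rw [hε']; ring
          rw [e, div_le_iff₀ (by positivity)]
          have : 0 ≤ (M + C + 1) * ε := by positivity
          nlinarith

/-- weak derivatives are local -/
theorem of_local (hU : IsOpen U) (h : ∀ z ∈ U, ∃ V, IsOpen V ∧ z ∈ V ∧ WG V f f') :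
    WG U f f' := by
  classical
  have hint : ∀ {G : Type _} [NormedAddCommGroup G] {u : ℂ → G},
      (∀ z ∈ U, ∃ V, IsOpen V ∧ z ∈ V ∧ ∀ K, IsCompact K → K ⊆ V → IntegrableOn u K) →
      ∀ K, IsCompact K → K ⊆ U → IntegrableOn u K := by
    intro G _ u hu K hK hKU
    have h1 : LocallyIntegrableOn u K := by
      intro x hx
      obtain ⟨V, hV, hxV, hV2⟩ := hu x (hKU hx)
      obtain ⟨r, hr, hr2⟩ := Metric.nhds_basis_closedBall.mem_iff.1 (hV.mem_nhds hxV)
      exact ⟨closedBall x r, mem_nhdsWithin_of_mem_nhds (closedBall_mem_nhds x hr),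
        hV2 _ (isCompact_closedBall x r) hr2⟩
    exact h1.integrableOn_isCompact hK
  have i1 : ∀ K, IsCompact K → K ⊆ U → IntegrableOn f K := hint fun z hz => by
    obtain ⟨V, a, b, c⟩ := h z hz
    exact ⟨V, a, b, c.intf⟩
  have i2 : ∀ K, IsCompact K → K ⊆ U → IntegrableOn f' K := hint fun z hz => by
    obtain ⟨V, a, b, c⟩ := h z hz
    exact ⟨V, a, b, c.int⟩
  refine ⟨i1, i2, ?_⟩
  intro φ hφ hc hs v
  choose! V hVo hzV hV using h
  set K := tsupport φ with hK
  have hKc : IsCompact K := hc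
  obtain ⟨s, hs1, hcov⟩ := hKc.elim_nhds_subcover V (fun z hz => (hVo z (hs hz)).mem_nhds (hzV z (hs hz)))
  have hcov' : K ⊆ ⋃ i : s, V i := by
    intro z hz
    obtain ⟨w, hw, hw2⟩ := mem_iUnion₂.1 (hcov hz)
    exact mem_iUnion.2 ⟨⟨w, hw⟩, hw2⟩
  obtain ⟨ρ, hρ⟩ := SmoothPartitionOfUnity.exists_isSubordinate 𝓘(ℝ, ℂ) (isClosed_tsupport φ)
    (fun i : s => V i) (fun i => hVo i (hs (hs1 i i.2))) hcov'
  have hρs : ∀ i : s, ContDiff ℝ ∞ (ρ i) := fun i => (ρ i).contMDiff.contDiff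
  have hsum : ∀ z, ∑ i : s, ρ i z * φ z = φ z := by
    intro z
    rw [← Finset.sum_mul]
    by_cases hz : z ∈ K
    · have := ρ.sum_eq_one hz
      rw [finsum_eq_sum_of_fintype] at this
      rw [this, one_mul]
    · rw [image_eq_zero_of_notMem_tsupport hz, mul_zero]
  have hψ : ∀ i : s, ContDiff ℝ ∞ (fun z => ρ i z * φ z) := fun i => (hρs i).mul hφ
  have hψc : ∀ i : s, HasCompactSupport (fun z => ρ i z * φ z) := fun i => hc.mul_left
  have hψs : ∀ i : s, tsupport (fun z => ρ i z * φ z) ⊆ V i := fun i => by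
    refine (tsupport_mul_subset_left).trans (hρ i)
  have hwd : ∀ i : s, ∫ z, fderiv ℝ (fun z => ρ i z * φ z) z v • f z =
      - ∫ z, (ρ i z * φ z) • f' z v := fun i =>
    (hV i (hs (hs1 i i.2))).wd _ (hψ i) (hψc i) (hψs i) v
  have hder : ∀ z, ∑ i : s, fderiv ℝ (fun z => ρ i z * φ z) z v = fderiv ℝ φ z v := by
    intro z
    have h1 : HasFDerivAt (fun z => ∑ i : s, ρ i z * φ z)
        (∑ i : s, fderiv ℝ (fun z => ρ i z * φ z) z) z := by
      refine HasFDerivAt.fun_sum fun i _ => ?_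
      exact (((hψ i).differentiable (by simp)) z).hasFDerivAt
    have h2 : (fun z => ∑ i : s, ρ i z * φ z) = φ := funext hsum
    rw [h2] at h1
    rw [h1.fderiv, ContinuousLinearMap.sum_apply]
  have j1 : ∀ i : s, Integrable fun z => fderiv ℝ (fun z => ρ i z * φ z) z v • f z := fun i => by
    obtain ⟨d1, d2, d3⟩ := test_fderiv (hψ i) (hψc i) v
    exact int_test d1 d2 (d3.trans (hψs i)) (hV i (hs (hs1 i i.2))).intf
  have j2 : ∀ i : s, Integrable fun z => (ρ i z * φ z) • f' z v := fun i =>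
    int_test (hψ i).continuous (hψc i) (hψs i)
      fun K' hK' hKV' => int_apply ((hV i (hs (hs1 i i.2))).int K' hK' hKV') v
  calc ∫ z, fderiv ℝ φ z v • f z = ∫ z, ∑ i : s, fderiv ℝ (fun z => ρ i z * φ z) z v • f z := by
        refine integral_congr_ae (Eventually.of_forall fun z => ?_)
        simp only
        rw [← Finset.sum_smul, hder]
    _ = ∑ i : s, ∫ z, fderiv ℝ (fun z => ρ i z * φ z) z v • f z :=
        integral_finsetSum _ fun i _ => j1 i
    _ = - ∑ i : s, ∫ z, (ρ i z * φ z) • f' z v := by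
        rw [← Finset.sum_neg_distrib]
        exact Finset.sum_congr rfl fun i _ => hwd i
    _ = - ∫ z, φ z • f' z v := by
        rw [← integral_finsetSum _ fun i _ => j2 i]
        congr 1
        refine integral_congr_ae (Eventually.of_forall fun z => ?_)
        simp only
        rw [← Finset.sum_smul, hsum]

end WG

end Vale.Agent.P247.H324
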